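import Crest.Agent.ZD.SpBasic
import Crest.Prelude.Def_ClassifyingComplex

set_option autoImplicit false

namespace Crest.Agent.ZD

open Set Metric

lemma contOn_symm {n : ℕ} {X : Type} [TopologicalSpace X] [T2Space X] (f : (Fin n → ℝ) → X)
    (hc : Continuous f) (hi : InjOn f (ball 0 1))
    (hs : ∀ x ∈ sphere (0 : Fin n → ℝ) 1, f x ∉ f '' ball 0 1) :
    ContinuousOn (hi.toPartialEquiv f _).symm (hi.toPartialEquiv f _).target := by
  rw [continuousOn_iff_isClosed]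
  intro t ht
  refine ⟨f '' (t ∩ closedBall 0 1),
    (((isCompact_closedBall 0 1).inter_left ht).image hc).isClosed, ?_⟩
  ext y
  constructor
  · rintro ⟨h1, h2⟩
    refine ⟨⟨_, ⟨h1, ball_subset_closedBall ((hi.toPartialEquiv f _).map_target h2)⟩,
      (hi.toPartialEquiv f _).right_inv h2⟩, h2⟩
  · rintro ⟨⟨x, ⟨hx1, hx2⟩, rfl⟩, h2⟩
    refine ⟨?_, h2⟩
    have hb : x ∈ ball (0 : Fin n → ℝ) 1 := by
      rcases (mem_closedBall.mp hx2).lt_or_eq with h | h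
      · exact h
      · exact absurd h2 (hs x h)
    have := (hi.toPartialEquiv f _).left_inv hb
    show (hi.toPartialEquiv f _).symm (f x) ∈ t
    exact this.symm ▸ hx1

namespace OSC
variable {G : Type} [Group G] (K : OSC G)

/-! ### The action -/

lemma act_vtx (g : G) (a : K.V) : (fun v => K.vtx a (g⁻¹ • v)) = K.vtx (g • a) := by
  funext v
  by_cases h : v = g • a
  · subst h; rw [inv_smul_smul, K.vtx_self, K.vtx_self]
  · rw [K.vtx_ne h, K.vtx_ne fun e => h (inv_smul_eq_iff.mp e)]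

lemma act_hull (g : G) {a b c : K.V} {y : K.V → ℝ} (hy : y ∈ K.hull a b c) :
    (fun v => y (g⁻¹ • v)) ∈ K.hull (g • a) (g • b) (g • c) := by
  obtain ⟨l0, l1, l2, h0, h1, h2, hs, rfl⟩ := K.mem_hull.mp hy
  refine K.mem_hull.mpr ⟨l0, l1, l2, h0, h1, h2, hs, ?_⟩
  rw [← K.act_vtx, ← K.act_vtx, ← K.act_vtx]
  rfl

lemma act_face (g : G) {a b c : K.V} (h : K.Face a b c) : K.Face (g • a) (g • b) (g • c) := by
  rcases h with h | ⟨h, rfl⟩ | ⟨rfl, rfl⟩
  · exact K.face_t (K.T_smul g _ _ _ h)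
  · exact K.face_e (K.E_smul g _ _ h)
  · exact K.face_v _

instance actSp : MulAction G K.Sp where
  smul g y := ⟨fun v => y.1 (g⁻¹ • v), by
    obtain ⟨a, b, c, h, hy⟩ := y.2
    exact K.hull_sub (K.act_face g h) (K.act_hull g hy)⟩
  one_smul y := by
    apply Subtype.ext; funext v
    show y.1 ((1 : G)⁻¹ • v) = _
    simp
  mul_smul g h y := by
    apply Subtype.ext; funext v
    show y.1 ((g * h)⁻¹ • v) = y.1 (h⁻¹ • g⁻¹ • v)
    rw [mul_inv_rev, mul_smul]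

lemma smul_val (g : G) (y : K.Sp) (v : K.V) : (g • y).1 v = y.1 (g⁻¹ • v) := rfl

instance : ContinuousConstSMul G K.Sp where
  continuous_const_smul g := by
    apply Continuous.subtype_mk
    exact continuous_pi fun v => (continuous_apply _).comp continuous_subtype_val

instance : WeaklyLocallyCompactSpace K.Sp where
  exists_compact_mem_nhds y := by
    obtain ⟨U, hU, hfin⟩ := K.locallyFinite_cf y
    refine ⟨⋃ σ ∈ {σ | (K.cf σ ∩ U).Nonempty}, K.cf σ,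
      hfin.isCompact_biUnion fun σ _ => K.isCompact_cf σ, Filter.mem_of_superset hU ?_⟩
    intro z hz
    obtain ⟨σ, hσ⟩ := mem_iUnion.mp (K.iUnion_cf ▸ mem_univ z)
    exact mem_biUnion (x := σ) ⟨z, hσ, hz⟩ hσ

lemma finite_supp {C : Set K.Sp} (hC : IsCompact C) : {v | ∃ y ∈ C, y.1 v ≠ 0}.Finite := by
  have h := K.locallyFinite_cf.finite_nonempty_inter_compact hC
  refine (h.biUnion (t := fun σ => ({σ.1.1, σ.1.2.1, σ.1.2.2} : Set K.V))
    fun _ _ => Set.toFinite _).subset ?_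
  rintro v ⟨y, hy, hv⟩
  obtain ⟨σ, hσ⟩ := mem_iUnion.mp (K.iUnion_cf ▸ mem_univ y)
  exact mem_biUnion (x := σ) ⟨y, hσ, hy⟩ (K.mem_of_ne_zero hσ hv)

instance : ProperlyDiscontinuousSMul G K.Sp where
  finite_disjoint_inter_image {C L} hC hL := by
    have h := (K.finite_supp hC).prod (K.finite_supp hL)
    refine (h.biUnion (t := fun p => {g : G | g • p.1 = p.2}) fun p _ => ?_).subset ?_
    · refine Set.Subsingleton.finite fun g hg g' hg' => ?_
      have : (g'⁻¹ * g) • p.1 = p.1 := by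
        rw [mul_smul, show g • p.1 = p.2 from hg, ← show g' • p.1 = p.2 from hg', inv_smul_smul]
      have := K.free _ _ this
      exact (inv_mul_eq_one.mp this).symm
    · rintro g ⟨_, ⟨y, hy, rfl⟩, hz⟩
      obtain ⟨a, b, c, -, -, ha, -, -⟩ := K.exists_carrier y.2
      refine mem_biUnion (x := (a, g • a)) ⟨⟨y, hy, ha.ne'⟩, ⟨g • y, hz, ?_⟩⟩ rfl
      rw [smul_val, inv_smul_smul]; exact ha.ne'

/-! ### Open faces -/

open Classical in
/-- dimension of a face -/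
noncomputable def dim (a b c : K.V) : ℕ := if K.T a b c then 2 else if K.E a b then 1 else 0

lemma nT (a b : K.V) : ¬ K.T a b b := fun h => K.irrefl b (K.T_E _ _ _ h).2.1
lemma dim_t {a b c : K.V} (h : K.T a b c) : K.dim a b c = 2 := by simp [dim, h]
lemma dim_e {a b : K.V} (h : K.E a b) : K.dim a b b = 1 := by simp [dim, h, K.nT]
lemma dim_v (a : K.V) : K.dim a a a = 0 := by simp [dim, K.nT, K.irrefl]

lemma dim_smul (g : G) {a b c : K.V} (h : K.Face a b c) :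
    K.dim (g • a) (g • b) (g • c) = K.dim a b c := by
  rcases h with h | ⟨h, rfl⟩ | ⟨rfl, rfl⟩
  · rw [K.dim_t h, K.dim_t (K.T_smul g _ _ _ h)]
  · rw [K.dim_e h, K.dim_e (K.E_smul g _ _ h)]
  · rw [K.dim_v, K.dim_v]

lemma dim_lt {a b c a' b' c' : K.V} (h : K.Face a b c) (h' : K.Face a' b' c')
    (ha : a' = a ∨ a' = b ∨ a' = c) (hb : b' = a ∨ b' = b ∨ b' = c)
    (hc : c' = a ∨ c' = b ∨ c' = c) :
    (a' = a ∧ b' = b ∧ c' = c) ∨ K.dim a' b' c' < K.dim a b c := by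
  rcases h with h | ⟨h, rfl⟩ | ⟨rfl, rfl⟩
  · obtain ⟨hab, hbc, hac⟩ := K.T_E a b c h
    rw [K.dim_t h]
    rcases K.sub_t h h' ha hb hc with ⟨rfl, rfl, rfl⟩ | ⟨rfl, rfl, rfl⟩ | ⟨rfl, rfl, rfl⟩ |
      ⟨rfl, rfl, rfl⟩ | ⟨rfl, rfl, rfl⟩ | ⟨rfl, rfl, rfl⟩ | ⟨rfl, rfl, rfl⟩ <;>
      simp [K.dim_e, K.dim_v, *]
  · rw [K.dim_e h]
    rcases K.sub_e h h' ha hb hc with ⟨rfl, rfl, rfl⟩ | ⟨rfl, rfl, rfl⟩ | ⟨rfl, rfl, rfl⟩ <;>
      simp [K.dim_v]
  · left; simpa using And.intro ha (And.intro hb hc)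

/-- open face -/
def Oc (a b c : K.V) (y : K.V → ℝ) : Prop := y ∈ K.hull a b c ∧ 0 < y a ∧ 0 < y b ∧ 0 < y c

lemma oc_unique {a b c a' b' c' : K.V} (h : K.Face a b c) (h' : K.Face a' b' c') {y : K.V → ℝ}
    (hy : K.Oc a b c y) (hy' : K.Oc a' b' c' y) : a' = a ∧ b' = b ∧ c' = c := by
  rcases K.dim_lt h h' (K.mem_of_ne_zero hy.1 hy'.2.1.ne') (K.mem_of_ne_zero hy.1 hy'.2.2.1.ne')
    (K.mem_of_ne_zero hy.1 hy'.2.2.2.ne') with e | e
  · exact e
  rcases K.dim_lt h' h (K.mem_of_ne_zero hy'.1 hy.2.1.ne') (K.mem_of_ne_zero hy'.1 hy.2.2.1.ne')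
    (K.mem_of_ne_zero hy'.1 hy.2.2.2.ne') with e' | e'
  · exact ⟨e'.1.symm, e'.2.1.symm, e'.2.2.symm⟩
  omega

lemma oc_smul (g : G) {a b c : K.V} {y : K.Sp} (hy : K.Oc a b c y.1) :
    K.Oc (g • a) (g • b) (g • c) (g • y).1 := by
  refine ⟨K.act_hull g hy.1, ?_, ?_, ?_⟩ <;> rw [smul_val, inv_smul_smul]
  exacts [hy.2.1, hy.2.2.1, hy.2.2.2]

instance : IsCancelSMul G K.Sp := by
  refine isCancelSMul_iff_eq_one_of_smul_eq.mpr fun g y h => ?_
  obtain ⟨a, b, c, hf, hy⟩ := K.exists_carrier y.2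
  have h1 := K.oc_smul g (y := y) hy
  rw [h] at h1
  exact K.free g a (K.oc_unique hf (K.act_face g hf) hy h1).1

/-! ### Characteristic maps -/

/-- normalised coordinate -/
noncomputable def co {n : ℕ} (x : Fin n → ℝ) (i : ℕ) : ℝ :=
  if h : i < n then max 0 (min 1 ((x ⟨i, h⟩ + 1) / 2)) else 1 / 2

lemma co_nonneg {n : ℕ} (x : Fin n → ℝ) (i : ℕ) : 0 ≤ co x i := by
  unfold co; split_ifs
  · exact le_max_left _ _
  · norm_num

lemma co_le {n : ℕ} (x : Fin n → ℝ) (i : ℕ) : co x i ≤ 1 := by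
  unfold co; split_ifs
  · exact max_le zero_le_one (min_le_left _ _)
  · norm_num

lemma continuous_co {n : ℕ} (i : ℕ) : Continuous fun x : Fin n → ℝ => co x i := by
  unfold co; split_ifs <;> fun_prop

lemma abs_lt_of_ball {n : ℕ} {x : Fin n → ℝ} (hx : x ∈ ball (0 : Fin n → ℝ) 1) (i : Fin n) :
    |x i| < 1 := (norm_le_pi_norm x i).trans_lt (mem_ball_zero_iff.mp hx)

lemma co_ball {n : ℕ} {x : Fin n → ℝ} (hx : x ∈ ball (0 : Fin n → ℝ) 1) (i : Fin n) :
    co x i = (x i + 1) / 2 := by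
  have := abs_lt.mp (abs_lt_of_ball hx i)
  simp only [co, dif_pos i.2, Fin.eta]
  rw [min_eq_right (by linarith), max_eq_right (by linarith)]

lemma co_pos {n : ℕ} {x : Fin n → ℝ} (hx : x ∈ ball (0 : Fin n → ℝ) 1) (i : ℕ) :
    0 < co x i ∧ co x i < 1 := by
  by_cases h : i < n
  · have := abs_lt.mp (abs_lt_of_ball hx ⟨i, h⟩)
    have e := co_ball hx ⟨i, h⟩
    simp only at e
    rw [e]; constructor <;> linarith
  · simp only [co, dif_neg h]; norm_num

lemma co_sphere {n : ℕ} {x : Fin n → ℝ} (hx : x ∈ sphere (0 : Fin n → ℝ) 1) :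
    ∃ i < n, co x i = 0 ∨ co x i = 1 := by
  by_contra hcon
  push Not at hcon
  have : ‖x‖ < 1 := by
    rw [pi_norm_lt_iff one_pos]
    intro i
    obtain ⟨h0, h1⟩ := hcon i i.2
    simp only [co, dif_pos i.2, Fin.eta] at h0 h1
    rw [Real.norm_eq_abs, abs_lt]
    constructor
    · by_contra h
      exact h0 (max_eq_left (min_le_of_right_le (by linarith)))
    · by_contra h
      exact h1 (by rw [min_eq_left (by linarith)]; simp)
  rw [mem_sphere_zero_iff_norm] at hx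
  linarith

lemma exists_co (n : ℕ) (s : ℕ → ℝ) (hs : ∀ i < n, 0 < s i ∧ s i < 1) :
    ∃ x ∈ ball (0 : Fin n → ℝ) 1, ∀ i < n, co x i = s i := by
  have hb : (fun i : Fin n => 2 * s i - 1) ∈ ball (0 : Fin n → ℝ) 1 := by
    rw [mem_ball_zero_iff, pi_norm_lt_iff one_pos]
    intro i
    have := hs i i.2
    rw [Real.norm_eq_abs, abs_lt]; constructor <;> linarith
  refine ⟨_, hb, fun i hi => ?_⟩
  have := co_ball hb ⟨i, hi⟩
  simp only at this
  rw [this]; ring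

/-- the parametrisation of a face -/
noncomputable def par (a b c : K.V) {n : ℕ} (x : Fin n → ℝ) : K.V → ℝ :=
  (1 - co x 0) • K.vtx a + (co x 0 * (1 - co x 1)) • K.vtx b + (co x 0 * co x 1) • K.vtx c

lemma par_mem (a b c : K.V) {n : ℕ} (x : Fin n → ℝ) : K.par a b c x ∈ K.hull a b c :=
  K.mem_hull.mpr ⟨_, _, _, sub_nonneg.mpr (co_le _ _),
    mul_nonneg (co_nonneg _ _) (sub_nonneg.mpr (co_le _ _)),
    mul_nonneg (co_nonneg _ _) (co_nonneg _ _), by ring, rfl⟩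

lemma continuous_par (a b c : K.V) (n : ℕ) : Continuous fun x : Fin n → ℝ => K.par a b c x := by
  have h0 := continuous_co (n := n) 0
  have h1 := continuous_co (n := n) 1
  unfold par
  fun_prop

lemma par_t {a b c : K.V} (h : K.T a b c) {n : ℕ} (x : Fin n → ℝ) :
    K.par a b c x a = 1 - co x 0 ∧ K.par a b c x b = co x 0 * (1 - co x 1) ∧
      K.par a b c x c = co x 0 * co x 1 := by
  obtain ⟨hab, hbc, hac⟩ := K.T_E a b c h
  have hab := K.ne_of_E hab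
  have hbc := K.ne_of_E hbc
  have hac := K.ne_of_E hac
  simp [par, K.vtx_ne hab, K.vtx_ne hac, K.vtx_ne hab.symm, K.vtx_ne hbc, K.vtx_ne hac.symm,
    K.vtx_ne hbc.symm]

lemma par_e {a b : K.V} (h : K.E a b) {n : ℕ} (x : Fin n → ℝ) :
    K.par a b b x a = 1 - co x 0 ∧ K.par a b b x b = co x 0 := by
  have hab := K.ne_of_E h
  simp [par, K.vtx_ne hab, K.vtx_ne hab.symm]
  ring

lemma par_oc {a b c : K.V} {n : ℕ} {x : Fin n → ℝ} (hx : x ∈ ball (0 : Fin n → ℝ) 1) :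
    K.Oc a b c (K.par a b c x) := by
  obtain ⟨p0, q0⟩ := co_pos hx 0
  obtain ⟨p1, q1⟩ := co_pos hx 1
  have r0 := sub_pos.mpr q0
  have r1 := sub_pos.mpr q1
  refine ⟨K.par_mem _ _ _ _, ?_, ?_, ?_⟩ <;>
    simp only [par, Pi.add_apply, Pi.smul_apply, smul_eq_mul, vtx_self, mul_one]
  · have := K.vtx_nonneg b a
    have := K.vtx_nonneg c a
    positivity
  · have := K.vtx_nonneg a b
    have := K.vtx_nonneg c b
    positivity
  · have := K.vtx_nonneg a c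
    have := K.vtx_nonneg b c
    positivity

lemma par_sphere {a b c : K.V} (h : K.Face a b c) {n : ℕ} (hn : K.dim a b c = n)
    {x : Fin n → ℝ} (hx : x ∈ sphere (0 : Fin n → ℝ) 1) : ¬ K.Oc a b c (K.par a b c x) := by
  obtain ⟨i, hi, hco⟩ := co_sphere hx
  rintro ⟨-, ha, hb, hc⟩
  rcases h with h | ⟨h, rfl⟩ | ⟨rfl, rfl⟩
  · rw [K.dim_t h] at hn
    obtain ⟨e1, e2, e3⟩ := K.par_t h x
    rw [e1] at ha; rw [e2] at hb; rw [e3] at hc
    have : i = 0 ∨ i = 1 := by omega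
    rcases this with rfl | rfl <;> rcases hco with h | h <;> simp [h] at ha hb hc
  · rw [K.dim_e h] at hn
    obtain ⟨e1, e2⟩ := K.par_e h x
    rw [e1] at ha; rw [e2] at hb
    have : i = 0 := by omega
    subst this
    rcases hco with h | h <;> simp [h] at ha hb
  · rw [K.dim_v] at hn; omega

lemma par_inj {a b c : K.V} (h : K.Face a b c) {n : ℕ} (hn : K.dim a b c = n) :
    InjOn (K.par a b c (n := n)) (ball 0 1) := by
  intro x hx x' hx' e
  have key : (∀ i < n, co x i = co x' i) → x = x' := fun H => by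
    funext i
    have := H i i.2
    rw [co_ball hx, co_ball hx'] at this
    linarith
  apply key
  intro i hi
  rcases h with h | ⟨h, rfl⟩ | ⟨rfl, rfl⟩
  · rw [K.dim_t h] at hn
    obtain ⟨e1, -, e3⟩ := K.par_t h x
    obtain ⟨f1, -, f3⟩ := K.par_t h x'
    rw [e] at e1 e3
    have h0 : co x 0 = co x' 0 := by linarith
    have : i = 0 ∨ i = 1 := by omega
    rcases this with rfl | rfl
    · exact h0
    · rw [f3, ← h0] at e3
      exact (mul_left_cancel₀ (co_pos hx 0).1.ne' e3).symm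
  · rw [K.dim_e h] at hn
    obtain ⟨e1, -⟩ := K.par_e h x
    obtain ⟨f1, -⟩ := K.par_e h x'
    rw [e] at e1
    have : i = 0 := by omega
    subst this
    linarith
  · rw [K.dim_v] at hn; omega

lemma par_surj {a b c : K.V} (h : K.Face a b c) {n : ℕ} (hn : K.dim a b c = n) {y : K.V → ℝ}
    (hy : K.Oc a b c y) : ∃ x ∈ ball (0 : Fin n → ℝ) 1, K.par a b c x = y := by
  obtain ⟨hm, ha, hb, hc⟩ := hy
  rcases h with h | ⟨h, rfl⟩ | ⟨rfl, rfl⟩
  · rw [K.dim_t h] at hn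
    subst hn
    obtain ⟨-, -, -, e, hy⟩ := K.mem_hull_t h hm
    have hs : 0 < y b + y c := by linarith
    obtain ⟨x, hx, hco⟩ := exists_co 2 (fun i => if i = 0 then y b + y c else y c / (y b + y c))
      (by
        intro i _
        split_ifs
        · constructor <;> linarith
        · exact ⟨div_pos hc hs, (div_lt_one hs).mpr (by linarith)⟩)
    refine ⟨x, hx, ?_⟩
    rw [par, hco 0 (by norm_num), hco 1 (by norm_num)]
    conv_rhs => rw [hy]
    simp only [if_true, one_ne_zero, if_false]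
    congr 2
    · congr 1; ring
    · congr 1; field_simp; ring
    · field_simp
  · rw [K.dim_e h] at hn
    subst hn
    obtain ⟨-, -, e, hy⟩ := K.mem_hull_e (K.ne_of_E h) hm
    obtain ⟨x, hx, hco⟩ := exists_co 1 (fun _ => y c) fun _ _ => ⟨hb, by linarith⟩
    refine ⟨x, hx, ?_⟩
    rw [par, hco 0 (by norm_num), add_assoc, ← add_smul]
    conv_rhs => rw [hy]
    congr 2; ring
  · refine ⟨0, mem_ball_self one_pos, ?_⟩
    rw [K.mem_hull_v hm, K.mem_hull_v (K.par_mem _ _ _ _)]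

/-! ### Cells -/

/-- orbit representative -/
noncomputable def rp (v : K.V) : K.V := (Quotient.mk (MulAction.orbitRel G K.V) v).out

lemma rp_smul (g : G) (v : K.V) : K.rp (g • v) = K.rp v := by
  unfold rp
  congr 1
  exact Quotient.sound (MulAction.mem_orbit v g)

lemma exists_rp (v : K.V) : ∃ g : G, g • v = K.rp v :=
  Quotient.mk_out (s := MulAction.orbitRel G K.V) v

lemma finite_rp : {v | K.rp v = v}.Finite := by
  obtain ⟨s, hs, h⟩ := K.cofin
  refine (hs.image K.rp).subset fun v hv => ?_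
  obtain ⟨g, hg⟩ := h v
  exact ⟨_, hg, (K.rp_smul g v).trans hv⟩

/-- the cells of the quotient -/
def Cell (n : ℕ) : Type := {σ : K.Fc // K.rp σ.1.1 = σ.1.1 ∧ K.dim σ.1.1 σ.1.2.1 σ.1.2.2 = n}

lemma finite_cell (n : ℕ) : Finite (K.Cell n) := by
  refine Set.Finite.to_subtype (s := {σ : K.Fc | K.rp σ.1.1 = σ.1.1 ∧
    K.dim σ.1.1 σ.1.2.1 σ.1.2.2 = n}) ?_
  refine (K.finite_rp.biUnion fun v _ => K.finite_faces_at v).subset fun σ hσ => ?_
  exact mem_biUnion (x := σ.1.1) hσ.1 (Or.inl rfl)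

lemma isEmpty_cell {n : ℕ} (hn : 2 < n) : IsEmpty (K.Cell n) := by
  refine ⟨fun σ => ?_⟩
  have := σ.2.2
  unfold dim at this
  split_ifs at this <;> omega

/-- the quotient space -/
abbrev Q : Type := Quotient (MulAction.orbitRel G K.Sp)

/-- the point of a cell -/
noncomputable def pc {n : ℕ} (σ : K.Cell n) (x : Fin n → ℝ) : K.Sp :=
  ⟨K.par σ.1.1.1 σ.1.1.2.1 σ.1.1.2.2 x, K.hull_sub σ.1.2 (K.par_mem _ _ _ _)⟩

/-- characteristic map -/
noncomputable def chi {n : ℕ} (σ : K.Cell n) (x : Fin n → ℝ) : K.Q := Quotient.mk _ (K.pc σ x)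

lemma continuous_chi {n : ℕ} (σ : K.Cell n) : Continuous (K.chi σ) :=
  continuous_quotient_mk'.comp ((K.continuous_par _ _ _ n).subtype_mk _)

lemma rigid {σ τ : K.Fc} (hσ : K.rp σ.1.1 = σ.1.1) (hτ : K.rp τ.1.1 = τ.1.1) {y z : K.Sp}
    (hy : K.Oc σ.1.1 σ.1.2.1 σ.1.2.2 y.1) (hz : K.Oc τ.1.1 τ.1.2.1 τ.1.2.2 z.1)
    (h : (Quotient.mk _ y : K.Q) = Quotient.mk _ z) : σ = τ ∧ y = z := by
  obtain ⟨g, hg⟩ : y ∈ MulAction.orbit G z := Quotient.exact h
  simp only at hg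
  have h1 := K.oc_smul g hz
  rw [hg] at h1
  obtain ⟨e1, e2, e3⟩ := K.oc_unique σ.2 (K.act_face g τ.2) hy h1
  have : g • τ.1.1 = τ.1.1 :=
    e1.trans (hσ.symm.trans ((congrArg K.rp e1.symm).trans ((K.rp_smul g _).trans hτ)))
  have hg1 := K.free _ _ this
  subst hg1
  simp only [one_smul] at e1 e2 e3 hg
  exact ⟨Subtype.ext (Prod.ext e1.symm (Prod.ext e2.symm e3.symm)), hg.symm⟩

lemma chi_inj {n : ℕ} (σ : K.Cell n) : InjOn (K.chi σ) (ball 0 1) := fun x hx x' hx' h =>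
  K.par_inj σ.1.2 σ.2.2 hx hx' (congrArg Subtype.val
    (K.rigid σ.2.1 σ.2.1 (y := K.pc σ x) (z := K.pc σ x') (K.par_oc hx) (K.par_oc hx') h).2)

lemma exists_cell {a b c : K.V} (h : K.Face a b c) {y : K.Sp} (hy : K.Oc a b c y.1) :
    ∃ τ : K.Cell (K.dim a b c), (Quotient.mk _ y : K.Q) ∈ K.chi τ '' ball 0 1 := by
  obtain ⟨g, hg⟩ := K.exists_rp a
  let τ : K.Cell (K.dim a b c) := ⟨⟨(g • a, g • b, g • c), K.act_face g h⟩,
    by show K.rp (g • a) = g • a; rw [K.rp_smul, hg], K.dim_smul g h⟩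
  obtain ⟨x, hx, e⟩ := K.par_surj τ.1.2 τ.2.2 (K.oc_smul g hy)
  refine ⟨τ, x, hx, ?_⟩
  have : K.pc τ x = g • y := Subtype.ext e
  rw [chi, this]
  exact Quotient.sound (MulAction.mem_orbit y g)

lemma chi_disjoint {n m : ℕ} (σ : K.Cell n) (τ : K.Cell m) {q : K.Q}
    (h1 : q ∈ K.chi σ '' ball 0 1) (h2 : q ∈ K.chi τ '' ball 0 1) : σ.1 = τ.1 := by
  obtain ⟨x, hx, rfl⟩ := h1
  obtain ⟨x', hx', e⟩ := h2
  exact (K.rigid σ.2.1 τ.2.1 (y := K.pc σ x) (z := K.pc τ x') (K.par_oc hx) (K.par_oc hx')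
    e.symm).1

lemma chi_sphere {n : ℕ} (σ : K.Cell n) {x : Fin n → ℝ} (hx : x ∈ sphere (0 : Fin n → ℝ) 1) :
    ∃ m < n, ∃ τ : K.Cell m, K.chi σ x ∈ K.chi τ '' ball 0 1 := by
  obtain ⟨a, b, c, hf, hy⟩ := K.exists_carrier (K.pc σ x).2
  have hm := K.par_mem σ.1.1.1 σ.1.1.2.1 σ.1.1.2.2 x
  rcases K.dim_lt σ.1.2 hf (K.mem_of_ne_zero hm hy.2.1.ne') (K.mem_of_ne_zero hm hy.2.2.1.ne')
    (K.mem_of_ne_zero hm hy.2.2.2.ne') with ⟨rfl, rfl, rfl⟩ | e
  · exact absurd hy (K.par_sphere σ.1.2 σ.2.2 hx)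
  · obtain ⟨τ, hτ⟩ := K.exists_cell hf (y := K.pc σ x) hy
    exact ⟨_, σ.2.2 ▸ e, τ, hτ⟩

end OSC

/-- (C1) ZD/CW.lean -/
theorem OSC.cw {G : Type} [Group G] (K : OSC G) (h : ContractibleSpace K.Sp) :
    Crest.Topology.HasFiniteClassifyingComplex G 2 := by
  have hp := isQuotientCoveringMap_quotientMk_of_properlyDiscontinuousSMul (G := G) (E := K.Sp)
  let mp : (n : ℕ) → K.Cell n → PartialEquiv (Fin n → ℝ) K.Q := fun n σ =>
    (K.chi_inj σ).toPartialEquiv (K.chi σ) _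
  have h1 : ∀ᶠ n in Filter.atTop, IsEmpty (K.Cell n) :=
    Filter.eventually_atTop.mpr ⟨3, fun n hn => K.isEmpty_cell hn⟩
  have h2 : ∀ (n : ℕ) (i : K.Cell n), (mp n i).source = ball 0 1 := fun _ _ => rfl
  have h3 : ∀ (n : ℕ) (i : K.Cell n), ContinuousOn (mp n i) (closedBall 0 1) :=
    fun _ σ => (K.continuous_chi σ).continuousOn
  have h4 : ∀ (n : ℕ) (i : K.Cell n), ContinuousOn (mp n i).symm (mp n i).target := by
    intro n σ
    refine contOn_symm _ (K.continuous_chi σ) _ fun x hx hb => ?_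
    obtain ⟨m, hm, τ, hτ⟩ := K.chi_sphere σ hx
    have e := K.chi_disjoint σ τ hb hτ
    have := σ.2.2
    rw [e, τ.2.2] at this
    omega
  have h5 : (univ : Set (Σ n, K.Cell n)).PairwiseDisjoint
      (fun ni => mp ni.1 ni.2 '' ball 0 1) := by
    rintro ⟨n, σ⟩ - ⟨m, τ⟩ - hne
    refine Set.disjoint_left.mpr fun q hq hq' => hne ?_
    have e := K.chi_disjoint σ τ hq hq'
    have : n = m := by rw [← σ.2.2, e, τ.2.2]
    subst this
    rw [show σ = τ from Subtype.ext e]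
  have h6 : ∀ (n : ℕ) (i : K.Cell n), MapsTo (mp n i) (sphere 0 1)
      (⋃ (m < n) (j : K.Cell m), mp m j '' closedBall 0 1) := by
    intro n σ x hx
    obtain ⟨m, hm, τ, hτ⟩ := K.chi_sphere σ hx
    simp only [mem_iUnion]
    exact ⟨m, hm, τ, image_mono ball_subset_closedBall hτ⟩
  have h7 : ⋃ (n : ℕ) (j : K.Cell n), mp n j '' closedBall 0 1 = univ := by
    apply eq_univ_of_forall
    rintro ⟨y⟩
    obtain ⟨a, b, c, hf, hy⟩ := K.exists_carrier y.2
    obtain ⟨τ, hτ⟩ := K.exists_cell hf (y := y) hy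
    simp only [mem_iUnion]
    exact ⟨_, τ, image_mono ball_subset_closedBall hτ⟩
  obtain ⟨y⟩ : Nonempty K.Sp := inferInstance
  refine ⟨K.Q, inferInstance, Topology.CWComplex.mkFinite univ K.Cell mp h1 K.finite_cell h2 h3 h4
    h5 h6 h7, inferInstance, Topology.CWComplex.finite_mkFinite univ K.Cell mp h1 K.finite_cell
    h2 h3 h4 h5 h6 h7, fun n hn => K.isEmpty_cell hn,
    ⟨K.Sp, inferInstance, Quotient.mk _, h, hp.isCoveringMap, hp.surjective⟩,
    Quotient.mk _ y, ⟨(hp.fundamentalGroupEquiv ⟨y, rfl⟩).trans (MulEquiv.inv' G).symm⟩⟩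

end Crest.Agent.ZD
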