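import Mathlib

set_option autoImplicit false
set_option linter.unusedSectionVars false

namespace Crest.Agent.ZD.PS

open scoped unitInterval
open Set

noncomputable section

/-! ### Detectors -/

/-- an additive, homotopy invariant function on paths, faithful and full on one component -/
structure Det (Ω : Type) [TopologicalSpace Ω] (c : Ω) (A : Type) [AddCommGroup A] where
  Ψ : C(I, Ω) → A
  add : ∀ {x y z : Ω} (p : Path x y) (q : Path y z),
    Ψ (p.trans q).toContinuousMap = Ψ p.toContinuousMap + Ψ q.toContinuousMap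
  hom : ∀ {x y : Ω} (p q : Path x y), p.Homotopic q → Ψ p.toContinuousMap = Ψ q.toContinuousMap
  faith : ∀ {x y : Ω} (p q : Path x y), Joined c x →
    Ψ p.toContinuousMap = Ψ q.toContinuousMap → p.Homotopic q
  full : ∀ {x : Ω}, Joined c x → ∀ a, ∃ p : Path x x, Ψ p.toContinuousMap = a

section det
variable {Ω : Type} [TopologicalSpace Ω] (c : Ω)

open Path.Homotopic.Quotient in
open Classical in
/-- the class of a path, closed up by reference paths -/
def cls {x y : Ω} (p : Path x y) : FundamentalGroup Ω c :=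
  if h : Joined c x ∧ Joined c y then
    ((mk h.1.somePath).trans (mk p)).trans (mk h.2.somePath).symm
  else 1

/-- a continuous map from the interval as a path -/
def toP (p : C(I, Ω)) : Path (p 0) (p 1) := ⟨p, rfl, rfl⟩

lemma cls_toP {x y : Ω} (p : Path x y) : cls c (toP p.toContinuousMap) = cls c p := by
  obtain ⟨p, rfl, rfl⟩ := p
  rfl

open Path.Homotopic.Quotient in
theorem exists_det (hc : ∀ a b : FundamentalGroup Ω c, a * b = b * a) :
    ∃ (A : Type) (_ : AddCommGroup A), Nonempty (Det Ω c A) := by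
  let : CommGroup (FundamentalGroup Ω c) :=
    { (inferInstance : Group (FundamentalGroup Ω c)) with mul_comm := hc }
  refine ⟨Additive (FundamentalGroup Ω c), inferInstance, ⟨⟨fun p => Additive.ofMul (cls c (toP p)),
    ?_, ?_, ?_, ?_⟩⟩⟩
  · intro x y z p q
    rw [cls_toP, cls_toP, cls_toP, ← ofMul_mul, hc]
    congr 1
    by_cases hx : Joined c x
    · have hy : Joined c y := hx.trans ⟨p⟩
      have hz : Joined c z := hy.trans ⟨q⟩
      simp only [cls, hx, hy, hz, and_self, dite_true, FundamentalGroup.mul_def, mk_trans,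
        trans_assoc]
      rw [← trans_assoc (mk hy.somePath).symm, symm_trans, refl_trans]
    · have hy : ¬ Joined c y := fun h => hx (h.trans ⟨p.symm⟩)
      simp [cls, hx, hy]
  · intro x y p q h
    rw [cls_toP, cls_toP]
    simp only [cls, Path.Homotopic.Quotient.eq.mpr h]
  · intro x y p q hx h
    rw [cls_toP, cls_toP] at h
    have hy : Joined c y := hx.trans ⟨p⟩
    have h' := Additive.ofMul.injective h
    simp only [cls, hx, hy, and_self, dite_true] at h'
    apply Path.Homotopic.Quotient.eq.mp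
    have h2 := congrArg (fun u : Path.Homotopic.Quotient c c =>
      ((mk hx.somePath).symm.trans u).trans (mk hy.somePath)) h'
    simp only [trans_assoc, symm_trans, trans_refl] at h2
    rw [← trans_assoc, ← trans_assoc, symm_trans, refl_trans, refl_trans] at h2
    exact h2
  · intro x hx a
    obtain ⟨q, hq⟩ := mk_surjective (Additive.toMul a : FundamentalGroup Ω c)
    refine ⟨(hx.somePath.symm.trans q).trans hx.somePath, ?_⟩
    rw [cls_toP]
    apply Additive.toMul.injective
    simp only [cls, hx, and_self, dite_true, mk_trans, mk_symm, trans_assoc, trans_symm,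
      trans_refl, toMul_ofMul]
    rw [← trans_assoc, trans_symm, refl_trans, hq]

variable {c} {A : Type} [AddCommGroup A] (D : Det Ω c A)

lemma Det.refl (x : Ω) : D.Ψ (Path.refl x).toContinuousMap = 0 := by
  have h := D.hom _ _ (Path.Homotopic.refl_trans (Path.refl x))
  rw [D.add] at h
  simpa using h

lemma Det.symm {x y : Ω} (p : Path x y) :
    D.Ψ p.symm.toContinuousMap = - D.Ψ p.toContinuousMap := by
  have h := D.hom _ _ (Path.Homotopic.trans_symm p)
  rw [D.add, D.refl] at h
  exact eq_neg_of_add_eq_zero_right h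

variable {B : Type} [TopologicalSpace B]

/-- the detector pulled back along a map -/
def Det.pb (F : C(B, Ω)) {x y : B} (p : Path x y) : A := D.Ψ (p.map F.continuous).toContinuousMap

lemma Det.pb_trans (F : C(B, Ω)) {x y z : B} (p : Path x y) (q : Path y z) :
    D.pb F (p.trans q) = D.pb F p + D.pb F q := by
  simp only [Det.pb, Path.map_trans, D.add]

lemma Det.pb_symm (F : C(B, Ω)) {x y : B} (p : Path x y) : D.pb F p.symm = - D.pb F p := by
  simp only [Det.pb, ← Path.map_symm, D.symm]

lemma Det.pb_free {F G : C(B, Ω)} (h : F.Homotopic G) {x : B} (p : Path x x) :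
    D.pb F p = D.pb G p := by
  obtain ⟨H⟩ := h
  have h := D.hom _ _ (Path.Homotopic.map_trans_evalAt H p)
  rw [D.add, D.add, add_comm] at h
  exact add_left_cancel h

open Path.Homotopic.Quotient in
lemma Det.pb_faith (F : C(B, Ω)) (G : C(Ω, B)) (h : (G.comp F).Homotopic (ContinuousMap.id B))
    {x y : B} (p q : Path x y) (hx : Joined c (F x)) (hpq : D.pb F p = D.pb F q) :
    p.Homotopic q := by
  obtain ⟨H⟩ := h
  have h1 := (D.faith _ _ hx hpq).map G
  have hp := Path.Homotopic.map_trans_evalAt H p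
  have hq := Path.Homotopic.map_trans_evalAt H q
  have h2 : ((H.evalAt x).trans (p.map (ContinuousMap.id B).continuous)).Homotopic
      ((H.evalAt x).trans (q.map (ContinuousMap.id B).continuous)) :=
    (hp.symm.trans (Path.Homotopic.hcomp h1 (Path.Homotopic.refl _))).trans hq
  have h3 := Path.Homotopic.Quotient.eq.mpr h2
  have h4 := congrArg (fun u => (Path.Homotopic.Quotient.mk (H.evalAt x)).symm.trans u) h3
  simp only [mk_trans, ← trans_assoc, symm_trans, refl_trans] at h4
  exact Path.Homotopic.Quotient.eq.mp h4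

lemma Det.pb_full (F : C(B, Ω)) (G : C(Ω, B)) (h : (G.comp F).Homotopic (ContinuousMap.id B))
    (h' : (F.comp G).Homotopic (ContinuousMap.id Ω)) {x : B} (hx : Joined c (F x)) (a : A) :
    ∃ p : Path x x, D.pb F p = a := by
  obtain ⟨H⟩ := h
  obtain ⟨l, hl⟩ := D.full hx a
  let e : Path (G (F x)) x := H.evalAt x
  refine ⟨(e.symm.trans (l.map G.continuous)).trans e, ?_⟩
  rw [D.pb_trans, D.pb_trans, D.pb_symm]
  have : D.pb F (l.map G.continuous) = a := by
    have h1 := D.pb_free h' l
    rw [← hl]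
    exact h1
  rw [this]; abel

end det

/-! ### Concatenation of free paths -/

section pre
variable {Y : Type} [TopologicalSpace Y]

/-- clamp to the unit interval -/
def cl (t : ℝ) : I := projIcc 0 1 zero_le_one t

lemma continuous_cl : Continuous cl := continuous_projIcc (h := zero_le_one)

lemma cl_val (t : I) : cl t = t := projIcc_val _ t
lemma cl_zero : cl 0 = 0 := cl_val 0
lemma cl_one : cl 1 = 1 := cl_val 1

/-- the path `α` on `[-1,0]` followed by `γ` on `[0,1]` -/
def lng (α γ : C(I, Y)) (t : ℝ) : Y := if t ≤ 0 then α (cl (t + 1)) else γ (cl t)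

lemma continuous_lng {B : Type} [TopologicalSpace B] {α γ : B → C(I, Y)} {t : B → ℝ}
    (hα : Continuous α) (hγ : Continuous γ) (ht : Continuous t) (h : ∀ b, α b 1 = γ b 0) :
    Continuous fun b => lng (α b) (γ b) (t b) := by
  unfold lng
  refine Continuous.if_le ?_ ?_ ht continuous_const ?_
  · exact hα.eval (continuous_cl.comp (ht.add continuous_const))
  · exact hγ.eval (continuous_cl.comp ht)
  · intro b hb
    rw [hb, zero_add, cl_one, cl_zero, h]

/-- the part of the long path on `[c,1]` -/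
def cut (α γ : C(I, Y)) (h : α 1 = γ 0) (c : ℝ) : C(I, Y) :=
  ⟨fun t => lng α γ (c + (1 - c) * t),
    continuous_lng continuous_const continuous_const (by fun_prop) fun _ => h⟩

lemma continuous_cut {B : Type} [TopologicalSpace B] {α γ : B → C(I, Y)} {c : B → ℝ}
    (hα : Continuous α) (hγ : Continuous γ) (hc : Continuous c) (h : ∀ b, α b 1 = γ b 0) :
    Continuous fun b => cut (α b) (γ b) (h b) (c b) := by
  apply ContinuousMap.continuous_of_continuous_uncurry
  exact continuous_lng (B := B × I) (α := fun x => α x.1) (γ := fun x => γ x.1)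
    (t := fun x => c x.1 + (1 - c x.1) * x.2) (hα.comp continuous_fst) (hγ.comp continuous_fst)
    (by fun_prop) fun x => h x.1

lemma cut_one (α γ : C(I, Y)) (h : α 1 = γ 0) (c : ℝ) : cut α γ h c 1 = γ 1 := by
  show lng α γ (c + (1 - c) * ((1 : I) : ℝ)) = _
  simp [lng, cl_one]

lemma cut_zero (α γ : C(I, Y)) (h : α 1 = γ 0) {c : ℝ} (hc : c ≤ 0) :
    cut α γ h c 0 = α (cl (c + 1)) := by
  show lng α γ (c + (1 - c) * ((0 : I) : ℝ)) = _
  simp [lng, hc]

lemma cut_at_zero (α γ : C(I, Y)) (h : α 1 = γ 0) : cut α γ h 0 = γ := by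
  ext t
  show lng α γ (0 + (1 - 0) * (t : ℝ)) = _
  simp only [lng, zero_add, sub_zero, one_mul]
  split_ifs with ht
  · have : t = 0 := Subtype.ext (le_antisymm ht t.2.1)
    subst this
    simp [cl_one, h]
  · rw [cl_val]

lemma cut_const (y : Y) (h) (c : ℝ) :
    cut (ContinuousMap.const I y) (ContinuousMap.const I y) h c = ContinuousMap.const I y := by
  ext t
  show lng _ _ _ = y
  unfold lng
  split_ifs <;> rfl

/-- concatenation -/
def pre (α γ : C(I, Y)) (h : α 1 = γ 0) : C(I, Y) := cut α γ h (-1)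

lemma continuous_pre {B : Type} [TopologicalSpace B] {α γ : B → C(I, Y)}
    (hα : Continuous α) (hγ : Continuous γ) (h : ∀ b, α b 1 = γ b 0) :
    Continuous fun b => pre (α b) (γ b) (h b) :=
  continuous_cut hα hγ continuous_const h

@[simp] lemma pre_one (α γ : C(I, Y)) (h : α 1 = γ 0) : pre α γ h 1 = γ 1 := cut_one _ _ _ _

@[simp] lemma pre_zero (α γ : C(I, Y)) (h : α 1 = γ 0) : pre α γ h 0 = α 0 := by
  rw [pre, cut_zero _ _ _ (by norm_num)]; simp [cl_zero]

lemma pre_const (y : Y) (h) :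
    pre (ContinuousMap.const I y) (ContinuousMap.const I y) h = ContinuousMap.const I y :=
  cut_const _ _ _

lemma pre_eq_trans {x y z : Y} (p : Path x y) (q : Path y z) (h) :
    pre p.toContinuousMap q.toContinuousMap h = (p.trans q).toContinuousMap := by
  ext t
  show lng _ _ (-1 + (1 - -1) * (t : ℝ)) = (p.trans q) t
  rw [Path.trans_apply]
  unfold lng
  by_cases ht : (t : ℝ) ≤ 1 / 2
  · rw [if_pos (by linarith), dif_pos ht]
    show p _ = p _
    congr 1
    rw [← cl_val ⟨2 * t, _⟩]
    congr 1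
    simp only; ring
  · rw [if_neg (by linarith), dif_neg ht]
    show q _ = q _
    congr 1
    rw [← cl_val ⟨2 * t - 1, _⟩]
    congr 1
    simp only; ring

/-- the part of a path between two parameters -/
def res (γ : C(I, Y)) (a b : ℝ) : C(I, Y) :=
  ⟨fun t => γ (cl (a + (b - a) * t)), γ.continuous.comp (continuous_cl.comp (by fun_prop))⟩

lemma continuous_res {B : Type} [TopologicalSpace B] {γ : B → C(I, Y)} {a b : B → ℝ}
    (hγ : Continuous γ) (ha : Continuous a) (hb : Continuous b) :
    Continuous fun x => res (γ x) (a x) (b x) := by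
  apply ContinuousMap.continuous_of_continuous_uncurry
  exact (hγ.comp continuous_fst).eval (continuous_cl.comp (by fun_prop))

@[simp] lemma res_zero (γ : C(I, Y)) (a b : ℝ) : res γ a b 0 = γ (cl a) := by
  show γ (cl (a + (b - a) * ((0 : I) : ℝ))) = _
  simp

@[simp] lemma res_one (γ : C(I, Y)) (a b : ℝ) : res γ a b 1 = γ (cl b) := by
  show γ (cl (a + (b - a) * ((1 : I) : ℝ))) = _
  simp

lemma res_id (γ : C(I, Y)) : res γ 0 1 = γ := by
  ext t
  show γ (cl (0 + (1 - 0) * (t : ℝ))) = _
  simp [cl_val]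

lemma res_self (γ : C(I, Y)) (a : ℝ) : res γ a a = ContinuousMap.const I (γ (cl a)) := by
  ext t
  show γ (cl (a + (a - a) * (t : ℝ))) = _
  simp

end pre

/-! ### Spaces of paths ending at the base point -/

section W
variable {E : Type} [AddCommGroup E] [Module ℝ E] [TopologicalSpace E] [ContinuousAdd E]
  [ContinuousSMul ℝ E] {X : Set E} (o : X)

/-- paths starting in `S` and ending at `o` -/
abbrev W (S : Set E) : Type := {γ : C(I, X) // ((γ 0 : X) : E) ∈ S ∧ γ 1 = o}

/-- the loop space -/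
abbrev Om : Type := W o {(o : E)}

/-- the constant loop -/
def c0 : Om o := ⟨ContinuousMap.const I o, rfl, rfl⟩

variable {o}

lemma W.cont {S : Set E} : Continuous (fun γ : W o S => γ.1) := continuous_subtype_val

lemma W.cont_mk {B : Type} [TopologicalSpace B] {S : Set E} {f : B → W o S}
    (h : Continuous fun b => (f b).1) : Continuous f := continuous_induced_rng.mpr h

lemma Om.zero (γ : Om o) : γ.1 0 = o := Subtype.ext γ.2.1

/-- inclusion -/
def incl {S S' : Set E} (h : S ⊆ S') : C(W o S, W o S') :=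
  ⟨fun γ => ⟨γ.1, h γ.2.1, γ.2.2⟩, W.cont_mk W.cont⟩

/-- a segment inside a convex subset -/
def sg {S : Set E} (hS : Convex ℝ S) (hX : S ⊆ X) (y y' : X) (hy : (y : E) ∈ S)
    (hy' : (y' : E) ∈ S) : C(I, X) :=
  ⟨fun t => ⟨(1 - (t : ℝ)) • (y : E) + (t : ℝ) • (y' : E),
    hX (hS hy hy' (sub_nonneg.mpr t.2.2) t.2.1 (by ring))⟩, by fun_prop⟩

lemma sg_mem {S : Set E} (hS : Convex ℝ S) (hX : S ⊆ X) (y y' : X) (hy : (y : E) ∈ S)
    (hy' : (y' : E) ∈ S) (t : I) : ((sg hS hX y y' hy hy' t : X) : E) ∈ S :=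
  hS hy hy' (sub_nonneg.mpr t.2.2) t.2.1 (by ring)

@[simp] lemma sg_zero {S : Set E} (hS : Convex ℝ S) (hX : S ⊆ X) (y y' : X) (hy : (y : E) ∈ S)
    (hy' : (y' : E) ∈ S) : sg hS hX y y' hy hy' 0 = y := by
  apply Subtype.ext
  show (1 - ((0 : I) : ℝ)) • (y : E) + ((0 : I) : ℝ) • (y' : E) = y
  simp

@[simp] lemma sg_one {S : Set E} (hS : Convex ℝ S) (hX : S ⊆ X) (y y' : X) (hy : (y : E) ∈ S)
    (hy' : (y' : E) ∈ S) : sg hS hX y y' hy hy' 1 = y' := by
  apply Subtype.ext
  show (1 - ((1 : I) : ℝ)) • (y : E) + ((1 : I) : ℝ) • (y' : E) = y'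
  simp

lemma sg_self {S : Set E} (hS : Convex ℝ S) (hX : S ⊆ X) (y y' : X) (hy : (y : E) ∈ S)
    (hy' : (y' : E) ∈ S) (h : y = y') : sg hS hX y y' hy hy' = ContinuousMap.const I y := by
  subst h
  ext t
  show (1 - (t : ℝ)) • (y : E) + (t : ℝ) • (y : E) = y
  rw [← add_smul]; simp

lemma continuous_sg {B : Type} [TopologicalSpace B] {S : Set E} (hS : Convex ℝ S) (hX : S ⊆ X)
    {y y' : B → X} (hc : Continuous y) (hc' : Continuous y') (hy : ∀ b, (y b : E) ∈ S)
    (hy' : ∀ b, (y' b : E) ∈ S) : Continuous fun b => sg hS hX (y b) (y' b) (hy b) (hy' b) := by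
  apply ContinuousMap.continuous_of_continuous_uncurry
  apply Continuous.subtype_mk
  fun_prop

/-- homotopies of families of paths -/
lemma homotopic_of_family {B : Type} [TopologicalSpace B] {S : Set E} (F G : C(B, W o S))
    (H : I → B → C(I, X)) (hH : Continuous fun x : I × B => H x.1 x.2)
    (h0 : ∀ t b, ((H t b 0 : X) : E) ∈ S) (h1 : ∀ t b, H t b 1 = o)
    (hF : ∀ b, H 0 b = (F b).1) (hG : ∀ b, H 1 b = (G b).1) : F.Homotopic G :=
  ⟨⟨⟨fun x => ⟨H x.1 x.2, h0 _ _, h1 _ _⟩, W.cont_mk hH⟩, fun b => Subtype.ext (hF b),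
    fun b => Subtype.ext (hG b)⟩⟩

/-- prepending a family of paths inside `S` is homotopic to doing nothing -/
lemma homotopic_pre {B : Type} [TopologicalSpace B] {S : Set E} (F G : C(B, W o S))
    (α : B → C(I, X)) (hα : Continuous α) (hS : ∀ b t, ((α b t : X) : E) ∈ S)
    (h : ∀ b, α b 1 = (G b).1 0) (hF : ∀ b, (F b).1 = pre (α b) (G b).1 (h b)) :
    F.Homotopic G := by
  refine homotopic_of_family F G (fun t b => cut (α b) (G b).1 (h b) (t - 1)) ?_ ?_ ?_ ?_ ?_
  · exact continuous_cut (α := fun x : I × B => α x.2) (γ := fun x : I × B => (G x.2).1)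
      (hα.comp continuous_snd) (W.cont.comp (G.continuous.comp continuous_snd)) (by fun_prop) _
  · intro t b
    rw [cut_zero _ _ _ (sub_nonpos.mpr t.2.2)]
    exact hS _ _
  · intro t b
    rw [cut_one]; exact (G b).2.2
  · intro b
    rw [hF]; simp [pre]
  · intro b
    simp [cut_at_zero]

/-- prepending a fixed path -/
def preM {S : Set E} (α : C(I, X)) (h0 : ((α 0 : X) : E) ∈ S) (y : X) (h1 : α 1 = y) :
    C(W o {(y : E)}, W o S) :=
  ⟨fun γ => ⟨pre α γ.1 (h1.trans (Subtype.ext γ.2.1).symm), by simpa using h0,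
    by simpa using γ.2.2⟩, W.cont_mk (continuous_pre (α := fun _ => α)
      (γ := fun γ : W o {(y : E)} => γ.1) continuous_const W.cont
      fun γ => h1.trans (Subtype.ext γ.2.1).symm)⟩

lemma preM_cancel (α : C(I, X)) (x y : X) (h0 : α 0 = x) (h1 : α 1 = y) :
    ((preM (o := o) (S := {(x : E)}) α (by simp [h0]) y h1).comp
      (preM (res α 1 0) (by simp [cl_one, h1]) x (by simp [cl_zero, h0]))).Homotopic
      (ContinuousMap.id _) := by
  subst h0 h1
  let c : C(I, X) := ContinuousMap.const I (α 0)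
  let P : C(W o {((α 0 : X) : E)}, W o {((α 0 : X) : E)}) :=
    preM (o := o) (S := {((α 0 : X) : E)}) c rfl (α 0) rfl
  have hP : P.Homotopic (ContinuousMap.id _) :=
    homotopic_pre _ _ (fun _ => c) continuous_const (fun _ _ => rfl)
      (fun b => (Subtype.ext b.2.1).symm) fun _ => rfl
  have hPP : (P.comp P).Homotopic (ContinuousMap.id _) := by
    simpa using hP.comp hP
  refine ContinuousMap.Homotopic.trans (ContinuousMap.Homotopic.symm ?_) hPP
  refine homotopic_of_family _ _ (fun t b => pre (res α 0 t) (pre (res α t 0) b.1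
    (by rw [res_one, cl_zero]; exact (Subtype.ext b.2.1).symm)) (by simp)) ?_ ?_ ?_ ?_ ?_
  · refine continuous_pre (continuous_res continuous_const continuous_const (by fun_prop))
      (continuous_pre (continuous_res continuous_const (by fun_prop) continuous_const)
        (W.cont.comp continuous_snd) _) _
  · intro t b; simp [cl_zero]
  · intro t b; simp [b.2.2]
  · intro b
    simp only [Icc.coe_zero, res_self, cl_zero]
    rfl
  · intro b
    simp only [Icc.coe_one, res_id]
    rfl

lemma res_res (α : C(I, X)) : res (res α 1 0) 1 0 = α := by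
  ext t
  show ((α (cl (1 + (0 - 1) * ((cl (1 + (0 - 1) * (t : ℝ)) : I) : ℝ))) : X) : E) = α t
  have : cl (1 + (0 - 1) * (t : ℝ)) = unitInterval.symm t := by
    rw [← cl_val (unitInterval.symm t)]; congr 1; simp; ring
  rw [this]
  congr 2
  rw [← cl_val t]; congr 1; simp [cl_val]

/-- retraction to the paths starting at a given point -/
def retr {S : Set E} (hS : Convex ℝ S) (hX : S ⊆ X) (y : X) (hy : (y : E) ∈ S) :
    C(W o S, W o {(y : E)}) :=
  ⟨fun γ => ⟨pre (sg hS hX y (γ.1 0) hy γ.2.1) γ.1 (by simp), by simp, by simpa using γ.2.2⟩,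
    W.cont_mk (continuous_pre (α := fun γ : W o S => sg hS hX y (γ.1 0) hy γ.2.1)
      (γ := fun γ : W o S => γ.1) (continuous_sg hS hX continuous_const
      (W.cont.eval continuous_const) _ _) W.cont fun _ => by simp)⟩

/-- the comparison map with the loop space -/
def R {S : Set E} (hS : Convex ℝ S) (hX : S ⊆ X) (γ₀ : W o S) : C(W o S, Om o) :=
  (preM (res γ₀.1 1 0) (by simp [cl_one, γ₀.2.2]) (γ₀.1 0) (by simp [cl_zero])).comp
    (retr hS hX (γ₀.1 0) γ₀.2.1)

/-- its homotopy inverse -/
def Ri {S : Set E} (γ₀ : W o S) : C(Om o, W o S) := preM γ₀.1 γ₀.2.1 o γ₀.2.2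

lemma Ri_R {S : Set E} (hS : Convex ℝ S) (hX : S ⊆ X) (γ₀ : W o S) :
    ((Ri γ₀).comp (R hS hX γ₀)).Homotopic (ContinuousMap.id _) := by
  have hsub : ({((γ₀.1 0 : X) : E)} : Set E) ⊆ S := by simpa using γ₀.2.1
  have h1 := preM_cancel (o := o) γ₀.1 (γ₀.1 0) o rfl γ₀.2.2
  have h2 := (ContinuousMap.Homotopic.refl (incl (o := o) hsub)).comp
    (h1.comp (ContinuousMap.Homotopic.refl (retr hS hX (γ₀.1 0) γ₀.2.1)))
  have e : (Ri γ₀).comp (R hS hX γ₀) = (incl (o := o) hsub).comp
      (((preM (o := o) (S := {((γ₀.1 0 : X) : E)}) γ₀.1 rfl o γ₀.2.2).comp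
        (preM (res γ₀.1 1 0) (by simp [cl_one, γ₀.2.2]) (γ₀.1 0) (by simp [cl_zero]))).comp
        (retr hS hX (γ₀.1 0) γ₀.2.1)) := by
    ext1 γ; rfl
  rw [e]
  refine ContinuousMap.Homotopic.trans h2 ?_
  exact homotopic_pre _ _ (fun γ => sg hS hX (γ₀.1 0) (γ.1 0) γ₀.2.1 γ.2.1)
    (continuous_sg hS hX continuous_const (W.cont.eval continuous_const) _ _)
    (fun _ _ => sg_mem _ _ _ _ _ _ _) (fun _ => by simp) fun _ => rfl

lemma R_Ri {S : Set E} (hS : Convex ℝ S) (hX : S ⊆ X) (γ₀ : W o S) :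
    ((R hS hX γ₀).comp (Ri γ₀)).Homotopic (ContinuousMap.id _) := by
  let M : C(Om o, W o {((γ₀.1 0 : X) : E)}) :=
    preM (o := o) (S := {((γ₀.1 0 : X) : E)}) γ₀.1 rfl o γ₀.2.2
  have h1 : ((retr hS hX (γ₀.1 0) γ₀.2.1).comp (Ri γ₀)).Homotopic M := by
    refine homotopic_pre _ _ (fun _ => ContinuousMap.const I (γ₀.1 0)) continuous_const
      (fun _ _ => rfl) (fun b => by simp [M, preM]) fun b => ?_
    show pre (sg hS hX (γ₀.1 0) ((Ri γ₀ b).1 0) γ₀.2.1 (Ri γ₀ b).2.1) (Ri γ₀ b).1 (by simp) = _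
    congr 1
    exact sg_self _ _ _ _ _ _ (by simp [Ri, preM])
  have h2 := preM_cancel (o := o) (res γ₀.1 1 0) o (γ₀.1 0) (by simp [cl_one, γ₀.2.2])
    (by simp [cl_zero])
  have h3 : preM (o := o) (S := {((γ₀.1 0 : X) : E)}) (res (res γ₀.1 1 0) 1 0)
      (by simp [cl_one, cl_zero]) o (by simp [cl_zero, cl_one, γ₀.2.2]) = M := by
    simp only [M, res_res]
  rw [h3] at h2
  exact ((ContinuousMap.Homotopic.refl _).comp h1).trans h2

lemma R_homotopic {S : Set E} (hS : Convex ℝ S) (hX : S ⊆ X) {γ₀ γ₁ : W o S} (f : Path γ₀ γ₁) :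
    (R hS hX γ₀).Homotopic (R hS hX γ₁) := by
  refine homotopic_of_family _ _ (fun t b => (R hS hX (f t) b).1) ?_
    (fun t b => (R hS hX (f t) b).2.1) (fun t b => (R hS hX (f t) b).2.2)
    (fun b => by rw [f.source]) (fun b => by rw [f.target])
  have hf : Continuous fun x : I × W o S => (f x.1).1 :=
    W.cont.comp (f.continuous.comp continuous_fst)
  have hb : Continuous fun x : I × W o S => x.2.1 := W.cont.comp continuous_snd
  exact continuous_pre (α := fun x : I × W o S => res (f x.1).1 1 0)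
    (continuous_res hf continuous_const continuous_const)
    (continuous_pre (continuous_sg hS hX (hf.eval continuous_const) (hb.eval continuous_const)
      (fun x => (f x.1).2.1) (fun x => x.2.2.1)) hb fun _ => by simp) fun _ => by simp [cl_zero]

lemma joined_of_family {S : Set E} {a b : W o S} (H : I → C(I, X)) (hH : Continuous H)
    (h0 : ∀ t, ((H t 0 : X) : E) ∈ S) (h1 : ∀ t, H t 1 = o) (ha : H 0 = a.1) (hb : H 1 = b.1) :
    Joined a b :=
  ⟨⟨⟨fun t => ⟨H t, h0 t, h1 t⟩, W.cont_mk hH⟩, Subtype.ext ha, Subtype.ext hb⟩⟩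

lemma joined_R {S : Set E} (hS : Convex ℝ S) (hX : S ⊆ X) (γ₀ : W o S) :
    Joined (c0 o) (R hS hX γ₀ γ₀) := by
  have h1 : ∀ t : I, ContinuousMap.const I (γ₀.1 t) 1 = res γ₀.1 t 1 0 := fun t => by
    simp [cl_val]
  refine Joined.symm (joined_of_family (fun t => pre (res γ₀.1 1 t)
    (pre (ContinuousMap.const I (γ₀.1 t)) (res γ₀.1 t 1) (h1 t))
      (by rw [pre_zero]; simp [cl_val])) ?_ ?_ ?_ ?_ ?_)
  · exact continuous_pre (continuous_res continuous_const continuous_const (by fun_prop))
      (continuous_pre (ContinuousMap.continuous_const'.comp γ₀.1.continuous)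
        (continuous_res continuous_const (by fun_prop) continuous_const) _) _
  · intro t; simp [cl_one, γ₀.2.2]
  · intro t; rw [pre_one, pre_one]; simp [cl_one, γ₀.2.2]
  · simp only [Icc.coe_zero, res_id]
    show _ = pre (res γ₀.1 1 0) (pre (sg hS hX (γ₀.1 0) (γ₀.1 0) γ₀.2.1 γ₀.2.1) γ₀.1 (by simp))
      (by simp [cl_zero])
    congr 2
    exact (sg_self _ _ _ _ _ _ rfl).symm
  · simp only [Icc.coe_one, res_self, cl_one, γ₀.2.2, pre_const]
    rfl

/-- Eckmann–Hilton -/
lemma comm_Om (a b : FundamentalGroup (Om o) (c0 o)) : a * b = b * a := by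
  obtain ⟨a, rfl⟩ := Path.Homotopic.Quotient.mk_surjective (x₀ := c0 o) (x₁ := c0 o) a
  obtain ⟨b, rfl⟩ := Path.Homotopic.Quotient.mk_surjective (x₀ := c0 o) (x₁ := c0 o) b
  have hm : ∀ u v : Om o, u.1 1 = v.1 0 := fun u v => u.2.2.trans (Om.zero v).symm
  let m : Om o → Om o → Om o := fun u v => ⟨pre u.1 v.1 (hm u v), by simpa using u.2.1,
    by simpa using v.2.2⟩
  have mc : Continuous fun x : Om o × Om o => m x.1 x.2 :=
    W.cont_mk (continuous_pre (α := fun x : Om o × Om o => x.1.1)
      (γ := fun x : Om o × Om o => x.2.1) (W.cont.comp continuous_fst)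
      (W.cont.comp continuous_snd) fun x => hm _ _)
  have mcc : m (c0 o) (c0 o) = c0 o := Subtype.ext (pre_const o rfl)
  -- left and right multiplication by the constant loop
  let a' : Path (c0 o) (c0 o) := ⟨⟨fun t => m (a t) (c0 o), by fun_prop⟩, by simp [mcc],
    by simp [mcc]⟩
  let b' : Path (c0 o) (c0 o) := ⟨⟨fun t => m (c0 o) (b t), by fun_prop⟩, by simp [mcc],
    by simp [mcc]⟩
  have hb : b'.Homotopic b := by
    refine ⟨⟨⟨⟨fun x => ⟨cut (c0 o).1 (b x.2).1 (hm _ _) (x.1 - 1), ?_, ?_⟩, W.cont_mk ?_⟩,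
      ?_, ?_⟩, ?_⟩⟩
    · rw [cut_zero _ _ _ (sub_nonpos.mpr x.1.2.2)]; rfl
    · rw [cut_one]; exact (b x.2).2.2
    · exact continuous_cut (α := fun _ : I × I => (c0 o).1) (γ := fun x : I × I => (b x.2).1)
        continuous_const (W.cont.comp (b.continuous.comp continuous_snd)) (by fun_prop)
        fun _ => hm _ _
    · intro t; apply Subtype.ext; simp [b', m, pre]
    · intro t; apply Subtype.ext; simp [cut_at_zero]
    · intro t s hs
      apply Subtype.ext
      have : b s = c0 o := by rcases hs with rfl | rfl <;> simp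
      simp only [ContinuousMap.coe_mk, b', m, this]
      exact (cut_const _ _ _).trans (pre_const _ _).symm
  have ha : a.Homotopic a' := by
    refine ⟨⟨⟨⟨fun x => ⟨res (a x.2).1 0 (1 + x.1), ?_, ?_⟩, W.cont_mk ?_⟩, ?_, ?_⟩, ?_⟩⟩
    · simpa [cl_zero] using (a x.2).2.1
    · rw [res_one, cl, projIcc_of_right_le _ (by linarith [x.1.2.1])]; exact (a x.2).2.2
    · exact continuous_res (W.cont.comp (a.continuous.comp continuous_snd)) continuous_const
        (by fun_prop)
    · intro t; apply Subtype.ext; simp [res_id]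
    · intro t
      apply Subtype.ext
      ext s
      show (((a t).1 (cl (0 + (1 + ((1 : I) : ℝ) - 0) * s)) : X) : E) =
        lng (a t).1 (c0 o).1 (-1 + (1 - -1) * (s : ℝ))
      unfold lng
      split_ifs with h
      · congr 3; norm_num
      · rw [cl, projIcc_of_right_le _ (by simp; linarith)]
        exact congrArg Subtype.val (a t).2.2
    · intro t s hs
      apply Subtype.ext
      have : a s = c0 o := by rcases hs with rfl | rfl <;> simp
      simp only [ContinuousMap.coe_mk, Path.coe_toContinuousMap, this]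
      ext u
      rfl
  -- the square
  let F0 : C(I, Om o) := a'.toContinuousMap
  let H : F0.Homotopy F0 := ⟨⟨fun x => m (a x.2) (b x.1), by fun_prop⟩,
    fun t => by simp [F0, a'], fun t => by simp [F0, a']⟩
  have hsq := Path.Homotopic.map_trans_evalAt H (Path.id)
  have e1 : (a'.trans b').Homotopic (b'.trans a') := by
    have := hsq.pathCast (x₂ := c0 o) (x₃ := c0 o) (by simp [F0]) (by simp [F0])
    convert this using 1
    · ext t : 2
      simp only [Path.trans_apply, Path.cast_coe]
      split_ifs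
      · rfl
      · show m (c0 o) _ = m (a 1) _
        rw [a.target]
    · ext t : 2
      simp only [Path.trans_apply, Path.cast_coe]
      split_ifs
      · show m (c0 o) _ = m (a 0) _
        rw [a.source]
      · rfl
  exact Path.Homotopic.Quotient.eq.mpr
    (((hb.symm.hcomp ha).trans e1.symm).trans (ha.symm.hcomp hb))

/-- two paths inside a convex subset are homotopic -/
lemma homotopic_of_convex {S : Set E} (hS : Convex ℝ S) (hX : S ⊆ X) {x y : X} (p q : Path x y)
    (hp : ∀ t, ((p t : X) : E) ∈ S) (hq : ∀ t, ((q t : X) : E) ∈ S) : p.Homotopic q := by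
  refine ⟨⟨⟨⟨fun z => sg hS hX (p z.2) (q z.2) (hp _) (hq _) z.1, ?_⟩, ?_, ?_⟩, ?_⟩⟩
  · exact (continuous_sg hS hX (p.continuous.comp continuous_snd)
      (q.continuous.comp continuous_snd) _ _).eval continuous_fst
  · intro t; simp
  · intro t; simp
  · intro t s hs
    have : p s = q s := by rcases hs with rfl | rfl <;> simp
    show sg hS hX (p s) (q s) (hp _) (hq _) t = p s
    rw [sg_self _ _ _ _ _ _ this]; rfl

end W

/-! ### Extension over a triangle -/

/-- the standard triangle -/
def Tri : Set (ℝ × ℝ) := {l | 0 ≤ l.1 ∧ 0 ≤ l.2 ∧ l.1 + l.2 ≤ 1}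

lemma tri_ext {Z : Type} [TopologicalSpace Z] {x y z : Z} (p : Path x y) (q : Path y z)
    (r : Path x z) (h : (p.trans q).Homotopic r) :
    ∃ Φ : ℝ × ℝ → Z, ContinuousOn Φ Tri ∧ (∀ t : I, Φ (t, 0) = p t) ∧
      (∀ t : I, Φ (1 - t, t) = q t) ∧ ∀ t : I, Φ (0, t) = r t := by
  classical
  obtain ⟨H⟩ := h
  let m : ℝ → ℝ := fun s => min (2 * s) (2 - 2 * s)
  have hm0 : ∀ s : I, 0 ≤ m s := fun s => le_min (by linarith [s.2.1]) (by linarith [s.2.2])
  let Q : I × I → Tri := fun u => ⟨((1 - u.1) * m u.2, u.2 - (1 - u.1) * m u.2 / 2), by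
    have h1 := hm0 u.2
    have h2 : m u.2 ≤ 2 * u.2 := min_le_left _ _
    have h3 : m u.2 ≤ 2 - 2 * u.2 := min_le_right _ _
    have h4 := u.1.2.1
    have h5 := u.1.2.2
    refine ⟨mul_nonneg (by linarith) h1, ?_, ?_⟩ <;> simp only <;> nlinarith⟩
  have hQc : Continuous Q := by
    apply Continuous.subtype_mk
    fun_prop
  have hQs : Function.Surjective Q := by
    rintro ⟨⟨l1, l2⟩, h1, h2, h3⟩
    simp only at h1 h2 h3
    let s : I := ⟨l2 + l1 / 2, by linarith, by linarith⟩
    have hl : l1 ≤ m s := le_min (by simp [s]; linarith) (by simp [s]; linarith)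
    by_cases h0 : m s = 0
    · refine ⟨(0, s), Subtype.ext ?_⟩
      have : l1 = 0 := le_antisymm (h0 ▸ hl) h1
      simp only [Q, h0]
      simp [s, this]
    · have hpos : 0 < m s := lt_of_le_of_ne (hm0 s) (Ne.symm h0)
      refine ⟨(⟨1 - l1 / m s, by rw [sub_nonneg, div_le_one hpos]; exact hl,
        by linarith [div_nonneg h1 hpos.le]⟩, s), Subtype.ext ?_⟩
      simp only [Q, sub_sub_cancel, div_mul_cancel₀ _ h0]
      simp [s]
  have hQq : Topology.IsQuotientMap Q := (hQc.isClosedMap).isQuotientMap hQc hQs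
  have hfib : ∀ u v, Q u = Q v → H u = H v := by
    rintro ⟨t, s⟩ ⟨t', s'⟩ huv
    have h1 := congrArg (fun l : Tri => l.1.1) huv
    have h2 := congrArg (fun l : Tri => l.1.2) huv
    simp only [Q] at h1 h2
    have hs : s = s' := Subtype.ext (by rw [h1] at h2; linarith)
    subst hs
    by_cases h0 : m s = 0
    · have : s = 0 ∨ s = 1 := by
        rcases min_eq_iff.mp h0 with h | h
        · left; exact Subtype.ext (show (s : ℝ) = 0 by linarith [h.1])
        · right; exact Subtype.ext (show (s : ℝ) = 1 by linarith [h.1])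
      rcases this with rfl | rfl <;> simp
    · have : t = t' := Subtype.ext (by have := mul_right_cancel₀ h0 h1; linarith)
      rw [this]
  let Φ' : Tri → Z := fun l => H (Function.surjInv hQs l)
  have hΦQ : ∀ u, Φ' (Q u) = H u := fun u => hfib _ _ (Function.surjInv_eq hQs _)
  have hΦc : Continuous Φ' := by
    rw [hQq.continuous_iff]
    have : Φ' ∘ Q = H := funext hΦQ
    rw [this]; exact H.continuous
  refine ⟨fun l => if h : l ∈ Tri then Φ' ⟨l, h⟩ else x, ?_, ?_, ?_, ?_⟩
  · rw [continuousOn_iff_continuous_domRestrict]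
    convert hΦc using 1
    funext l
    simp
  · intro t
    have ht0 := t.2.1
    have ht1 := t.2.2
    let s : I := ⟨t / 2, by linarith, by linarith⟩
    have hm : m s = t := by
      simp only [m, s]; rw [min_eq_left (by linarith)]; ring
    have hQ : (Q (0, s)).1 = ((t : ℝ), 0) := by
      simp only [Q, hm]; simp [s]
    simp only
    rw [dif_pos (hQ ▸ (Q (0, s)).2), show (⟨((t : ℝ), 0), _⟩ : Tri) = Q (0, s) from
      Subtype.ext hQ.symm, hΦQ, H.apply_zero]
    show (p.trans q) s = _
    rw [Path.trans_apply, dif_pos (by simp only [s]; linarith)]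
    congr 1; apply Subtype.ext; simp only [s]; ring
  · intro t
    have ht0 := t.2.1
    have ht1 := t.2.2
    let s : I := ⟨(1 + t) / 2, by linarith, by linarith⟩
    have hm : m s = 1 - t := by
      simp only [m, s]; rw [min_eq_right (by linarith)]; ring
    have hQ : (Q (0, s)).1 = (1 - (t : ℝ), (t : ℝ)) := by
      simp only [Q, hm]; simp [s]; ring
    simp only
    rw [dif_pos (hQ ▸ (Q (0, s)).2), show (⟨(1 - (t : ℝ), (t : ℝ)), _⟩ : Tri) = Q (0, s) from
      Subtype.ext hQ.symm, hΦQ, H.apply_zero]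
    show (p.trans q) s = _
    rw [Path.trans_apply]
    split_ifs with h
    · have : t = 0 := Subtype.ext (show (t : ℝ) = 0 by simp only [s] at h; linarith)
      subst this
      rw [q.source]
      refine Eq.trans ?_ p.target
      congr 1; apply Subtype.ext; simp [s]
    · congr 1; apply Subtype.ext; simp only [s]; ring
  · intro t
    have hQ : (Q (1, t)).1 = (0, (t : ℝ)) := by simp [Q]
    simp only
    rw [dif_pos (hQ ▸ (Q (1, t)).2), show (⟨(0, (t : ℝ)), _⟩ : Tri) = Q (1, t) from
      Subtype.ext hQ.symm, hΦQ, H.apply_one]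
    rfl

end

end Crest.Agent.ZD.PS
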