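import Crest.Agent.ZD.SpBasic
import Crest.Agent.ZD.PathSp

set_option autoImplicit false

namespace Crest.Agent.ZD

open PS Set
open scoped unitInterval

namespace OSC
variable {G : Type} [Group G] (K : OSC G)

/-- a vertex as a point of the realisation -/
noncomputable def pt (a : K.V) : K.Sp :=
  ⟨K.vtx a, K.hull_sub (K.face_v a) (K.vtx_mem_hull (Or.inl rfl))⟩

/-- an edge, run backwards -/
noncomputable def eP {a b : K.V} (h : K.E a b) : Path (K.pt b) (K.pt a) :=
  ⟨sg (K.convex_hull a b b) (K.hull_sub (K.face_e h)) (K.pt b) (K.pt a)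
    (K.vtx_mem_hull (by simp)) (K.vtx_mem_hull (by simp)), by simp, by simp⟩

lemma eP_mem {a b : K.V} (h : K.E a b) (t : I) : (K.eP h t).1 ∈ K.hull a b b :=
  sg_mem (K.convex_hull a b b) (K.hull_sub (K.face_e h)) (K.pt b) (K.pt a)
    (K.vtx_mem_hull (by simp)) (K.vtx_mem_hull (by simp)) t

lemma joined_pt {a b : K.V} (h : Relation.EqvGen K.E a b) : Joined (K.pt a) (K.pt b) := by
  induction h with
  | rel a b h => exact ⟨(K.eP h).symm⟩
  | refl a => exact Joined.refl _
  | symm a b _ ih => exact ih.symm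
  | trans a b c _ _ h1 h2 => exact h1.trans h2

lemma eP_tri {a b c : K.V} (h : K.T a b c) :
    ((K.eP (K.T_E a b c h).2.1).trans (K.eP (K.T_E a b c h).1)).Homotopic
      (K.eP (K.T_E a b c h).2.2) := by
  refine homotopic_of_convex (K.convex_hull a b c) (K.hull_sub (K.face_t h)) _ _ ?_ ?_
  · intro t
    rw [Path.trans_apply]
    split_ifs
    · exact K.hull_mono (by simp) (by simp) (by simp) (K.eP_mem _ _)
    · exact K.hull_mono (by simp) (by simp) (by simp) (K.eP_mem _ _)
  · intro t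
    exact K.hull_mono (by simp) (by simp) (by simp) (K.eP_mem _ _)

open Path.Homotopic.Quotient in
lemma exists_s : ∃ s : ∀ v, Path (K.pt v) (K.pt K.o),
    ∀ a b (h : K.E a b), (s b).Homotopic ((K.eP h).trans (s a)) := by
  classical
  let s0 : ∀ v, Path (K.pt v) (K.pt K.o) := fun v => (K.joined_pt (K.conn v)).symm.somePath
  let p : K.V → K.V → FundamentalGroup K.Sp (K.pt K.o) := fun a b =>
    if h : K.E a b then FundamentalGroup.fromPath
      ((Path.Homotopic.Quotient.mk (s0 b)).symm.trans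
        ((Path.Homotopic.Quotient.mk (K.eP h)).trans (Path.Homotopic.Quotient.mk (s0 a)))) else 1
  obtain ⟨ς, hσ⟩ := K.sc _ p (by
    intro a b c h
    obtain ⟨hab, hbc, hac⟩ := K.T_E a b c h
    have e := Path.Homotopic.Quotient.eq.mpr (K.eP_tri h)
    rw [mk_trans] at e
    simp only [p, dif_pos hab, dif_pos hbc, dif_pos hac]
    rw [FundamentalGroup.mul_def, ← e]
    simp only [trans_assoc]
    rw [← trans_assoc (Path.Homotopic.Quotient.mk (s0 b)), trans_symm, refl_trans])
  choose τ hτ using fun v => mk_surjective (x₀ := K.pt K.o) (x₁ := K.pt K.o) (ς v)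
  refine ⟨fun v => (s0 v).trans (τ v), fun a b h => Path.Homotopic.Quotient.eq.mp ?_⟩
  have e := hσ a b h
  simp only [p, dif_pos h] at e
  rw [FundamentalGroup.mul_def, FundamentalGroup.inv_def, ← hτ a, ← hτ b] at e
  have e2 := congrArg (fun u : Path.Homotopic.Quotient (K.pt K.o) (K.pt K.o) =>
    ((Path.Homotopic.Quotient.mk (s0 b)).trans u).trans (Path.Homotopic.Quotient.mk (τ a))) e
  simp only [trans_assoc, symm_trans, trans_refl] at e2
  rw [← trans_assoc (Path.Homotopic.Quotient.mk (s0 b)), trans_symm, refl_trans] at e2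
  simp only [mk_trans]
  exact e2.symm

variable {K}

/-- the chosen path at a vertex as a point of a path space -/
noncomputable def sv (s : ∀ v, Path (K.pt v) (K.pt K.o)) (a : K.V) (S : Set (K.V → ℝ))
    (h : K.vtx a ∈ S) : W (K.pt K.o) S :=
  ⟨(s a).toContinuousMap, by rw [Path.coe_toContinuousMap, Path.source]; exact h, by simp⟩

/-- transport to a larger face -/
noncomputable def im {s : ∀ v, Path (K.pt v) (K.pt K.o)} {S S' : Set (K.V → ℝ)} (hsub : S ⊆ S')
    {a b : K.V} {ha : K.vtx a ∈ S} {hb : K.vtx b ∈ S} (p : Path (sv s a S ha) (sv s b S hb)) :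
    Path (sv s a S' (hsub ha)) (sv s b S' (hsub hb)) := p.map (incl hsub).continuous

lemma im_trans {s : ∀ v, Path (K.pt v) (K.pt K.o)} {S S' : Set (K.V → ℝ)} (hsub : S ⊆ S')
    {a b c : K.V} {ha : K.vtx a ∈ S} {hb : K.vtx b ∈ S} {hc : K.vtx c ∈ S}
    (p : Path (sv s a S ha) (sv s b S hb)) (q : Path (sv s b S hb) (sv s c S hc)) :
    im hsub (p.trans q) = (im hsub p).trans (im hsub q) := Path.map_trans p q _

lemma joined_sv (s : ∀ v, Path (K.pt v) (K.pt K.o)) {a b : K.V} (h : K.E a b)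
    (hs : (s b).Homotopic ((K.eP h).trans (s a))) :
    Joined (sv s a (K.hull a b b) (K.vtx_mem_hull (by simp)))
      (sv s b (K.hull a b b) (K.vtx_mem_hull (by simp))) := by
  obtain ⟨H⟩ := hs
  have hh : (K.eP h).toContinuousMap 1 = (s a).toContinuousMap 0 := by simp
  let m : W (K.pt K.o) (K.hull a b b) := ⟨((K.eP h).trans (s a)).toContinuousMap,
    by rw [Path.coe_toContinuousMap, Path.source]; exact K.vtx_mem_hull (by simp), by simp⟩
  refine Joined.symm (Joined.trans (y := m) ?_ ?_)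
  · refine joined_of_family (fun t => (H.eval t).toContinuousMap) ?_ ?_ ?_ ?_ ?_
    · apply ContinuousMap.continuous_of_continuous_uncurry
      exact H.continuous
    · intro t
      rw [Path.coe_toContinuousMap, Path.source]
      exact K.vtx_mem_hull (by simp)
    · intro t; simp
    · simp [sv]
    · simp [m]
  · refine joined_of_family (fun t => cut _ _ hh (t - 1)) ?_ ?_ ?_ ?_ ?_
    · exact continuous_cut (α := fun _ : I => (K.eP h).toContinuousMap)
        (γ := fun _ : I => (s a).toContinuousMap) continuous_const continuous_const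
        (by fun_prop) fun _ => hh
    · intro t
      rw [cut_zero _ _ _ (sub_nonpos.mpr t.2.2)]
      exact K.eP_mem h _
    · intro t; rw [cut_one]; simp
    · simp only [Icc.coe_zero, zero_sub]
      exact pre_eq_trans _ _ hh
    · simp only [Icc.coe_one, sub_self, cut_at_zero]; rfl

variable (K)

lemma sub_ab (a b c : K.V) : K.hull a b b ⊆ K.hull a b c :=
  K.hull_mono (by simp) (by simp) (by simp)
lemma sub_bc (a b c : K.V) : K.hull b c c ⊆ K.hull a b c :=
  K.hull_mono (by simp) (by simp) (by simp)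
lemma sub_ac (a b c : K.V) : K.hull a c c ⊆ K.hull a b c :=
  K.hull_mono (by simp) (by simp) (by simp)

/-- edge paths whose obstruction vanishes -/
lemma exists_edges : ∃ (s : ∀ v, Path (K.pt v) (K.pt K.o))
    (f : ∀ a b, K.E a b → Path (sv s a (K.hull a b b) (K.vtx_mem_hull (by simp)))
      (sv s b (K.hull a b b) (K.vtx_mem_hull (by simp)))),
    ∀ a b c (h : K.T a b c),
      ((im (K.sub_ab a b c) (f a b (K.T_E a b c h).1)).trans
        (im (K.sub_bc a b c) (f b c (K.T_E a b c h).2.1))).Homotopic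
        (im (K.sub_ac a b c) (f a c (K.T_E a b c h).2.2)) := by
  classical
  obtain ⟨s, hs⟩ := K.exists_s
  obtain ⟨A, _, ⟨D⟩⟩ := exists_det (c0 (K.pt K.o)) comm_Om
  let f0 := fun a b (h : K.E a b) => (joined_sv s h (hs a b h)).somePath
  let RT := fun a b c (h : K.T a b c) => R (K.convex_hull a b c) (K.hull_sub (K.face_t h))
    (sv s a (K.hull a b c) (K.vtx_mem_hull (by simp)))
  let RE := fun a b (h : K.E a b) => R (K.convex_hull a b b) (K.hull_sub (K.face_e h))
    (sv s a (K.hull a b b) (K.vtx_mem_hull (by simp)))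
  obtain ⟨u, hu⟩ := K.cob A fun a b c => if h : K.T a b c then
    D.pb (RT a b c h) (im (K.sub_ab a b c) (f0 a b (K.T_E a b c h).1)) +
    D.pb (RT a b c h) (im (K.sub_bc a b c) (f0 b c (K.T_E a b c h).2.1)) -
    D.pb (RT a b c h) (im (K.sub_ac a b c) (f0 a c (K.T_E a b c h).2.2))
    else 0
  choose l hl using fun a b (h : K.E a b) => D.pb_full (RE a b h) _ (Ri_R _ _ _) (R_Ri _ _ _)
    (joined_R _ _ _) (- u a b)
  refine ⟨s, fun a b h => (l a b h).trans (f0 a b h), fun a b c h => ?_⟩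
  obtain ⟨hab, hbc, hac⟩ := K.T_E a b c h
  refine D.pb_faith (RT a b c h) _ (Ri_R _ _ _) _ _ (joined_R _ _ _) ?_
  have e := hu a b c h
  rw [dif_pos h] at e
  have e1 : D.pb (RT a b c h) (im (K.sub_ab a b c) (l a b hab)) = - u a b :=
    hl a b hab
  have e2 : D.pb (RT a b c h) (im (K.sub_ac a b c) (l a c hac)) = - u a c :=
    hl a c hac
  have e3 : D.pb (RT a b c h) (im (K.sub_bc a b c) (l b c hbc)) = - u b c := by
    refine (D.pb_free (R_homotopic (K.convex_hull a b c) (K.hull_sub (K.face_t h))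
      (im (K.sub_ab a b c) (f0 a b hab))) _).trans ?_
    exact hl b c hbc
  simp only [im_trans]
  rw [D.pb_trans, D.pb_trans, D.pb_trans, D.pb_trans, e1, e2, e3]
  linear_combination (norm := abel) -e

/-- the section of the path space -/
lemma exists_section : ∃ F : K.Sp → C(I, K.Sp), Continuous F ∧ (∀ y, F y 1 = K.pt K.o) ∧
    ∀ y, ∃ a b c, K.Face a b c ∧ y.1 ∈ K.hull a b c ∧ (F y 0).1 ∈ K.hull a b c := by
  classical
  obtain ⟨s, f, hf⟩ := K.exists_edges
  choose Φ hΦc hΦ1 hΦ2 hΦ3 using fun a b c (h : K.T a b c) => tri_ext _ _ _ (hf a b c h)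
  let g : K.V → K.V → K.V → (K.V → ℝ) → C(I, K.Sp) := fun a b c y =>
    if h : K.T a b c then (Φ a b c h (y b, y c)).1
    else if h : K.E a b then (f a b h (cl (y b))).1 else (s a).toContinuousMap
  have nT : ∀ a b, ¬ K.T a b b := fun a b h => K.irrefl b (K.T_E _ _ _ h).2.1
  have gt : ∀ a b c (h : K.T a b c) y, g a b c y = (Φ a b c h (y b, y c)).1 := fun a b c h y => by
    simp only [g, dif_pos h]
  have ge : ∀ a b (h : K.E a b) y, g a b b y = (f a b h (cl (y b))).1 := fun a b h y => by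
    simp only [g, dif_neg (nT a b), dif_pos h]
  have gv : ∀ a y, g a a a y = (s a).toContinuousMap := fun a y => by
    simp only [g, dif_neg (nT a a), dif_neg (K.irrefl a)]
  have hprop : ∀ a b c, K.Face a b c → ∀ y, g a b c y 1 = K.pt K.o ∧
      (g a b c y 0).1 ∈ K.hull a b c := by
    intro a b c h y
    rcases h with h | ⟨h, rfl⟩ | ⟨rfl, rfl⟩
    · rw [gt _ _ _ h]; exact ⟨(Φ _ _ _ h _).2.2, (Φ _ _ _ h _).2.1⟩
    · rw [ge _ _ h]; exact ⟨(f _ _ h _).2.2, (f _ _ h _).2.1⟩
    · rw [gv]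
      refine ⟨by simp, ?_⟩
      rw [Path.coe_toContinuousMap, Path.source]
      exact K.vtx_mem_hull (Or.inl rfl)
  have hcont : ∀ a b c, K.Face a b c → ContinuousOn (g a b c) (K.hull a b c) := by
    intro a b c h
    rcases h with h | ⟨h, rfl⟩ | ⟨rfl, rfl⟩
    · rw [funext (gt _ _ _ h)]
      refine W.cont.comp_continuousOn ((hΦc _ _ _ h).comp (by fun_prop) fun y hy => ?_)
      obtain ⟨h1, h2, h3, -⟩ := K.mem_hull_t h hy
      exact ⟨h1, h2, h3⟩
    · rw [funext (ge _ _ h)]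
      exact (W.cont.comp ((f _ _ h).continuous.comp
        (continuous_cl.comp (continuous_apply _)))).continuousOn
    · rw [funext (gv _)]; exact continuousOn_const
  have hE : ∀ a b (h : K.E a b) y, y ∈ K.hull a b b → ∃ t : I, y b = t ∧ y a = 1 - t := by
    intro a b h y hy
    obtain ⟨h1, h2, h3, -⟩ := K.mem_hull_e (K.ne_of_E h) hy
    exact ⟨⟨y b, h1, h2⟩, rfl, h3⟩
  have hcomp : ∀ a b c a' b' c', K.Face a b c → K.Face a' b' c' →
      (a' = a ∨ a' = b ∨ a' = c) → (b' = a ∨ b' = b ∨ b' = c) → (c' = a ∨ c' = b ∨ c' = c) →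
      ∀ y ∈ K.hull a' b' c', g a' b' c' y = g a b c y := by
    intro a b c a' b' c' h h' ha hb hc y hy
    rcases h with h | ⟨h, rfl⟩ | ⟨rfl, rfl⟩
    · obtain ⟨hab, hbc, hac⟩ := K.T_E a b c h
      have nab := K.ne_of_E hab
      have nbc := K.ne_of_E hbc
      have nac := K.ne_of_E hac
      have z : ∀ v, v ≠ a' → v ≠ b' → v ≠ c' → y v = 0 := fun v h1 h2 h3 => by
        by_contra hv
        rcases K.mem_of_ne_zero hy hv with h | h | h <;> contradiction
      rcases K.sub_t h h' ha hb hc with ⟨rfl, rfl, rfl⟩ | ⟨rfl, rfl, rfl⟩ | ⟨rfl, rfl, rfl⟩ |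
        ⟨rfl, rfl, rfl⟩ | ⟨rfl, rfl, rfl⟩ | ⟨rfl, rfl, rfl⟩ | ⟨rfl, rfl, rfl⟩
      · rfl
      · obtain ⟨t, ht, -⟩ := hE _ _ hab y hy
        rw [ge _ _ hab, gt _ _ _ h, z c nac.symm nbc.symm nbc.symm, ht, hΦ1, cl_val]; rfl
      · obtain ⟨t, ht, ht'⟩ := hE _ _ hbc y hy
        rw [ge _ _ hbc, gt _ _ _ h, ht', ht, hΦ2, cl_val]; rfl
      · obtain ⟨t, ht, -⟩ := hE _ _ hac y hy
        rw [ge _ _ hac, gt _ _ _ h, z b nab.symm nbc nbc, ht, hΦ3, cl_val]; rfl
      · rw [gv, gt _ _ _ h, z b nab.symm nab.symm nab.symm, z c nac.symm nac.symm nac.symm]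
        have := hΦ1 _ _ _ h 0
        rw [Icc.coe_zero] at this
        rw [this, Path.source]; rfl
      · rw [gv, gt _ _ _ h, z c nbc.symm nbc.symm nbc.symm, K.mem_hull_v hy, K.vtx_self]
        have := hΦ1 _ _ _ h 1
        rw [Icc.coe_one] at this
        rw [this, Path.target]; rfl
      · rw [gv, gt _ _ _ h, z b nbc nbc nbc, K.mem_hull_v hy, K.vtx_self]
        have := hΦ3 _ _ _ h 1
        rw [Icc.coe_one] at this
        rw [this, Path.target]; rfl
    · have nab := K.ne_of_E h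
      rcases K.sub_e h h' ha hb hc with ⟨rfl, rfl, rfl⟩ | ⟨rfl, rfl, rfl⟩ | ⟨rfl, rfl, rfl⟩
      · rfl
      · rw [gv, ge _ _ h, K.mem_hull_v hy, K.vtx_ne nab.symm, cl_zero, Path.source]; rfl
      · rw [gv, ge _ _ h, K.mem_hull_v hy, K.vtx_self, cl_one, Path.target]; rfl
    · simp only [or_self] at ha hb hc
      subst ha hb hc; rfl
  choose ca cb cc hF hm h1 h2 h3 using fun y : K.Sp => K.exists_carrier y.2
  refine ⟨fun y => g (ca y) (cb y) (cc y) y.1, ?_, fun y => (hprop _ _ _ (hF y) _).1,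
    fun y => ⟨_, _, _, hF y, hm y, (hprop _ _ _ (hF y) _).2⟩⟩
  refine K.locallyFinite_cf.continuous K.iUnion_cf K.isClosed_cf fun ς => ?_
  refine ((hcont _ _ _ ς.2).comp continuous_subtype_val.continuousOn fun y hy => hy).congr ?_
  intro y hy
  exact hcomp _ _ _ _ _ _ ς.2 (hF y) (K.mem_of_ne_zero hy (h1 y).ne')
    (K.mem_of_ne_zero hy (h2 y).ne') (K.mem_of_ne_zero hy (h3 y).ne') _ (hm y)

end OSC

/-- (C2) ZD/Contr.lean -/
theorem OSC.contractible {G : Type} [Group G] (K : OSC G) : ContractibleSpace K.Sp := by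
  obtain ⟨F, hF, h1, h0⟩ := K.exists_section
  rw [contractible_iff_id_nullhomotopic]
  let g : C(K.Sp, K.Sp) := ⟨fun y => F y 0, hF.eval continuous_const⟩
  refine ⟨K.pt K.o, ContinuousMap.Homotopic.trans (g := g) ⟨⟨⟨fun x =>
    ⟨(1 - (x.1 : ℝ)) • x.2.1 + (x.1 : ℝ) • (F x.2 0).1, ?_⟩, ?_⟩, ?_, ?_⟩⟩
    ⟨⟨⟨fun x => F x.2 x.1, (hF.comp continuous_snd).eval continuous_fst⟩, fun y => rfl,
      fun y => h1 y⟩⟩⟩
  · obtain ⟨a, b, c, h, hy, hy'⟩ := h0 x.2
    exact K.hull_sub h (K.convex_hull a b c hy hy' (sub_nonneg.mpr x.1.2.2) x.1.2.1 (by ring))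
  · apply Continuous.subtype_mk
    have : Continuous fun x : I × K.Sp => (F x.2 0).1 :=
      continuous_subtype_val.comp ((hF.comp continuous_snd).eval continuous_const)
    fun_prop
  · intro y; apply Subtype.ext; simp
  · intro y; apply Subtype.ext; simp [g]

end Crest.Agent.ZD
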