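import Crest.Agent.ZD.Bad0

set_option autoImplicit false

namespace Crest.Agent.ZD

open FreeGroup (mk of invRev IsReduced IsCyclicallyReduced mul_mk inv_mk one_eq_mk invRev_cons
  invRev_append invRev_invRev)
open Finset (univ)

section ball
variable {S : Type} (Γ : LG S)

/-- `v` is at distance at most `n` from `u` -/
def LG.Near (u : Γ.V) (n : ℕ) (v : Γ.V) : Prop :=
  ∃ w : List (S × Bool), w.length ≤ n ∧ Γ.run u w = some v

variable {Γ}

lemma LG.Near.trans {u v w : Γ.V} {m n : ℕ} (h : Γ.Near u m v) (h' : Γ.Near v n w) :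
    Γ.Near u (m + n) w := by
  obtain ⟨a, h1, h2⟩ := h
  obtain ⟨b, h3, h4⟩ := h'
  exact ⟨a ++ b, by rw [List.length_append]; omega, Γ.run_append_eq_some.mpr ⟨v, h2, h4⟩⟩

lemma LG.Near.symm {u v : Γ.V} {n : ℕ} (h : Γ.Near u n v) : Γ.Near v n u := by
  obtain ⟨a, h1, h2⟩ := h
  exact ⟨invRev a, by simpa using h1, Γ.run_invRev h2⟩

lemma LG.Near.mono {u v : Γ.V} {m n : ℕ} (h : Γ.Near u m v) (hmn : m ≤ n) : Γ.Near u n v := by
  obtain ⟨a, h1, h2⟩ := h
  exact ⟨a, h1.trans hmn, h2⟩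

lemma LG.near_refl (u : Γ.V) (n : ℕ) : Γ.Near u n u := ⟨[], by simp, rfl⟩

lemma LG.near_of_nxt {u v : Γ.V} {d : S × Bool} (h : Γ.nxt u d = some v) : Γ.Near u 1 v :=
  ⟨[d], le_rfl, by simpa using h⟩

lemma LG.exists_exit {u v : Γ.V} {m : ℕ} (hv : ¬ Γ.Near u m v) (w : List (S × Bool)) :
    ∀ x, Γ.Near u m x → Γ.run x w = some v → ∃ y, Γ.Near u (m + 1) y ∧ ¬ Γ.Near u m y := by
  induction w with
  | nil =>
    intro x h1 h2
    obtain rfl := Option.some.inj h2
    exact absurd h1 hv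
  | cons d w ih =>
    intro x h1 h2
    obtain ⟨y, h3, h4⟩ := Γ.run_cons_eq_some.mp h2
    by_cases h5 : Γ.Near u m y
    · exact ih y h5 h4
    · exact ⟨y, h1.trans (LG.near_of_nxt h3), h5⟩

open Classical in
lemma LG.near_of_balls [Fintype Γ.V] {a L c r : ℕ} (ha : 0 < a)
    (h1 : ∀ v, a ≤ L * (univ.filter fun y => Γ.Near v r y).card)
    (h2 : Fintype.card Γ.V ≤ c * a) {u v : Γ.V} (h : ∃ w, Γ.run u w = some v) :
    Γ.Near u ((L * c + 1) * (2 * r + 1)) v := by
  obtain ⟨w, hw⟩ := h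
  have key : ∀ i, ¬ Γ.Near u (i * (2 * r + 1)) v →
      i * a ≤ L * (univ.filter fun y => Γ.Near u (i * (2 * r + 1)) y).card := by
    intro i
    induction i with
    | zero => simp
    | succ i ih =>
      intro hn
      have e : (i + 1) * (2 * r + 1) = i * (2 * r + 1) + r + 1 + r := by ring
      have h3 := ih fun h => hn (h.mono (by omega))
      obtain ⟨y, h4, h5⟩ := LG.exists_exit (m := i * (2 * r + 1) + r)
        (fun h => hn (h.mono (by omega))) w u (LG.near_refl _ _) hw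
      have h6 : (univ.filter fun y => Γ.Near u (i * (2 * r + 1)) y).card +
          (univ.filter fun z => Γ.Near y r z).card ≤
          (univ.filter fun y => Γ.Near u ((i + 1) * (2 * r + 1)) y).card := by
        rw [← Finset.card_union_of_disjoint]
        · apply Finset.card_le_card
          intro z hz
          simp only [Finset.mem_union, Finset.mem_filter, Finset.mem_univ, true_and] at hz ⊢
          rcases hz with hz | hz
          · exact hz.mono (by omega)
          · exact e ▸ h4.trans hz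
        · rw [Finset.disjoint_left]
          intro z hz hz'
          simp only [Finset.mem_filter, Finset.mem_univ, true_and] at hz hz'
          exact h5 (hz.trans hz'.symm)
      have h7 := h1 y
      have h8 := Nat.mul_le_mul_left L h6
      rw [mul_add] at h8
      rw [add_mul]
      omega
  by_contra hn
  have h3 := key _ hn
  have h4 := Nat.mul_le_mul_left L ((Finset.card_le_univ
    (univ.filter fun y => Γ.Near u ((L * c + 1) * (2 * r + 1)) y)).trans h2)
  rw [add_mul, mul_assoc] at h3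
  omega

end ball

section
variable {Pt : Type} [Fintype Pt] [DecidableEq Pt] {k Np R : ℕ} (M : Model Pt k Np R)

lemma Model.exists_pt : ∃ pt : M.Z → Bool → Pt, (∀ z b, pt z b ∈ M.bz z) ∧
    ∀ z, Function.Injective (pt z) := by
  have : ∀ z, ∃ p ∈ M.bz z, ∃ q ∈ M.bz z, p ≠ q := fun z =>
    Finset.one_lt_card.1 (lt_of_lt_of_le one_lt_two (M.bz_lo z))
  choose p hp q hq hpq using this
  refine ⟨fun z b => if b then p z else q z, fun z b => by cases b <;> simp [hp, hq], ?_⟩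
  intro z b b' h
  cases b <;> cases b' <;> simp_all [eq_comm]

lemma Model.exists_z (σ : M.Conf) {p : Pt} {x : M.X} (h : p ∈ M.lx x) : ∃ z, M.Has σ (p, x, z) :=
  ⟨_, (M.has_iff σ p x _).2 ⟨h, rfl⟩⟩

lemma Model.exists_x (σ : M.Conf) {p : Pt} {z : M.Z} (h : p ∈ M.bz z) : ∃ x, M.Has σ (p, x, z) :=
  ⟨_, (M.has_iff σ p _ z).2 ⟨((σ p).symm ⟨z, h⟩).2, by simp⟩⟩

lemma Model.near_of_has {σ : M.Conf} {p : Pt} {x : M.X} {z : M.Z} (h : M.Has σ (p, x, z)) :
    (M.graph σ).Near (Sum.inl x) 1 (Sum.inr z) := LG.near_of_nxt (d := (p, true)) h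

/-- a small set of `X`-vertices absorbing two edges of many `Z`-vertices -/
def Model.Dense (pt : M.Z → Bool → Pt) (u : ℕ) (σ : M.Conf) : Prop :=
  ∃ (U : Finset M.X) (Z : Finset M.Z), U.card = u ∧ Z.card = 2 * u ∧
    ∀ z ∈ Z, ∀ b, ∃ x ∈ U, M.Has σ (pt z b, x, z)

open Classical in
lemma Model.expand (hk : 65 ≤ k) {pt : M.Z → Bool → Pt} (hpt : ∀ z b, pt z b ∈ M.bz z)
    {σ : M.Conf} {L : ℕ} (h : ∀ u, 0 < u → L * u ≤ R → ¬ M.Dense pt u σ) (x : M.X)
    (j : ℕ) : R < L * (univ.filter fun y => (M.graph σ).Near (Sum.inl x) (2 * j) (Sum.inl y)).card ∨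
      2 ^ j ≤ (univ.filter fun y => (M.graph σ).Near (Sum.inl x) (2 * j) (Sum.inl y)).card := by
  induction j with
  | zero => exact Or.inr (Finset.card_pos.mpr ⟨x, by simp [LG.near_refl]⟩)
  | succ j ih =>
    set T := univ.filter fun y => (M.graph σ).Near (Sum.inl x) (2 * j) (Sum.inl y) with hT
    set U := univ.filter fun y => (M.graph σ).Near (Sum.inl x) (2 * (j + 1)) (Sum.inl y) with hU
    have hTU : T.card ≤ U.card := Finset.card_le_card fun y hy => by
      simp only [hT, hU, Finset.mem_filter, Finset.mem_univ, true_and] at hy ⊢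
      exact hy.mono (by omega)
    rcases ih with ih | ih
    · exact Or.inl (ih.trans_le (Nat.mul_le_mul_left _ hTU))
    by_contra hc
    push Not at hc
    let W := univ.filter fun z => (M.graph σ).Near (Sum.inl x) (2 * j + 1) (Sum.inr z)
    have h1 : W.card < 2 * U.card := by
      by_contra h1
      obtain ⟨Z, h2, h3⟩ := Finset.exists_subset_card_eq (not_lt.mp h1)
      refine h U.card (lt_of_lt_of_le (by positivity) (ih.trans hTU)) hc.1 ⟨U, Z, rfl, h3, ?_⟩
      intro z hz b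
      obtain ⟨y, hy⟩ := M.exists_x σ (hpt z b)
      refine ⟨y, ?_, hy⟩
      have := h2 hz
      simp only [W, hU, Finset.mem_filter, Finset.mem_univ, true_and] at this ⊢
      exact this.trans (M.near_of_has hy).symm
    have h2 : (T.sigma M.lx).card ≤ (W.sigma M.bz).card := by
      refine Finset.card_le_card_of_forall_subsingleton
        (fun a b => a.2 = b.2 ∧ M.Has σ (a.2, a.1, b.1)) ?_ ?_
      · rintro ⟨y, p⟩ ha
        obtain ⟨h3, h4⟩ := Finset.mem_sigma.mp ha
        obtain ⟨z, hz⟩ := M.exists_z σ h4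
        refine ⟨⟨z, p⟩, Finset.mem_sigma.mpr ⟨?_, M.has_bz hz⟩, rfl, hz⟩
        simp only [W, hT, Finset.mem_filter, Finset.mem_univ, true_and] at h3 ⊢
        exact h3.trans (M.near_of_has hz)
      · rintro ⟨z, p⟩ - ⟨y, q⟩ ⟨-, h3, h4⟩ ⟨y', q'⟩ ⟨-, h5, h6⟩
        simp only at h3 h4 h5 h6
        subst h3 h5
        rw [M.has_injx h4 h6]
    rw [Finset.card_sigma, Finset.card_sigma] at h2
    simp only [M.lx_card, Finset.sum_const, smul_eq_mul] at h2
    have h3 : ∑ z ∈ W, (M.bz z).card ≤ W.card * 4 :=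
      Finset.sum_le_card_nsmul _ _ _ fun z _ => M.bz_hi z
    have h4 := Nat.mul_le_mul_left T.card hk
    have h5 := hc.2
    rw [pow_succ] at h5
    omega

lemma Model.card_le (hk : 65 ≤ k) (hR : Fintype.card Pt ≤ R) :
    Fintype.card M.X ≤ 8 * Fintype.card Pt * R ∧ Fintype.card M.Z ≤ 8 * Fintype.card Pt * R := by
  have h1 : ∀ q : Pt × Fin 4, (univ.filter fun x => q.1 ∈ M.lx x ∧ M.cx x = q.2).card ≤ 2 * R := by
    intro q
    rcases (univ.filter fun x => q.1 ∈ M.lx x ∧ M.cx x = q.2).eq_empty_or_nonempty with h | ⟨x, -⟩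
    · simp [h]
    · have := M.card_hi q.1 q.2
      have h2 := Finset.card_le_univ (M.lx x)
      rw [M.lx_card] at h2
      omega
  have e : (univ : Finset (Pt × Fin 4)).card * (2 * R) = 8 * Fintype.card Pt * R := by
    simp; ring
  constructor
  · rw [← e]
    refine le_trans (Finset.card_le_card fun x _ => ?_) (Finset.card_biUnion_le_card_mul univ
      (fun q : Pt × Fin 4 => univ.filter fun x => q.1 ∈ M.lx x ∧ M.cx x = q.2) _ fun q _ => h1 q)
    obtain ⟨p, hp⟩ : (M.lx x).Nonempty := Finset.card_pos.mp (by rw [M.lx_card]; omega)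
    exact Finset.mem_biUnion.mpr ⟨(p, M.cx x), by simp, by simp [hp]⟩
  · rw [← e]
    refine le_trans (Finset.card_le_card fun z _ => ?_) (Finset.card_biUnion_le_card_mul univ
      (fun q : Pt × Fin 4 => univ.filter fun z => q.1 ∈ M.bz z ∧ M.cz z = q.2) _
      fun q _ => M.cardXZ q.1 q.2 ▸ h1 q)
    obtain ⟨p, hp⟩ : (M.bz z).Nonempty := Finset.card_pos.mp (by have := M.bz_lo z; omega)
    exact Finset.mem_biUnion.mpr ⟨(p, M.cz z), by simp, by simp [hp]⟩

open Classical in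
lemma Model.diam_det (hk : 65 ≤ k) (hR : Fintype.card Pt ≤ R) (hR0 : 0 < R)
    {pt : M.Z → Bool → Pt} (hpt : ∀ z b, pt z b ∈ M.bz z)
    {σ : M.Conf} {L : ℕ} (hL : 0 < L) (h : ∀ u, 0 < u → L * u ≤ R → ¬ M.Dense pt u σ)
    {u v : (M.graph σ).V} (huv : ∃ w, (M.graph σ).run u w = some v) :
    (M.graph σ).Near u (7 * (L * (16 * Fintype.card Pt) + 1) * (Nat.log 2 R + 1)) v := by
  have h1 : ∀ x : M.X, R ≤ L * (univ.filter fun y => (M.graph σ).Near (Sum.inl x)
      (2 * (Nat.log 2 R + 1)) (Sum.inl y)).card := by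
    intro x
    rcases M.expand hk hpt h x (Nat.log 2 R + 1) with h1 | h1
    · exact h1.le
    · exact ((Nat.lt_pow_succ_log_self one_lt_two R).le.trans h1).trans
        (Nat.le_mul_of_pos_left _ hL)
  have h2 : ∀ v : (M.graph σ).V, ∃ x, (M.graph σ).Near v 1 (Sum.inl x) := by
    rintro (x | z)
    · exact ⟨x, LG.near_refl _ _⟩
    · obtain ⟨x, hx⟩ := M.exists_x σ (hpt z true)
      exact ⟨x, (M.near_of_has hx).symm⟩
  refine (LG.near_of_balls (a := R) (L := L) (c := 16 * Fintype.card Pt)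
    (r := 1 + 2 * (Nat.log 2 R + 1)) hR0 (fun v => ?_) ?_ huv).mono ?_
  · obtain ⟨x, hx⟩ := h2 v
    refine (h1 x).trans (Nat.mul_le_mul_left _ ?_)
    refine Finset.card_le_card_of_injOn Sum.inl (fun y hy => ?_) Sum.inl_injective.injOn
    simp only [Finset.coe_filter, Finset.mem_univ, true_and, Set.mem_ofPred_eq] at hy ⊢
    exact hx.trans hy
  · obtain ⟨h3, h4⟩ := M.card_le hk hR
    rw [Fintype.card_sum]
    linarith
  · rw [mul_comm 7, mul_assoc]
    exact Nat.mul_le_mul_left _ (by omega)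

lemma choose_le_three_pow (n u : ℕ) : (n.choose u : ℝ) * u ^ u ≤ (3 * n) ^ u := by
  have h1 : (n.choose u : ℝ) ≤ n ^ u / u.factorial := Nat.choose_le_pow_div u n
  have h2 := Real.pow_div_factorial_le_exp (u : ℝ) (Nat.cast_nonneg u) u
  have h3 : Real.exp u ≤ 3 ^ u := by
    rw [← Real.exp_one_pow]
    exact pow_le_pow_left₀ (Real.exp_pos 1).le (Real.exp_one_lt_d9.le.trans (by norm_num)) u
  calc (n.choose u : ℝ) * u ^ u ≤ n ^ u / u.factorial * u ^ u := by gcongr
    _ = n ^ u * (u ^ u / u.factorial) := by ring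
    _ ≤ n ^ u * 3 ^ u := by gcongr; exact h2.trans h3
    _ = _ := by rw [mul_pow, mul_comm]

open Classical in
lemma Model.dense_card (hsw : SwitchStmt) (hk : 65 ≤ k) (hR : Fintype.card Pt ≤ R) {g : ℕ}
    (hg : 4 * nearB Pt g ≤ R) {pt : M.Z → Bool → Pt} (hpt : ∀ z, Function.Injective (pt z))
    {u : ℕ} (hu : 0 < u) (hL : (884736 * Fintype.card Pt ^ 3 + 16) * u ≤ R) :
    (((M.GS g).filter fun σ => M.Dense pt u σ).card : ℝ) ≤ (M.GS g).card * (1 / 4) ^ u := by
  set N := Fintype.card Pt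
  let B : ∀ (U : Finset M.X) (Z : Finset M.Z), (Z × Bool → U) → Finset (Pt × M.X × M.Z) :=
    fun U Z f => univ.image fun i : Z × Bool => (pt i.1 i.2, (f i : M.X), (i.1 : M.Z))
  have hB : ∀ U Z f, (B U Z f).card = Z.card * 2 := by
    intro U Z f
    rw [Finset.card_image_of_injective]
    · simp
    · rintro ⟨z, b⟩ ⟨z', b'⟩ h
      simp only [Prod.mk.injEq] at h
      obtain rfl : z = z' := Subtype.ext h.2.2
      rw [hpt _ h.1]
  have hR0 : (0 : ℝ) < R := by
    have : 0 < R := by rw [add_mul] at hL; omega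
    exact_mod_cast this
  have h1 : ∀ U Z f, Z.card = 2 * u → (((M.GS g).filter fun σ => ∀ e ∈ B U Z f, M.Has σ e).card : ℝ)
      ≤ (M.GS g).card * (2 / R) ^ (4 * u) := by
    intro U Z f hZ
    have h2 := hsw Pt k Np R M g (B U Z f)
    rw [hB, hZ, show 2 * u * 2 = 4 * u by ring] at h2
    have h3 : R ≤ 2 * (R - 4 * u - nearB Pt g) := by rw [add_mul] at hL; omega
    have h4 : (R : ℝ) ≤ 2 * (R - 4 * u - nearB Pt g : ℕ) := by exact_mod_cast h3
    have h5 : (((M.GS g).filter fun σ => ∀ e ∈ B U Z f, M.Has σ e).card : ℝ) *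
      (R - 4 * u - nearB Pt g : ℕ) ^ (4 * u) ≤ (M.GS g).card := by exact_mod_cast h2
    rw [div_pow, ← mul_div_assoc, le_div_iff₀ (by positivity)]
    calc _ ≤ (((M.GS g).filter fun σ => ∀ e ∈ B U Z f, M.Has σ e).card : ℝ) *
          (2 * (R - 4 * u - nearB Pt g : ℕ)) ^ (4 * u) := by gcongr
      _ ≤ _ := by rw [mul_pow, mul_comm ((2 : ℝ) ^ _), ← mul_assoc]; gcongr
  have h2 : ((M.GS g).filter fun σ => M.Dense pt u σ) ⊆
      (Finset.powersetCard u univ).biUnion fun U => (Finset.powersetCard (2 * u) univ).biUnion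
        fun Z => univ.biUnion fun f => (M.GS g).filter fun σ => ∀ e ∈ B U Z f, M.Has σ e := by
    intro σ hσ
    obtain ⟨h3, U, Z, h4, h5, h6⟩ := Finset.mem_filter.mp hσ
    choose x hx hx' using h6
    simp only [Finset.mem_biUnion, Finset.mem_powersetCard, Finset.subset_univ, true_and,
      Finset.mem_univ, Finset.mem_filter]
    refine ⟨U, h4, Z, h5, fun i => ⟨x i.1 i.1.2 i.2, hx _ _ _⟩, h3, fun e he => ?_⟩
    obtain ⟨i, -, rfl⟩ := Finset.mem_image.mp he
    exact hx' _ _ _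
  have h3 : (((M.GS g).filter fun σ => M.Dense pt u σ).card : ℝ) ≤
      (Fintype.card M.X).choose u * ((Fintype.card M.Z).choose (2 * u) * (u ^ (4 * u) *
        ((M.GS g).card * (2 / R) ^ (4 * u)))) := by
    refine (Nat.cast_le.mpr ((Finset.card_le_card h2).trans Finset.card_biUnion_le)).trans ?_
    rw [Nat.cast_sum, ← Finset.card_univ (α := M.X), ← Finset.card_powersetCard, ← nsmul_eq_mul]
    refine Finset.sum_le_card_nsmul _ _ _ fun U hU => ?_
    refine (Nat.cast_le.mpr Finset.card_biUnion_le).trans ?_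
    rw [Nat.cast_sum, ← Finset.card_univ (α := M.Z), ← Finset.card_powersetCard, ← nsmul_eq_mul]
    refine Finset.sum_le_card_nsmul _ _ _ fun Z hZ => ?_
    refine (Nat.cast_le.mpr Finset.card_biUnion_le).trans ?_
    have hU' := (Finset.mem_powersetCard.mp hU).2
    have hZ' := (Finset.mem_powersetCard.mp hZ).2
    have e : (univ : Finset (Z × Bool → U)).card = u ^ (4 * u) := by
      simp only [Finset.card_univ, Fintype.card_pi, Fintype.card_coe, Finset.prod_const,
        Fintype.card_prod, Fintype.card_bool, hU', hZ']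
      congr 1; ring
    rw [Nat.cast_sum, ← Nat.cast_pow, ← e, ← nsmul_eq_mul]
    exact Finset.sum_le_card_nsmul _ _ _ fun f _ => h1 U Z f hZ'
  obtain ⟨c1, c2⟩ := M.card_le hk hR
  have c3 : (Fintype.card M.X : ℝ) ≤ 8 * N * R := by exact_mod_cast c1
  have c4 : (Fintype.card M.Z : ℝ) ≤ 8 * N * R := by exact_mod_cast c2
  have c5 : ((Fintype.card M.X).choose u : ℝ) * u ^ u ≤ (3 * (8 * N * R)) ^ u :=
    (choose_le_three_pow _ _).trans (by gcongr)
  have c6 : ((Fintype.card M.Z).choose (2 * u) : ℝ) * u ^ (2 * u) ≤ (3 * (8 * N * R)) ^ (2 * u) := by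
    refine le_trans ?_ ((choose_le_three_pow (Fintype.card M.Z) (2 * u)).trans (by gcongr))
    gcongr
    omega
  have c7 : (3 * (8 * N * R) * (3 * (8 * N * R)) ^ 2 * (u * (2 / R) ^ 4) : ℝ) ≤ 1 / 4 := by
    have : ((884736 * N ^ 3 + 16 : ℕ) * u : ℝ) ≤ R := by exact_mod_cast hL
    push_cast at this
    have e : (3 * (8 * N * R) * (3 * (8 * N * R)) ^ 2 * (u * (2 / R) ^ 4) : ℝ) =
      (884736 * N ^ 3 * u) / R / 4 := by field_simp; ring
    rw [e]
    gcongr
    rw [div_le_one hR0]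
    nlinarith
  calc _ ≤ _ := h3
    _ = (M.GS g).card * (((Fintype.card M.X).choose u * u ^ u) *
        ((Fintype.card M.Z).choose (2 * u) * u ^ (2 * u)) * (u * (2 / R) ^ 4) ^ u) := by
      rw [mul_pow, ← pow_mul]; ring
    _ ≤ (M.GS g).card * ((3 * (8 * N * R)) ^ u * (3 * (8 * N * R)) ^ (2 * u) *
        (u * (2 / R) ^ 4) ^ u) := by gcongr
    _ = (M.GS g).card * (3 * (8 * N * R) * (3 * (8 * N * R)) ^ 2 * (u * (2 / R) ^ 4)) ^ u := by
      rw [pow_mul, ← mul_pow, ← mul_pow]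
    _ ≤ _ := by gcongr

end

lemma sum_quarter (n : ℕ) : ∑ u ∈ Finset.range n, (1 / 4 : ℝ) ^ (u + 1) ≤ 1 / 3 := by
  have : ∑ u ∈ Finset.range n, (1 / 4 : ℝ) ^ (u + 1) = (1 - (1 / 4) ^ n) / 3 := by
    induction n with
    | zero => simp
    | succ n ih => rw [Finset.sum_range_succ, ih]; ring
  rw [this]
  have : (0 : ℝ) ≤ (1 / 4) ^ n := by positivity
  linarith

open Classical in
theorem diam_of (hsw : SwitchStmt) (Pt : Type) [Fintype Pt] [DecidableEq Pt] :
    ∃ C₁ : ℕ, ∀ (k Np R g : ℕ) (M : Model Pt k Np R), 65 ≤ k → 4 * nearB Pt g ≤ R →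
    3 * ((M.GS g).filter fun σ => ¬ ∀ u v, (∃ w, (M.graph σ).run u w = some v) →
      ∃ w : List (Pt × Bool), w.length ≤ C₁ * (Nat.log 2 R + 1) ∧
        (M.graph σ).run u w = some v).card ≤ (M.GS g).card := by
  set L := 884736 * Fintype.card Pt ^ 3 + 16 with hL
  refine ⟨7 * (L * (16 * Fintype.card Pt) + 1), fun k Np R g M hk hg => ?_⟩
  have h0 : 2 * Fintype.card Pt + 1 ≤ nearB Pt g := Nat.le_self_pow (by omega) _
  obtain ⟨pt, h1, h2⟩ := M.exists_pt
  have h3 : ((M.GS g).filter fun σ => ¬ ∀ u v, (∃ w, (M.graph σ).run u w = some v) →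
      ∃ w : List (Pt × Bool), w.length ≤ 7 * (L * (16 * Fintype.card Pt) + 1) *
        (Nat.log 2 R + 1) ∧ (M.graph σ).run u w = some v) ⊆
      ((Finset.range R).filter fun u => L * (u + 1) ≤ R).biUnion fun u =>
        (M.GS g).filter fun σ => M.Dense pt (u + 1) σ := by
    intro σ hσ
    obtain ⟨h3, h4⟩ := Finset.mem_filter.mp hσ
    by_contra h5
    refine h4 fun u v huv => M.diam_det hk (by omega) (by omega) h1 (by omega)
      (fun n h6 h7 h8 => h5 ?_) huv
    obtain ⟨n, rfl⟩ : ∃ m, n = m + 1 := ⟨n - 1, by omega⟩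
    have := Nat.le_mul_of_pos_left (n + 1) (show 0 < L by omega)
    exact Finset.mem_biUnion.mpr ⟨n, Finset.mem_filter.mpr ⟨Finset.mem_range.mpr (by omega), h7⟩,
      Finset.mem_filter.mpr ⟨h3, h8⟩⟩
  have h4 := Nat.cast_le (α := ℝ).mpr ((Finset.card_le_card h3).trans Finset.card_biUnion_le)
  rw [Nat.cast_sum] at h4
  have h5 := h4.trans ((Finset.sum_le_sum fun u hu => M.dense_card hsw hk (by omega) hg h2
    (Nat.succ_pos u) (Finset.mem_filter.mp hu).2).trans (Finset.sum_le_sum_of_subset_of_nonneg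
      (Finset.filter_subset _ _) fun _ _ _ => by positivity))
  rw [← Finset.mul_sum] at h5
  have h6 := h5.trans (mul_le_mul_of_nonneg_left (sum_quarter R) (Nat.cast_nonneg _))
  rw [← Nat.cast_le (α := ℝ), Nat.cast_mul]
  push_cast
  linarith

end Crest.Agent.ZD
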