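import Crest.Agent.ZD.Defs

set_option autoImplicit false

namespace Crest.Agent.ZD

open Finset

lemma exists_unit_norm {G V : Type} [Group G] [MulAction G V]
    (free : ∀ (g : G) (v : V), g • v = v → g = 1) (g : G) (hg : IsOfFinOrder g) :
    ∃ e : V → ℤ, ∀ v, ∑ k ∈ range (orderOf g), e (g ^ k • v) = 1 := by
  classical
  let r : V → V := fun v => (Quotient.mk (MulAction.orbitRel (Subgroup.zpowers g) V) v).out
  have hr : ∀ (k : ℕ) v, r (g ^ k • v) = r v := fun k v => by
    simp only [r]
    congr 1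
    exact Quotient.sound (MulAction.mem_orbit v
      (⟨g ^ k, Subgroup.npow_mem_zpowers g k⟩ : Subgroup.zpowers g))
  refine ⟨fun v => if r v = v then 1 else 0, fun v => ?_⟩
  obtain ⟨⟨x, hx⟩, hxv⟩ : r v ∈ MulAction.orbit (Subgroup.zpowers g) v :=
    Quotient.mk_out (s := MulAction.orbitRel (Subgroup.zpowers g) V) v
  obtain ⟨k, hk, rfl⟩ := Finset.mem_image.mp (hg.mem_zpowers_iff_mem_range_orderOf.mp hx)
  have hk' : g ^ k • v = r v := hxv
  rw [Finset.sum_eq_single k]
  · simp only [hr]; rw [if_pos hk'.symm]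
  · intro j hj hjk
    simp only [hr]
    rw [if_neg]
    intro h
    apply hjk
    have h1 : ((g ^ k)⁻¹ * g ^ j) • v = v := by rw [mul_smul, ← h, ← hk', inv_smul_smul]
    have h2 := inv_mul_eq_one.mp (free _ _ h1)
    exact (pow_injOn_Iio_orderOf (mem_range.mp hk) (mem_range.mp hj) h2).symm
  · intro h; exact absurd hk h

lemma sum_shift {n : ℕ} (F : ℕ → ℤ) (h : F n = F 0) :
    ∑ k ∈ range n, F (k + 1) = ∑ k ∈ range n, F k := by
  have h1 := sum_range_succ F n
  have h2 := sum_range_succ' F n
  linarith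

/-- (D) ZD/Tors.lean -/
theorem OSC.torsionFree {G : Type} [Group G] (K : OSC G) (g : G) (hg : IsOfFinOrder g) :
    g = 1 := by
  obtain ⟨e, he⟩ := exists_unit_norm K.free g hg
  set n := orderOf g with hn
  have hgn : g ^ n = 1 := pow_orderOf_eq_one g
  have hs : ∀ (k : ℕ) (v : K.V), g ^ k • g • v = g ^ (k + 1) • v := fun k v => by
    rw [pow_succ, mul_smul]
  have hs' : ∀ (k : ℕ) (v : K.V), g • g ^ k • v = g ^ (k + 1) • v := fun k v => by
    rw [pow_succ', mul_smul]
  -- partial sums of `d e`
  let S : ℕ → K.V → K.V → ℤ := fun k a b => ∑ j ∈ range k, (e (g ^ j • b) - e (g ^ j • a))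
  have hS : ∀ k a b, S k (g • a) (g • b) = S (k + 1) a b - (e b - e a) := fun k a b => by
    simp only [S, sum_range_succ', hs, pow_zero, one_smul]; ring
  have hSn : ∀ a b, S n a b = 0 := fun a b => by simp only [S, sum_sub_distrib, he, sub_self]
  let h : K.V → K.V → ℤ := fun a b => - ∑ k ∈ range n, e (g ^ k • a) * S k a b
  have hh : ∀ a b, h (g • a) (g • b) = h a b + (e b - e a) := fun a b => by
    have e1 := sum_shift (n := n) (fun k => e (g ^ k • a) * S k a b) (by simp only [hSn]; simp [S])
    have e2 := he (g • a)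
    simp only [hs] at e2
    simp only [h, hS, hs, mul_sub, sum_sub_distrib, ← sum_mul, e2]
    rw [e1]; ring
  let dh : K.V → K.V → K.V → ℤ := fun a b c => h a b + h b c - h a c
  have hdh : ∀ (k : ℕ) a b c, dh (g ^ k • a) (g ^ k • b) (g ^ k • c) = dh a b c := by
    intro k a b c
    induction k with
    | zero => simp
    | succ k ih => rw [← hs', ← hs', ← hs', ← ih]; simp only [dh, hh]; ring
  obtain ⟨u, hu⟩ := K.cob ℤ fun a b c => e a * dh a b c
  let N : K.V → K.V → ℤ := fun a b => ∑ k ∈ range n, u (g ^ k • a) (g ^ k • b)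
  have hN : ∀ a b, N (g • a) (g • b) = N a b := fun a b => by
    simp only [N, hs]
    exact sum_shift (fun k => u (g ^ k • a) (g ^ k • b)) (by simp [hgn])
  obtain ⟨m, hm⟩ := K.sc (Multiplicative ℤ) (fun a b => Multiplicative.ofAdd (h a b - N a b)) (by
    intro a b c habc
    rw [← ofAdd_add]
    congr 1
    have : N a b + N b c - N a c = dh a b c := by
      simp only [N, ← sum_add_distrib, ← sum_sub_distrib]
      rw [sum_congr rfl fun k _ => hu _ _ _ (K.T_smul (g ^ k) _ _ _ habc)]
      simp only [hdh, ← sum_mul, he, one_mul]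
    simp only [dh] at this
    linarith)
  have hm' : ∀ a b, K.E a b → h a b - N a b = (m b).toAdd - (m a).toAdd := fun a b hab => by
    have := congrArg Multiplicative.toAdd (hm a b hab)
    simp only [toAdd_ofAdd, toAdd_mul, toAdd_inv] at this
    linarith
  let φ : K.V → ℤ := fun v => e v - ((m (g • v)).toAdd - (m v).toAdd)
  have hφ : ∀ a b, Relation.EqvGen K.E a b → φ a = φ b := by
    intro a b hab
    induction hab with
    | rel a b hab =>
      have h1 := hm' a b hab
      have h2 := hm' _ _ (K.E_smul g a b hab)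
      rw [hh, hN] at h2
      simp only [φ]; linarith
    | refl => rfl
    | symm _ _ _ ih => exact ih.symm
    | trans _ _ _ _ _ h1 h2 => exact h1.trans h2
  have key : ∑ k ∈ range n, φ (g ^ k • K.o) = 1 := by
    simp only [φ, sum_sub_distrib, he, hs']
    rw [sum_shift (fun k => (m (g ^ k • K.o)).toAdd) (by simp [hgn])]
    ring
  rw [sum_congr rfl fun k _ => (hφ _ _ (K.conn (g ^ k • K.o))).symm] at key
  simp only [sum_const, card_range, nsmul_eq_mul] at key
  have : (n : ℤ) = 1 := Int.eq_one_of_mul_eq_one_right (by positivity) key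
  exact orderOf_eq_one_iff.mp (by exact_mod_cast this)

end Crest.Agent.ZD
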