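import Crest.Agent.ZD.DiagA

set_option autoImplicit false

namespace Crest.Agent.ZD

open FreeGroup (mk of invRev IsReduced IsCyclicallyReduced mul_mk inv_mk one_eq_mk invRev_cons
  invRev_append invRev_invRev)
open Finset (univ)

lemma sgn_append (e : ℕ) (u w : List (ℕ × Bool)) : sgn e (u ++ w) = sgn e u + sgn e w := by
  simp [sgn]

lemma sgn_cons (e : ℕ) (d : ℕ × Bool) (w : List (ℕ × Bool)) :
    sgn e (d :: w) = (if d.1 = e then (if d.2 then 1 else -1) else 0) + sgn e w := by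
  simp [sgn]

lemma mk_cons' {α : Type} (d : α × Bool) (w : List (α × Bool)) : mk (d :: w) = mk [d] * mk w := by
  rw [mul_mk]; rfl

lemma hom_mk_congr {α M : Type} [Group M] {θ θ' : FreeGroup α →* M} {w : List (α × Bool)}
    (h : ∀ d ∈ w, θ (of d.1) = θ' (of d.1)) : θ (mk w) = θ' (mk w) := by
  induction w with
  | nil => simp [← one_eq_mk]
  | cons d w ih =>
    rw [← List.singleton_append, ← mul_mk, map_mul, map_mul, ih fun c hc => h c (by simp [hc])]
    congr 1
    have := h d (by simp)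
    obtain ⟨x, b⟩ := d
    cases b
    · have e : (mk [(x, false)] : FreeGroup α) = (of x)⁻¹ := by simp [of, inv_mk, invRev]
      rw [e, map_inv, map_inv, this]
    · exact this

lemma hom_mk_one {α M : Type} [Group M] {θ : FreeGroup α →* M} {w : List (α × Bool)}
    (h : ∀ d ∈ w, θ (of d.1) = 1) : θ (mk w) = 1 :=
  hom_mk_congr (θ' := 1) h

lemma hom_single_eq_one {α M : Type} [Group M] {θ : FreeGroup α →* M} {d : α × Bool}
    (h : θ (mk [d]) = 1) : θ (of d.1) = 1 := by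
  obtain ⟨x, b⟩ := d
  cases b
  · have e : (mk [(x, false)] : FreeGroup α) = (of x)⁻¹ := by simp [of, inv_mk, invRev]
    rwa [e, map_inv, inv_eq_one] at h
  · exact h

section
variable {S Φ : Type} {wd : Φ → List (S × Bool)}

lemma peel_cnt (D : Diag wd) {x y p p' : List (ℕ × Bool)} {d c : ℕ × Bool}
    {A B : List (FreeGroup ℕ × List (ℕ × Bool) × Φ)} {f : FreeGroup ℕ × List (ℕ × Bool) × Φ}
    (hω : D.ω = x ++ d :: y) (hfs : D.fs = A ++ f :: B) (hf : f.2.1 = p ++ c :: p')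
    (hc : c.1 = d.1) : c = d ∧ cnt d.1 x = 0 ∧ cnt d.1 y = 0 ∧ cnt d.1 p = 0 ∧ cnt d.1 p' = 0 ∧
      cnt d.1 (A.flatMap fun f => f.2.1) = 0 ∧ cnt d.1 (B.flatMap fun f => f.2.1) = 0 := by
  have hq := D.quad d.1
  have hs := D.sgn_eq d.1
  rw [hω, hfs] at hq hs
  simp only [List.flatMap_append, List.flatMap_cons, hf, cnt_append, cnt_cons, hc, if_true] at hq
  simp only [List.flatMap_append, List.flatMap_cons, hf, sgn_append, sgn_cons, hc, if_true] at hs
  rw [sgn_eq_zero (w := x) (by omega), sgn_eq_zero (w := y) (by omega),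
    sgn_eq_zero (w := p) (by omega), sgn_eq_zero (w := p') (by omega),
    sgn_eq_zero (w := A.flatMap _) (by omega), sgn_eq_zero (w := B.flatMap _) (by omega)] at hs
  refine ⟨Prod.ext hc ?_, by omega, by omega, by omega, by omega, by omega, by omega⟩
  cases h4 : d.2 <;> cases h5 : c.2 <;> simp_all

lemma peel (D : Diag wd) {x y p p' : List (ℕ × Bool)} {d : ℕ × Bool}
    {A B : List (FreeGroup ℕ × List (ℕ × Bool) × Φ)} {f : FreeGroup ℕ × List (ℕ × Bool) × Φ}
    (hω : D.ω = x ++ d :: y) (hfs : D.fs = A ++ f :: B) (hf : f.2.1 = p ++ d :: p') :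
    ∃ (D' : Diag wd) (ψ : FreeGroup ℕ →* FreeGroup ℕ), D'.ω = x ++ invRev (p' ++ p) ++ y ∧
      D'.lab = D.lab ∧ D'.fs = (A ++ B).map (fun f => (ψ f.1, f.2)) ∧
      (∀ z ∈ faceN D.fs, ψ z ∈ faceN D'.fs) ∧ (∀ w, cnt d.1 w = 0 → ψ (mk w) = mk w) ∧
      ψ (mk [d]) = mk (invRev (p' ++ p)) ∧
      (∀ (M : Type) [Monoid M] (θ : FreeGroup ℕ →* M), θ (mk f.2.1) = 1 → ∀ z, θ (ψ z) = θ z) ∧
      (mk x * (mk p)⁻¹)⁻¹ * f.1 ∈ faceN D.fs := by
  obtain ⟨-, cx, cy, cp, cp', cA, cB⟩ := peel_cnt D hω hfs hf rfl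
  let σ : ℕ → List (ℕ × Bool) := fun e =>
    if e = d.1 then (if d.2 then invRev (p' ++ p) else p' ++ p) else [(e, true)]
  have hσ : ∀ w, cnt d.1 w = 0 → sub σ w = w := fun w hw =>
    sub_eq_self fun c hc => by simp [σ, cnt_eq_zero.mp hw c hc]
  have hσd : sub σ [d] = invRev (p' ++ p) := by
    obtain ⟨x, b⟩ := d
    cases b <;> simp [sub, σ]
  have hAB : ∀ g ∈ A ++ B, sub σ g.2.1 = g.2.1 := by
    intro g hg
    apply hσ
    rw [cnt_eq_zero] at cA cB ⊢
    intro c hc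
    rcases List.mem_append.mp hg with h | h
    · exact cA c (List.mem_flatMap.mpr ⟨g, h, hc⟩)
    · exact cB c (List.mem_flatMap.mpr ⟨g, h, hc⟩)
  have hABm : ∀ g ∈ A ++ B, g ∈ D.fs := by
    intro g hg
    rw [hfs]
    simp only [List.mem_append, List.mem_cons] at hg ⊢
    tauto
  have hfm : f ∈ D.fs := by simp [hfs]
  let fs' := (A ++ B).map fun f => (subH σ f.1, f.2)
  have hf1 : subH σ (mk f.2.1) = 1 := by
    rw [hf, subH_mk, sub_append, sub_cons', hσ _ cp, hσ _ cp', hσd]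
    simp only [← mul_mk, ← inv_mk]
    group
  have hN : ∀ z ∈ faceN D.fs, subH σ z ∈ faceN fs' := by
    apply faceN_le
    intro g hg
    rw [hfs] at hg
    simp only [List.mem_append, List.mem_cons] at hg
    by_cases h : g ∈ A ++ B
    · rw [subH_mk, hAB g h]
      exact mem_faceN (f := (subH σ g.1, g.2)) (List.mem_map.mpr ⟨g, h, rfl⟩)
    · have : g = f := by simp only [List.mem_append] at h; tauto
      rw [this, hf1]
      exact one_mem _
  have hsubω : sub σ D.ω = x ++ invRev (p' ++ p) ++ y := by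
    rw [hω, sub_append, sub_cons', hσ _ cx, hσ _ cy, hσd, List.append_assoc]
  have hpf := D.pathf f hfm
  rw [hf] at hpf
  have hfN : mk p * mk [d] * mk p' ∈ faceN D.fs := by
    have := mem_faceN hfm
    rwa [hf, ← List.singleton_append, ← mul_mk, ← mul_mk, ← mul_assoc] at this
  have hst : ∀ e, IsPath (faceN fs') (fun e => subH σ (D.st e)) (subH σ (D.st e)) (σ e) := by
    have hgen : ∀ e, e ≠ d.1 →
        IsPath (faceN fs') (fun e => subH σ (D.st e)) (subH σ (D.st e)) (σ e) := by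
      intro e he
      simp only [σ, he, if_false]
      exact ⟨by simp, trivial⟩
    intro e
    by_cases he : e = d.1
    swap
    · exact hgen e he
    subst he
    have p1 : IsPath (faceN D.fs) D.st (f.1 * mk p * mk [d]) (p' ++ p) := by
      refine hpf.append_right.2.append (hpf.append_left.congr ?_)
      have := (inferInstance : (faceN D.fs).Normal).conj_mem _ ((faceN D.fs).inv_mem hfN)
        1
      simpa [mul_assoc] using this
    have hpp : cnt d.1 (p' ++ p) = 0 := by rw [cnt_append]; omega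
    have p2 : ∀ {z w}, cnt d.1 w = 0 → IsPath (faceN D.fs) D.st z w →
        IsPath (faceN fs') (fun e => subH σ (D.st e)) (subH σ z) w := by
      intro z w hw hp
      have := hp.sub hN fun c hc => hgen c.1 (cnt_eq_zero.mp hw c hc)
      rwa [hσ _ hw] at this
    have p3 := hpf.pos
    cases hd : d.2
    · simp only [hd, Bool.false_eq_true, if_false] at p3
      rw [show σ d.1 = p' ++ p by simp [σ, hd]]
      exact p2 hpp (p1.congr (cong_symm p3))
    · simp only [hd, if_true] at p3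
      rw [show σ d.1 = invRev (p' ++ p) by simp [σ, hd]]
      refine p2 (by rw [cnt_invRev]; exact hpp) (p1.inv.congr (cong_trans (cong_symm p3) ?_))
      have := (inferInstance : (faceN D.fs).Normal).conj_mem _ hfN (mk p)⁻¹
      convert this using 1
      rw [← mul_mk]; group
  refine ⟨⟨x ++ invRev (p' ++ p) ++ y, fs', D.lab, fun e => subH σ (D.st e), ?_, ?_, ?_, ?_, ?_⟩,
    subH σ, rfl, rfl, rfl, hN, fun w hw => by rw [subH_mk, hσ _ hw], by rw [subH_mk, hσd],
    ?_, ?_⟩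
  · rw [← hsubω, ← subH_mk, D.planar, hfs, map_list_prod]
    simp only [List.map_append, List.map_cons, List.prod_append, List.prod_cons, map_mul, hf1,
      mul_one, map_inv, mul_inv_cancel, one_mul, fs', List.map_map]
    congr 2 <;> apply List.map_congr_left <;> intro g hg
    · simp [subH_mk, hAB g (by simp [hg])]
    · simp [subH_mk, hAB g (by simp [hg])]
  · intro g hg
    obtain ⟨g₀, h0, rfl⟩ := List.mem_map.mp hg
    exact D.labf g₀ (hABm _ h0)
  · intro e
    have hq := D.quad e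
    rw [hω, hfs] at hq
    simp only [List.flatMap_append, List.flatMap_cons, hf, cnt_append, cnt_cons, fs',
      List.flatMap_map, cnt_invRev, List.map_append] at hq ⊢
    omega
  · have := D.pathω.sub hN fun c _ => hst c.1
    rwa [map_one, hsubω] at this
  · intro g hg
    obtain ⟨g₀, h0, rfl⟩ := List.mem_map.mp hg
    have := (D.pathf g₀ (hABm _ h0)).sub hN fun c _ => hst c.1
    rwa [hAB _ h0] at this
  · intro M _ θ hθ z
    have : θ.comp (subH σ) = θ := by
      apply FreeGroup.ext_hom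
      intro e
      simp only [MonoidHom.comp_apply, subH_of]
      by_cases he : e = d.1
      · subst he
        rw [hf, ← List.singleton_append, ← mul_mk, ← mul_mk] at hθ
        obtain ⟨e, b⟩ := d
        cases b
        · have e1 : (mk [(e, false)] : FreeGroup ℕ) = (of e)⁻¹ := by simp [of, inv_mk, invRev]
          simp only [σ, if_true, Bool.false_eq_true, if_false, ← mul_mk]
          have e2 : mk p' * mk p = of e * (mk p)⁻¹ * (mk p * (mk [(e, false)] * mk p')) * mk p := by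
            rw [e1]; group
          rw [e2, map_mul, map_mul, hθ, mul_one, ← map_mul, inv_mul_cancel_right]
        · simp only [σ, if_true, ← inv_mk, ← mul_mk]
          have e2 : of e = (mk p)⁻¹ * (mk p * (mk [(e, true)] * mk p')) * (mk p')⁻¹ := by
            change mk [(e, true)] = _
            group
          rw [e2, map_mul, map_mul, hθ, mul_one, ← map_mul, mul_inv_rev]
      · simp [σ, he]; rfl
    exact DFunLike.congr_fun this z
  · have q1 := D.pathω
    rw [hω] at q1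
    have q2 := q1.pos
    have q3 := hpf.pos
    rw [one_mul] at q2
    cases hd : d.2
    · simp only [hd, Bool.false_eq_true, if_false] at q2 q3
      have := cong_mul (cong_trans q2 (cong_symm q3)) ((mk [d])⁻¹ * (mk p)⁻¹)
      convert this using 1; group
    · simp only [hd, if_true] at q2 q3
      have := cong_mul (cong_trans q2 (cong_symm q3)) (mk p)⁻¹
      convert this using 1; group

variable {A : Type} [AddCommGroup A] (ρ : Representation ℤ (FreeGroup S) A) (ch : Φ → A)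

lemma rho_face (htriv : ∀ φ a, ρ (mk (wd φ)) a = a) (D : Diag wd)
    {f : FreeGroup ℕ × List (ℕ × Bool) × Φ} (hf : f ∈ D.fs) :
    (ρ.comp (subH D.lab)) (mk f.2.1) = 1 := by
  apply LinearMap.ext
  intro a
  simp [subH_mk, D.labf f hf, htriv]

lemma rho_faceN (htriv : ∀ φ a, ρ (mk (wd φ)) a = a) (D : Diag wd) {z : FreeGroup ℕ}
    (hz : z ∈ faceN D.fs) : ρ (subH D.lab z) = 1 :=
  faceN_le (MonoidHom.id _) (MonoidHom.ker (ρ.comp (subH D.lab))) (fun _ hf => rho_face ρ htriv D hf)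
    z hz

/-- conjugate filling -/
def fconj (k : FreeGroup S) (l : List (FreeGroup S × Φ)) : List (FreeGroup S × Φ) :=
  l.map fun p => (k * p.1, p.2)

lemma fprod_fconj (k : FreeGroup S) (l : List (FreeGroup S × Φ)) :
    fprod wd (fconj k l) = k * fprod wd l * k⁻¹ := by
  induction l with
  | nil => simp [fconj]
  | cons a l ih =>
    simp only [fconj, List.map_cons, fprod_cons] at ih ⊢
    rw [ih]; group

lemma fchain_fconj (k : FreeGroup S) (l : List (FreeGroup S × Φ)) :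
    fchain ρ ch (fconj k l) = ρ k (fchain ρ ch l) := by
  induction l with
  | nil => simp [fconj]
  | cons a l ih =>
    simp only [fconj, List.map_cons, fchain_cons] at ih ⊢
    rw [ih]; simp

@[simp] lemma length_fconj (k : FreeGroup S) (l : List (FreeGroup S × Φ)) :
    (fconj k l).length = l.length := by simp [fconj]

/-- peeling, with the information about fillings -/
lemma peel' (htriv : ∀ φ a, ρ (mk (wd φ)) a = a) (D : Diag wd) {x y p p' : List (ℕ × Bool)}
    {d : ℕ × Bool} {A B : List (FreeGroup ℕ × List (ℕ × Bool) × Φ)}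
    {f : FreeGroup ℕ × List (ℕ × Bool) × Φ}
    (hω : D.ω = x ++ d :: y) (hfs : D.fs = A ++ f :: B) (hf : f.2.1 = p ++ d :: p') :
    ∃ (D' : Diag wd) (ψ : FreeGroup ℕ →* FreeGroup ℕ) (g : FreeGroup S),
      D'.ω = x ++ invRev (p' ++ p) ++ y ∧ D'.lab = D.lab ∧ D'.fs.length + 1 = D.fs.length ∧
      (∀ f' ∈ D'.fs, ∃ f₀ ∈ D.fs, f₀.2.1 = f'.2.1) ∧
      (∀ z ∈ faceN D.fs, ψ z ∈ faceN D'.fs) ∧ (∀ w, cnt d.1 w = 0 → ψ (mk w) = mk w) ∧
      ψ (mk [d]) = mk (invRev (p' ++ p)) ∧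
      mk (sub D.lab (x ++ [d])) =
        g * mk (wd f.2.2) * g⁻¹ * mk (sub D.lab (x ++ invRev (p' ++ p))) ∧
      ρ g (ch f.2.2) + fchain ρ ch D'.fill = fchain ρ ch D.fill := by
  obtain ⟨D', ψ, a1, a2, a3, a4, a5, a6, a7, a8⟩ := peel D hω hfs hf
  have hfm : f ∈ D.fs := by simp [hfs]
  refine ⟨D', ψ, subH D.lab (mk x * (mk p)⁻¹), a1, a2, by simp [a3, hfs]; omega, ?_, a4, a5, a6,
    ?_, ?_⟩
  · intro f' hf'
    rw [a3] at hf'
    obtain ⟨g, hg, rfl⟩ := List.mem_map.mp hf'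
    refine ⟨g, ?_, rfl⟩
    rw [hfs]
    simp only [List.mem_append, List.mem_cons] at hg ⊢
    tauto
  · rw [← D.labf f hfm, hf, ← List.singleton_append (l := p')]
    simp only [← subH_mk, ← mul_mk, ← inv_mk, map_mul, map_inv]
    group
  · have h1 := rho_faceN ρ htriv D a8
    have h2 : ρ (subH D.lab f.1) = ρ (subH D.lab (mk x * (mk p)⁻¹)) := by
      rw [← mul_one (ρ (subH D.lab (mk x * (mk p)⁻¹))), ← h1, ← map_mul, ← map_mul, mul_inv_cancel_left]
    have h3 : ∀ z, ρ (subH D.lab (ψ z)) = ρ (subH D.lab z) :=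
      a7 _ (ρ.comp (subH D.lab)) (rho_face ρ htriv D hfm)
    simp only [Diag.fill, a2, a3, hfs, fchain, List.map_map, List.map_append, List.map_cons,
      List.sum_append, List.sum_cons, Function.comp_def, h3, h2]
    abel

lemma shared_split (D : Diag wd) {d : ℕ × Bool} (hd : d ∈ D.ω)
    (h : d.1 ∈ (D.fs.flatMap fun f => f.2.1).map Prod.fst) :
    ∃ A f B p p', D.fs = A ++ f :: B ∧ f.2.1 = p ++ d :: p' := by
  obtain ⟨c, hc, e⟩ := List.mem_map.mp h
  obtain ⟨f, hf, hc⟩ := List.mem_flatMap.mp hc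
  obtain ⟨A, B, hfs⟩ := List.append_of_mem hf
  obtain ⟨p, p', hp⟩ := List.append_of_mem hc
  obtain ⟨x, y, hω⟩ := List.append_of_mem hd
  exact ⟨A, f, B, p, p', hfs, (peel_cnt D hω hfs hp e).1 ▸ hp⟩

lemma cut_stuck (D : Diag wd) (u α v β : List (ℕ × Bool))
    (hω : D.ω = u ++ α ++ v) (hβ : (mk β)⁻¹ * mk α ∈ faceN D.fs)
    (hnd : (β.map Prod.fst).Nodup)
    (hθ : ∀ e ∈ β.map Prod.fst, ∃ θ : FreeGroup ℕ →* Multiplicative ℤ,
      (∀ f ∈ D.fs, θ (mk f.2.1) = 1) ∧ θ (of e) ≠ 1 ∧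
        ∀ e' ∈ β.map Prod.fst, e' ≠ e → θ (of e') = 1)
    (hst : ∀ d ∈ D.ω, d.1 ∈ (D.fs.flatMap fun f => f.2.1).map Prod.fst → d.1 ∈ β.map Prod.fst) :
    (mk β : FreeGroup ℕ) = mk α := by
  classical
  set F := (D.fs.flatMap fun f => f.2.1).map Prod.fst with hF
  have hmem : ∀ f ∈ D.fs, ∀ c ∈ f.2.1, c.1 ∈ F := fun f hf c hc =>
    List.mem_map.mpr ⟨c, List.mem_flatMap.mpr ⟨f, hf, hc⟩, rfl⟩
  have hcut : ∀ e ∈ β.map Prod.fst, e ∈ F → ∃ θ : FreeGroup ℕ →* Multiplicative ℤ,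
      (∀ f ∈ D.fs, θ (mk f.2.1) = 1) ∧ θ (of e) ≠ 1 ∧
        ∀ e', (e' ∈ F → e' ∈ β.map Prod.fst) → e' ≠ e → θ (of e') = 1 := by
    intro e he heF
    obtain ⟨θ, h1, h2, h3⟩ := hθ e he
    refine ⟨FreeGroup.lift fun x => if x ∈ F then θ (of x) else 1, fun f hf => ?_,
      by simpa [heF] using h2, fun e' h4 h5 => ?_⟩
    · rw [← h1 f hf]
      exact hom_mk_congr fun c hc => by simp [hmem f hf c hc]
    · by_cases h6 : e' ∈ F
      · simpa [h6] using h3 e' (h4 h6) h5
      · simp [h6]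
  have hA : ∀ d ∈ D.ω, d.1 ∉ F := by
    intro d hd hdF
    obtain ⟨θ, h1, h2, h3⟩ := hcut d.1 (hst d hd hdF) hdF
    obtain ⟨A, f, B, p, p', hfs, hf⟩ := shared_split D hd hdF
    obtain ⟨x, y, hxy⟩ := List.append_of_mem hd
    obtain ⟨-, cx, cy, -⟩ := peel_cnt D hxy hfs hf rfl
    have h4 : θ (mk D.ω) = 1 := by
      rw [D.planar, map_list_prod]
      apply List.prod_eq_one
      intro z hz
      simp only [List.map_map, List.mem_map] at hz
      obtain ⟨g, hg, rfl⟩ := hz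
      simp [h1 g hg]
    rw [hxy, ← List.singleton_append, ← mul_mk, ← mul_mk, map_mul, map_mul,
      hom_mk_one (w := x) (fun c hc => h3 _ (hst c (by simp [hxy, hc])) (cnt_eq_zero.mp cx c hc)),
      hom_mk_one (w := y) (fun c hc => h3 _ (hst c (by simp [hxy, hc])) (cnt_eq_zero.mp cy c hc)),
      one_mul, mul_one] at h4
    exact h2 (hom_single_eq_one h4)
  have hαF : ∀ c ∈ α, c.1 ∉ F := fun c hc => hA c (by simp [hω, hc])
  have hB : ∀ d ∈ β, d.1 ∉ F := by
    intro d hd hdF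
    obtain ⟨θ, h1, h2, h3⟩ := hcut d.1 (List.mem_map.mpr ⟨d, hd, rfl⟩) hdF
    have h4 := faceN_le θ ⊥ (fun f hf => by simp [h1 f hf]) _ hβ
    obtain ⟨x, y, rfl⟩ := List.append_of_mem hd
    rw [List.map_append, List.map_cons, List.nodup_append] at hnd
    have hx : ∀ c ∈ x, c.1 ≠ d.1 := fun c hc =>
      hnd.2.2 _ (List.mem_map.mpr ⟨c, hc, rfl⟩) _ (by simp)
    have hy : ∀ c ∈ y, c.1 ≠ d.1 := fun c hc e =>
      (List.nodup_cons.mp hnd.2.1).1 (List.mem_map.mpr ⟨c, hc, e⟩)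
    rw [Subgroup.mem_bot, map_mul, map_inv, hom_mk_one (w := α) (fun c hc => h3 _
      (fun h => absurd h (hαF c hc)) (fun e => hαF c hc (e ▸ hdF))), mul_one, inv_eq_one,
      ← List.singleton_append, ← mul_mk, ← mul_mk, map_mul, map_mul,
      hom_mk_one (w := x) (fun c hc => h3 _ (fun _ => List.mem_map.mpr ⟨c, by simp [hc], rfl⟩) (hx c hc)),
      hom_mk_one (w := y) (fun c hc => h3 _
        (fun _ => List.mem_map.mpr ⟨c, by simp [hc], rfl⟩) (hy c hc)),
      one_mul, mul_one] at h4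
    exact h2 (hom_single_eq_one h4)
  let κ : FreeGroup ℕ →* FreeGroup ℕ := FreeGroup.lift fun x => if x ∈ F then 1 else of x
  have h4 := faceN_le κ ⊥ (fun f hf => by
    rw [Subgroup.mem_bot]
    exact hom_mk_one fun c hc => by simp [κ, hmem f hf c hc]) _ hβ
  have h5 : κ (mk α) = MonoidHom.id _ (mk α) := hom_mk_congr fun c hc => by simp [κ, hαF c hc]
  have h6 : κ (mk β) = MonoidHom.id _ (mk β) := hom_mk_congr fun c hc => by simp [κ, hB c hc]
  rw [Subgroup.mem_bot, map_mul, map_inv, h5, h6, inv_mul_eq_one] at h4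
  exact h4

lemma cut_aux (htriv : ∀ φ a, ρ (mk (wd φ)) a = a) (β : List (ℕ × Bool))
    (hnd : (β.map Prod.fst).Nodup) : ∀ (n : ℕ) (D : Diag wd) (u α v : List (ℕ × Bool)),
    D.fs.length = n → D.ω = u ++ α ++ v → (mk β)⁻¹ * mk α ∈ faceN D.fs →
    (∀ e ∈ β.map Prod.fst, ∃ θ : FreeGroup ℕ →* Multiplicative ℤ,
      (∀ f ∈ D.fs, θ (mk f.2.1) = 1) ∧ θ (of e) ≠ 1 ∧
        ∀ e' ∈ β.map Prod.fst, e' ≠ e → θ (of e') = 1) →
    ∃ l₁ l₂ : List (FreeGroup S × Φ), l₁.length + l₂.length = D.fs.length ∧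
      fprod wd l₁ = mk (sub D.lab (u ++ α ++ invRev β ++ invRev u)) ∧
      fprod wd l₂ = mk (sub D.lab (u ++ β ++ v)) ∧
      fchain ρ ch l₁ + fchain ρ ch l₂ = fchain ρ ch D.fill ∧
      ∃ ws : List (List (ℕ × Bool)), (∀ w ∈ ws, ∃ f ∈ D.fs, f.2.1 = w) ∧
        ws.length = l₁.length ∧ ∀ θ : FreeGroup ℕ →* Multiplicative ℤ,
          θ (mk α) * (θ (mk β))⁻¹ = (ws.map fun w => θ (mk w)).prod := by
  intro n
  induction n using Nat.strong_induction_on with
  | _ n ih =>
  intro D u α v hn hω hβ hθ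
  by_cases hst : ∀ d ∈ D.ω, d.1 ∈ (D.fs.flatMap fun f => f.2.1).map Prod.fst →
      d.1 ∈ β.map Prod.fst
  · have h := cut_stuck D u α v β hω hβ hnd hθ hst
    refine ⟨[], D.fill, by simp [Diag.fill], ?_, ?_, by simp, [], by simp, rfl, by simp [h]⟩
    · simp only [← subH_mk, ← mul_mk, ← inv_mk, h, fprod_nil, map_mul, map_inv]
      group
    · rw [D.fprod_fill, hω]
      simp only [← subH_mk, ← mul_mk, h]
  push Not at hst
  obtain ⟨d, hd, hdF, hdβ⟩ := hst
  obtain ⟨A, f, B, p, p', hfs, hf⟩ := shared_split D hd hdF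
  have hfm : f ∈ D.fs := by simp [hfs]
  have cβ : cnt d.1 β = 0 := List.count_eq_zero.mpr hdβ
  have hθ' : ∀ D' : Diag wd, (∀ f' ∈ D'.fs, ∃ f₀ ∈ D.fs, f₀.2.1 = f'.2.1) →
      ∀ e ∈ β.map Prod.fst, ∃ θ : FreeGroup ℕ →* Multiplicative ℤ,
      (∀ f ∈ D'.fs, θ (mk f.2.1) = 1) ∧ θ (of e) ≠ 1 ∧
        ∀ e' ∈ β.map Prod.fst, e' ≠ e → θ (of e') = 1 := by
    intro D' h e he
    obtain ⟨θ, h1, h2⟩ := hθ e he
    refine ⟨θ, fun f' hf' => ?_, h2⟩
    obtain ⟨f₀, h3, h4⟩ := h f' hf'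
    rw [← h4]; exact h1 f₀ h3
  have hws : ∀ D' : Diag wd, (∀ f' ∈ D'.fs, ∃ f₀ ∈ D.fs, f₀.2.1 = f'.2.1) →
      ∀ ws : List (List (ℕ × Bool)), (∀ w ∈ ws, ∃ f ∈ D'.fs, f.2.1 = w) →
        ∀ w ∈ ws, ∃ f ∈ D.fs, f.2.1 = w := by
    intro D' h ws h' w hw
    obtain ⟨f', h1, h2⟩ := h' w hw
    obtain ⟨f₀, h3, h4⟩ := h f' h1
    exact ⟨f₀, h3, h4.trans h2⟩
  rw [hω, List.mem_append, List.mem_append] at hd
  rcases hd with (hd | hd) | hd
  · obtain ⟨x, y, rfl⟩ := List.append_of_mem hd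
    have hω' : D.ω = x ++ d :: (y ++ α ++ v) := by simp [hω]
    obtain ⟨-, -, cy, -⟩ := peel_cnt D hω' hfs hf rfl
    obtain ⟨D', ψ, g, a1, a2, a3, a4, a5, a6, a7, a8, a9⟩ := peel' ρ ch htriv D hω' hfs hf
    have cα : cnt d.1 α = 0 := by simp only [cnt_append] at cy; omega
    obtain ⟨l₁, l₂, b1, b2, b3, b4, ws, b5, b6, b7⟩ := ih _ (by omega) D'
      (x ++ invRev (p' ++ p) ++ y) α v rfl (by simp [a1]) (by
        have := a5 _ hβ
        rwa [map_mul, map_inv, a6 _ cα, a6 _ cβ] at this) (hθ' D' a4)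
    rw [a2] at b2 b3
    have hc : ρ (g * mk (wd f.2.2) * g⁻¹) = 1 := by
      have : ρ (mk (wd f.2.2)) = 1 := LinearMap.ext (htriv _)
      rw [map_mul, map_mul, this, mul_one, ← map_mul]; simp
    refine ⟨fconj (g * mk (wd f.2.2) * g⁻¹) l₁, (g, f.2.2) :: l₂, by simp; omega, ?_, ?_, ?_, ws,
      hws D' a4 ws b5, by simpa using b6, b7⟩
    · rw [fprod_fconj, b2, ← List.singleton_append, ← List.append_assoc x]
      generalize g * mk (wd f.2.2) * g⁻¹ = c at a8
      generalize x ++ [d] = s at a8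
      generalize x ++ invRev (p' ++ p) = s' at a8
      simp only [sub_append, sub_invRev, ← mul_mk, ← inv_mk, a8]
      group
    · rw [fprod_cons, b3, ← List.singleton_append, ← List.append_assoc x]
      generalize x ++ [d] = s at a8
      generalize x ++ invRev (p' ++ p) = s' at a8
      simp only [sub_append, ← mul_mk, a8]
      group
    · rw [fchain_fconj, hc, fchain_cons, ← a9, ← b4]
      simp only [Module.End.one_apply]
      abel
  · obtain ⟨x, y, rfl⟩ := List.append_of_mem hd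
    have hω' : D.ω = (u ++ x) ++ d :: (y ++ v) := by simp [hω]
    obtain ⟨-, cx, cy, -⟩ := peel_cnt D hω' hfs hf rfl
    obtain ⟨D', ψ, g, a1, a2, a3, a4, a5, a6, a7, a8, a9⟩ := peel' ρ ch htriv D hω' hfs hf
    have cx' : cnt d.1 x = 0 := by simp only [cnt_append] at cx; omega
    have cy' : cnt d.1 y = 0 := by simp only [cnt_append] at cy; omega
    obtain ⟨l₁, l₂, b1, b2, b3, b4, ws, b5, b6, b7⟩ := ih _ (by omega) D'
      u (x ++ invRev (p' ++ p) ++ y) v rfl (by simp [a1]) (by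
        have := a5 _ hβ
        rwa [map_mul, map_inv, a6 _ cβ, ← List.singleton_append, ← mul_mk, ← mul_mk, map_mul,
          map_mul, a6 _ cx', a6 _ cy', a7, mul_mk, mul_mk, ← List.append_assoc] at this)
      (hθ' D' a4)
    rw [a2] at b2 b3
    refine ⟨(g, f.2.2) :: l₁, l₂, by simp; omega, ?_, b3, ?_, f.2.1 :: ws, ?_, by simpa using b6,
      fun θ => ?_⟩
    · rw [fprod_cons, b2, ← List.singleton_append, ← List.append_assoc x, ← List.append_assoc u,
        ← List.append_assoc u, ← List.append_assoc u, ← List.append_assoc u]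
      generalize u ++ x ++ [d] = s at a8
      generalize u ++ x ++ invRev (p' ++ p) = s' at a8
      simp only [sub_append, ← mul_mk, a8]
      group
    · rw [fchain_cons, ← a9, ← b4]
      abel
    · intro w hw
      rcases List.mem_cons.mp hw with rfl | hw
      · exact ⟨f, hfm, rfl⟩
      · exact hws D' a4 ws b5 w hw
    · rw [List.map_cons, List.prod_cons, ← b7 θ, hf, ← List.singleton_append,
        ← List.singleton_append (l := p')]
      simp only [← mul_mk, ← inv_mk, map_mul, map_inv]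
      apply Multiplicative.toAdd.injective
      simp only [toAdd_mul, toAdd_inv]
      ring
  · obtain ⟨x, y, rfl⟩ := List.append_of_mem hd
    have hω' : D.ω = (u ++ α ++ x) ++ d :: y := by simp [hω]
    obtain ⟨-, cx, -⟩ := peel_cnt D hω' hfs hf rfl
    obtain ⟨D', ψ, g, a1, a2, a3, a4, a5, a6, a7, a8, a9⟩ := peel' ρ ch htriv D hω' hfs hf
    have cα : cnt d.1 α = 0 := by simp only [cnt_append] at cx; omega
    obtain ⟨l₁, l₂, b1, b2, b3, b4, ws, b5, b6, b7⟩ := ih _ (by omega) D'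
      u α (x ++ invRev (p' ++ p) ++ y) rfl (by simp [a1]) (by
        have := a5 _ hβ
        rwa [map_mul, map_inv, a6 _ cα, a6 _ cβ] at this) (hθ' D' a4)
    rw [a2] at b2 b3
    have hk : ρ (mk (sub D.lab (u ++ α ++ invRev β ++ invRev u)))⁻¹ = 1 := by
      have h1 := (inferInstance : (faceN D.fs).Normal).conj_mem _ ((faceN D.fs).inv_mem hβ)
        (mk u * mk α)
      have h2 := rho_faceN ρ htriv D h1
      rw [← h2]
      congr 1
      simp only [← subH_mk, ← mul_mk, ← inv_mk, map_mul, map_inv]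
      group
    refine ⟨l₁, ((mk (sub D.lab (u ++ α ++ invRev β ++ invRev u)))⁻¹ * g, f.2.2) :: l₂,
      by simp; omega, b2, ?_, ?_, ws, hws D' a4 ws b5, b6, b7⟩
    · rw [fprod_cons, b3, ← List.singleton_append]
      have a8' : g * mk (wd f.2.2) * g⁻¹ = mk (sub D.lab (u ++ α ++ x ++ [d])) *
        (mk (sub D.lab (u ++ α ++ x ++ invRev (p' ++ p))))⁻¹ := by rw [a8]; group
      have e : ∀ k : FreeGroup S, k * g * mk (wd f.2.2) * (k * g)⁻¹ =
        k * (g * mk (wd f.2.2) * g⁻¹) * k⁻¹ := fun k => by group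
      simp only [e, a8', sub_append, sub_invRev, ← mul_mk, ← inv_mk]
      group
    · rw [fchain_cons, map_mul, hk, one_mul, ← a9, ← b4]
      abel

end

theorem Diag.cut {S Φ A : Type} [AddCommGroup A] {wd : Φ → List (S × Bool)}
    (ρ : Representation ℤ (FreeGroup S) A) (ch : Φ → A)
    (htriv : ∀ φ a, ρ (FreeGroup.mk (wd φ)) a = a) (D : Diag wd) (u α v β : List (ℕ × Bool))
    (hω : D.ω = u ++ α ++ v) (hβ : (FreeGroup.mk β)⁻¹ * FreeGroup.mk α ∈ faceN D.fs)
    (hnd : (β.map Prod.fst).Nodup)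
    (hθ : ∀ e ∈ β.map Prod.fst, ∃ θ : FreeGroup ℕ →* Multiplicative ℤ,
      (∀ f ∈ D.fs, θ (FreeGroup.mk f.2.1) = 1) ∧ θ (of e) ≠ 1 ∧
        ∀ e' ∈ β.map Prod.fst, e' ≠ e → θ (of e') = 1) :
    ∃ l₁ l₂ : List (FreeGroup S × Φ), l₁.length + l₂.length = D.fs.length ∧
      fprod wd l₁ = FreeGroup.mk (sub D.lab (u ++ α ++ invRev β ++ invRev u)) ∧
      fprod wd l₂ = FreeGroup.mk (sub D.lab (u ++ β ++ v)) ∧
      fchain ρ ch l₁ + fchain ρ ch l₂ = fchain ρ ch D.fill ∧
      ∃ ws : List (List (ℕ × Bool)), (∀ w ∈ ws, ∃ f ∈ D.fs, f.2.1 = w) ∧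
        ws.length = l₁.length ∧ ∀ θ : FreeGroup ℕ →* Multiplicative ℤ,
          θ (FreeGroup.mk α) * (θ (FreeGroup.mk β))⁻¹ =
            (ws.map fun w => θ (FreeGroup.mk w)).prod :=
  cut_aux ρ ch htriv β hnd _ D u α v rfl hω hβ hθ

theorem Diag.peel_one {S Φ A : Type} [DecidableEq S] [AddCommGroup A] {wd : Φ → List (S × Bool)}
    (ρ : Representation ℤ (FreeGroup S) A) (ch : Φ → A)
    (htriv : ∀ φ a, ρ (FreeGroup.mk (wd φ)) a = a) (ℓ : ℕ) (hℓ : ∀ φ, (wd φ).length ≤ ℓ)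
    (D : Diag wd) (hne : D.fs ≠ []) :
    ∃ (g k : FreeGroup S) (φ : Φ) (l : List (FreeGroup S × Φ)), l.length + 1 = D.fs.length ∧
      fprod wd ((g, φ) :: l) = fprod wd D.fill ∧ fchain ρ ch ((g, φ) :: l) = fchain ρ ch D.fill ∧
      (k * fprod wd l * k⁻¹).norm ≤ (sub D.lab D.ω).length + ℓ := by
  by_cases hst : ∀ d ∈ D.ω, d.1 ∉ (D.fs.flatMap fun f => f.2.1).map Prod.fst
  · have h := cut_stuck D [] D.ω [] [] (by simp) (by
      rw [D.planar, ← one_eq_mk, inv_one, one_mul]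
      apply Subgroup.list_prod_mem
      intro z hz
      obtain ⟨f, hf, rfl⟩ := List.mem_map.mp hz
      exact (inferInstance : (faceN D.fs).Normal).conj_mem _ (mem_faceN hf) _) (by simp) (by simp)
      fun d hd h => absurd h (hst d hd)
    have h1 : fprod wd D.fill = 1 := by
      rw [D.fprod_fill, ← subH_mk, ← h, ← one_eq_mk, map_one]
    have hl : D.fill.length = D.fs.length := by simp [Diag.fill]
    rcases hfl : D.fill with _ | ⟨⟨g, φ⟩, l⟩
    · rw [hfl] at hl
      exact absurd (List.length_eq_zero_iff.mp hl.symm) hne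
    rw [hfl] at hl h1
    refine ⟨g, g⁻¹, φ, l, hl, rfl, rfl, ?_⟩
    have : g⁻¹ * fprod wd l * g⁻¹⁻¹ = (FreeGroup.mk (wd φ))⁻¹ := by
      rw [fprod_cons, mul_eq_one_iff_inv_eq] at h1
      rw [← h1]; group
    rw [this, FreeGroup.norm_inv_eq]
    exact FreeGroup.norm_mk_le.trans ((hℓ φ).trans (by omega))
  push Not at hst
  obtain ⟨d, hd, hdF⟩ := hst
  obtain ⟨A', f, B, p, p', hfs, hf⟩ := shared_split D hd hdF
  obtain ⟨x, y, hω⟩ := List.append_of_mem hd
  obtain ⟨D', ψ, g, a1, a2, a3, a4, a5, a6, a7, a8, a9⟩ := peel' ρ ch htriv D hω hfs hf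
  refine ⟨g, 1, f.2.2, D'.fill, by simpa [Diag.fill] using a3, ?_, by rw [fchain_cons, a9], ?_⟩
  · rw [fprod_cons, D'.fprod_fill, D.fprod_fill, a1, a2, hω, ← List.singleton_append,
      ← List.append_assoc, sub_append, sub_append _ (x ++ [d]), ← mul_mk, ← mul_mk, a8]
    group
  · rw [one_mul, inv_one, mul_one, D'.fprod_fill, a1, a2]
    refine FreeGroup.norm_mk_le.trans ?_
    have h1 := hℓ f.2.2
    rw [← D.labf f (by simp [hfs]), hf, sub_append, sub_cons'] at h1
    rw [hω, sub_append _ x (d :: y), sub_cons']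
    simp only [sub_append, sub_invRev, List.length_append, FreeGroup.invRev_length] at h1 ⊢
    omega

end Crest.Agent.ZD
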