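import Crest.Agent.ZD.GlobB
import Crest.Agent.ZD.Cut

set_option autoImplicit false

namespace Crest.Agent.ZD

open FreeGroup (mk of invRev IsReduced IsCyclicallyReduced mul_mk inv_mk one_eq_mk invRev_cons
  invRev_append invRev_invRev)
open Finset (univ)

/-- (G2) local-to-global principle for the linear isoperimetric inequality -/
theorem glob (C : ℕ) : ∃ K : ℕ, ∀ (S Φ A : Type) [DecidableEq S] [AddCommGroup A]
    (wd : Φ → List (S × Bool)) (ρ : Representation ℤ (FreeGroup S) A) (ch : Φ → A) (ℓ : ℕ),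
    0 < ℓ → (∀ φ, (wd φ).length ≤ ℓ) → (∀ φ, IsReduced (wd φ)) →
    (∀ φ a, ρ (mk (wd φ)) a = a) →
    (∀ l : List (FreeGroup S × Φ), l.length ≤ K → ∃ l' : List (FreeGroup S × Φ),
      fprod wd l' = fprod wd l ∧ fchain ρ ch l' = fchain ρ ch l ∧
        l'.length * ℓ ≤ C * (fprod wd l).norm) →
    ∀ l : List (FreeGroup S × Φ), ∃ l' : List (FreeGroup S × Φ),
      fprod wd l' = fprod wd l ∧ fchain ρ ch l' = fchain ρ ch l ∧
        l'.length * ℓ ≤ 3 * C * (fprod wd l).norm :=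
  Gl.glob_of (fun ρ ch h D u α v β h1 h2 h3 h4 => Diag.cut ρ ch h D u α v β h1 h2 h3 h4)
    (fun ρ ch h ℓ h1 D h2 => Diag.peel_one ρ ch h ℓ h1 D h2) C

end Crest.Agent.ZD
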