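import Crest.Agent.ZD.Defs

set_option autoImplicit false
set_option maxHeartbeats 400000

namespace Crest.Agent.ZD

open Finset (univ)

section
variable {Pt : Type} [Fintype Pt] [DecidableEq Pt] {k Np R : ℕ}

lemma Model.has_iff (M : Model Pt k Np R) (σ : M.Conf) (p : Pt) (x : M.X) (z : M.Z) :
    M.Has σ (p, x, z) ↔ ∃ h : p ∈ M.lx x, (σ p ⟨x, h⟩).1 = z := by
  unfold Model.Has
  simp only [Model.nxt]
  split_ifs with h
  · simp [h]
  · simp [h]

lemma Model.has_lx (M : Model Pt k Np R) {σ : M.Conf} {p : Pt} {x : M.X} {z : M.Z}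
    (h : M.Has σ (p, x, z)) : p ∈ M.lx x := ((M.has_iff σ p x z).1 h).1

lemma Model.has_bz (M : Model Pt k Np R) {σ : M.Conf} {p : Pt} {x : M.X} {z : M.Z}
    (h : M.Has σ (p, x, z)) : p ∈ M.bz z := by
  obtain ⟨h1, h2⟩ := (M.has_iff σ p x z).1 h
  rw [← h2]; exact (σ p ⟨x, h1⟩).2

lemma Model.has_injz (M : Model Pt k Np R) {σ : M.Conf} {p : Pt} {x : M.X} {z z' : M.Z}
    (h : M.Has σ (p, x, z)) (h' : M.Has σ (p, x, z')) : z = z' := by
  obtain ⟨h1, h2⟩ := (M.has_iff σ p x z).1 h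
  obtain ⟨h3, h4⟩ := (M.has_iff σ p x z').1 h'
  rw [← h2, ← h4]

lemma Model.has_injx (M : Model Pt k Np R) {σ : M.Conf} {p : Pt} {x x' : M.X} {z : M.Z}
    (h : M.Has σ (p, x, z)) (h' : M.Has σ (p, x', z)) : x = x' := by
  obtain ⟨h1, h2⟩ := (M.has_iff σ p x z).1 h
  obtain ⟨h3, h4⟩ := (M.has_iff σ p x' z).1 h'
  have : σ p ⟨x, h1⟩ = σ p ⟨x', h3⟩ := Subtype.ext (h2.trans h4.symm)
  exact congrArg Subtype.val ((σ p).injective this)

instance (Q : Pat) : Fintype Q.PX := Q.finX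
instance (Q : Pat) : Fintype Q.PZ := Q.finZ
instance (Q : Pat) : Fintype Q.Ed := Q.finE

/-- admissible labellings -/
def Pat.Lab (Q : Pat) (M : Model Pt k Np R) (la : Q.Ed → Pt) : Prop :=
  (∀ e e', Q.link e e' → la e = la e') ∧
  (∀ e e', Q.ex e = Q.ex e' → la e = la e' → e = e') ∧
  (∀ e e', Q.ez e = Q.ez e' → la e = la e' → e = e') ∧
  ∀ z, ∃ z' : M.Z, ∀ e, Q.ez e = z → la e ∈ M.bz z'

lemma Pat.lab_ext (Q : Pat) (M : Model Pt k Np R) {la la' : Q.Ed → Pt} (h : Q.Lab M la)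
    (h' : Q.Lab M la') (hh : ∀ e, Q.ez e ∉ Q.con → la e = la' e) : la = la' := by
  have : ∀ n, ∀ e, Q.rank (Q.ez e) = n → la e = la' e := by
    intro n
    induction n using Nat.strong_induction_on with
    | _ n ih =>
      intro e he
      by_cases hc : Q.ez e ∈ Q.con
      · obtain ⟨e', h1, h2⟩ := Q.con_link e hc
        rw [h.1 e e' h1, h'.1 e e' h1]
        exact ih _ (he ▸ h2) e' rfl
      · exact hh e hc
  funext e
  exact this _ e rfl

open Classical in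
lemma prod_ite_card {α : Type} [Fintype α] (s : Set α) (a : ℕ) :
    ∏ x, (if x ∈ s then a else 1) = a ^ s.ncard := by
  rw [Finset.prod_ite, Finset.prod_const_one, mul_one, Finset.prod_const]
  congr 1
  rw [Set.ncard_eq_toFinset_card s]
  congr 1
  ext x; simp; rfl

open Classical in
lemma Pat.lab_card (Q : Pat) (M : Model Pt k Np R) :
    (univ.filter fun la : Q.Ed → Pt => Q.Lab M la).card ≤
      Np ^ Q.nF * Fintype.card Pt ^ (4 * Q.nB) := by
  rcases (univ.filter fun la : Q.Ed → Pt => Q.Lab M la).eq_empty_or_nonempty with h0 | ⟨l0, hl0⟩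
  · rw [h0]; simp
  have hl0' : Q.Lab M l0 := (Finset.mem_filter.1 hl0).2
  let S : ∀ z : Q.PZ, Finset ({e : Q.Ed // Q.ez e = z ∧ z ∉ Q.con} → Pt) := fun z =>
    univ.filter fun f => Function.Injective f ∧ ∃ z' : M.Z, ∀ e, f e ∈ M.bz z'
  have h1 : (univ.filter fun la : Q.Ed → Pt => Q.Lab M la).card ≤ (Fintype.piFinset S).card := by
    refine Finset.card_le_card_of_injOn (fun la z e => la e.1) ?_ ?_
    · intro la hla
      have hla' : Q.Lab M la := (Finset.mem_filter.1 hla).2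
      simp only [Finset.mem_coe, Fintype.mem_piFinset, S, Finset.mem_filter, Finset.mem_univ,
        true_and]
      intro z
      refine ⟨fun e e' he => Subtype.ext (hla'.2.2.1 _ _ (e.2.1.trans e'.2.1.symm) he), ?_⟩
      obtain ⟨z', hz'⟩ := hla'.2.2.2 z
      exact ⟨z', fun e => hz' e.1 e.2.1⟩
    · intro la hla la' hla' hh
      refine Q.lab_ext M (Finset.mem_filter.1 hla).2 (Finset.mem_filter.1 hla').2 fun e he => ?_
      exact congrFun (congrFun hh (Q.ez e)) ⟨e, rfl, he⟩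
  refine h1.trans ?_
  rw [Fintype.card_piFinset, pow_mul (Fintype.card Pt) 4, Pat.nF, Pat.nB, ← prod_ite_card,
    ← prod_ite_card, ← Finset.prod_mul_distrib]
  refine Finset.prod_le_prod' fun z _ => ?_
  obtain ⟨e0, he0⟩ := Q.ez_surj z
  have hN : 1 ≤ Fintype.card Pt := Fintype.card_pos_iff.2 ⟨l0 e0⟩
  have hNp : 1 ≤ Np := by
    obtain ⟨z', -⟩ := hl0'.2.2.2 z
    obtain ⟨p, hp, q, hq, hpq⟩ := Finset.one_lt_card.1 (lt_of_lt_of_le one_lt_two (M.bz_lo z'))
    exact (Finset.card_pos.2 ⟨_, M.Ps_mem z' p q hp hq hpq⟩).trans_le M.Ps_card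
  by_cases hc : z ∈ Q.con
  · have : (S z).card ≤ 1 := by
      refine Finset.card_le_one.2 fun f _ f' _ => ?_
      funext e; exact absurd hc e.2.2
    refine this.trans (Nat.succ_le_of_lt (Nat.mul_pos ?_ ?_)) <;> split_ifs <;> positivity
  have hc' : z ∈ {z : Q.PZ | z ∉ Q.con} := hc
  rw [if_pos hc']
  by_cases hd : Set.ncard {e | Q.ez e = z} = 2
  · have hd' : z ∉ {z : Q.PZ | Set.ncard {e | Q.ez e = z} ≠ 2} := fun h => h hd
    rw [if_neg hd', mul_one]
    obtain ⟨e1, e2, hne, hs⟩ := Set.ncard_eq_two.1 hd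
    have h1 : Q.ez e1 = z := by
      have : e1 ∈ {e | Q.ez e = z} := by rw [hs]; simp
      exact this
    have h2 : Q.ez e2 = z := by
      have : e2 ∈ {e | Q.ez e = z} := by rw [hs]; simp
      exact this
    refine le_trans ?_ M.Ps_card
    refine Finset.card_le_card_of_injOn (fun f => (f ⟨e1, h1, hc⟩, f ⟨e2, h2, hc⟩)) ?_ ?_
    · intro f hf
      obtain ⟨hi, z', hz'⟩ := (Finset.mem_filter.1 hf).2
      exact M.Ps_mem z' _ _ (hz' _) (hz' _) fun h => hne (congrArg Subtype.val (hi h))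
    · intro f _ f' _ hh
      funext e
      have : e.1 ∈ ({e1, e2} : Set Q.Ed) := by rw [← hs]; exact e.2.1
      rcases this with h | h
      · have : e = ⟨e1, h1, hc⟩ := Subtype.ext h
        rw [this]; exact (Prod.ext_iff.1 hh).1
      · have : e = ⟨e2, h2, hc⟩ := Subtype.ext h
        rw [this]; exact (Prod.ext_iff.1 hh).2
  · have hd' : z ∈ {z : Q.PZ | Set.ncard {e | Q.ez e = z} ≠ 2} := hd
    rw [if_pos hd']
    have h4 : Fintype.card {e : Q.Ed // Q.ez e = z ∧ z ∉ Q.con} ≤ 4 := by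
      refine le_trans ?_ (Q.deg_le z)
      rw [← Nat.card_coe_set_eq, ← Nat.card_eq_fintype_card]
      exact Nat.card_le_card_of_injective (fun e => ⟨e.1, e.2.1⟩)
        fun e e' h => Subtype.ext (by simpa using h)
    calc (S z).card ≤ Fintype.card ({e : Q.Ed // Q.ez e = z ∧ z ∉ Q.con} → Pt) :=
          Finset.card_le_univ _
      _ = Fintype.card Pt ^ Fintype.card {e : Q.Ed // Q.ez e = z ∧ z ∉ Q.con} :=
          Fintype.card_fun
      _ ≤ Fintype.card Pt ^ 4 := Nat.pow_le_pow_right hN h4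
      _ ≤ Np * Fintype.card Pt ^ 4 := Nat.le_mul_of_pos_left _ hNp

/-- admissible placements -/
def Pat.Pl (Q : Pat) (M : Model Pt k Np R) (x₀ : M.X) (la : Q.Ed → Pt)
    (f : (Q.PX → M.X) × (Q.PZ → M.Z)) : Prop :=
  (∀ e, la e ∈ M.lx (f.1 (Q.ex e)) ∧ la e ∈ M.bz (f.2 (Q.ez e))) ∧
  (∀ x ∈ Q.root, f.1 x = x₀) ∧ (∀ x, M.cx (f.1 x) = Q.px x) ∧ ∀ z, M.cz (f.2 z) = Q.pz z

open Classical in
lemma Pat.pl_card (Q : Pat) (M : Model Pt k Np R) (x₀ : M.X) (la : Q.Ed → Pt)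
    (hla : Q.Lab M la) :
    k ^ Q.nX * (univ.filter fun f => Q.Pl M x₀ la f).card ≤
      k ^ Q.nL * (R + k) ^ (Q.nX + Q.nZ) := by
  let A : Q.PX → Finset M.X := fun x => univ.filter fun x' =>
    (x ∈ Q.root → x' = x₀) ∧ M.cx x' = Q.px x ∧ ∀ e, Q.ex e = x → la e ∈ M.lx x'
  let B : Q.PZ → Finset M.Z := fun z => univ.filter fun z' =>
    M.cz z' = Q.pz z ∧ ∀ e, Q.ez e = z → la e ∈ M.bz z'
  have h1 : (univ.filter fun f => Q.Pl M x₀ la f) ⊆ Fintype.piFinset A ×ˢ Fintype.piFinset B := by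
    intro f hf
    obtain ⟨h1, h2, h3, h4⟩ := (Finset.mem_filter.1 hf).2
    simp only [Finset.mem_product, Fintype.mem_piFinset, A, B, Finset.mem_filter, Finset.mem_univ,
      true_and]
    exact ⟨fun x => ⟨h2 x, h3 x, fun e he => he ▸ (h1 e).1⟩,
      fun z => ⟨h4 z, fun e he => he ▸ (h1 e).2⟩⟩
  have hB : ∏ z, (B z).card ≤ (R + k) ^ Q.nZ := by
    rw [Pat.nZ, Nat.card_eq_fintype_card, ← Finset.card_univ, ← Finset.prod_const]
    refine Finset.prod_le_prod' fun z _ => ?_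
    obtain ⟨e, he⟩ := Q.ez_surj z
    refine le_trans ?_ ((M.cardXZ (la e) (Q.pz z)).symm.trans_le (M.card_hi (la e) (Q.pz z)))
    refine Finset.card_le_card fun z' hz' => ?_
    obtain ⟨h1, h2⟩ := (Finset.mem_filter.1 hz').2
    exact Finset.mem_filter.2 ⟨Finset.mem_univ _, h2 e he, h1⟩
  have hA : k ^ Q.nX * ∏ x, (A x).card ≤ k ^ Q.nL * (R + k) ^ Q.nX := by
    rw [Pat.nX, Pat.nL, ← prod_ite_card, ← prod_ite_card, ← prod_ite_card,
      ← Finset.prod_mul_distrib, ← Finset.prod_mul_distrib]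
    refine Finset.prod_le_prod' fun x _ => ?_
    by_cases hr : x ∈ Q.root
    · have e1 : x ∉ {x : Q.PX | x ∉ Q.root} := fun h => h hr
      have e2 : x ∉ {x : Q.PX | x ∉ Q.root ∧ Set.ncard {e | Q.ex e = x} ≤ 1} := fun h => h.1 hr
      rw [if_neg e1, if_neg e1, if_neg e2, one_mul, one_mul]
      refine Finset.card_le_one.2 fun a ha b hb => ?_
      rw [(Finset.mem_filter.1 ha).2.1 hr, (Finset.mem_filter.1 hb).2.1 hr]
    have e1 : x ∈ {x : Q.PX | x ∉ Q.root} := hr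
    rw [if_pos e1, if_pos e1]
    by_cases hd : Set.ncard {e | Q.ex e = x} ≤ 1
    · have e2 : x ∈ {x : Q.PX | x ∉ Q.root ∧ Set.ncard {e | Q.ex e = x} ≤ 1} := ⟨hr, hd⟩
      rw [if_pos e2]
      refine Nat.mul_le_mul_left _ ?_
      obtain ⟨e, he⟩ := Q.ex_surj x
      refine le_trans ?_ (M.card_hi (la e) (Q.px x))
      refine Finset.card_le_card fun x' hx' => ?_
      obtain ⟨-, h1, h2⟩ := (Finset.mem_filter.1 hx').2
      exact Finset.mem_filter.2 ⟨Finset.mem_univ _, h2 e he, h1⟩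
    · have e2 : x ∉ {x : Q.PX | x ∉ Q.root ∧ Set.ncard {e | Q.ex e = x} ≤ 1} := fun h => hd h.2
      rw [if_neg e2, one_mul]
      obtain ⟨e, e', he, he', hne⟩ :=
        (Set.one_lt_ncard_iff (Set.toFinite _)).1 (not_le.1 hd)
      have hl : la e ≠ la e' := fun h => hne (hla.2.1 e e' (he.trans he'.symm) h)
      refine le_trans (Nat.mul_le_mul_left _ ?_) (M.pairX (la e) (la e') (Q.px x) hl)
      refine Finset.card_le_card fun x' hx' => ?_
      obtain ⟨-, h1, h2⟩ := (Finset.mem_filter.1 hx').2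
      exact Finset.mem_filter.2 ⟨Finset.mem_univ _, h2 e he, h2 e' he', h1⟩
  calc _ ≤ k ^ Q.nX * (Fintype.piFinset A ×ˢ Fintype.piFinset B).card :=
        Nat.mul_le_mul_left _ (Finset.card_le_card h1)
    _ = (k ^ Q.nX * ∏ x, (A x).card) * ∏ z, (B z).card := by
        rw [Finset.card_product, Fintype.card_piFinset, Fintype.card_piFinset, mul_assoc]
    _ ≤ (k ^ Q.nL * (R + k) ^ Q.nX) * (R + k) ^ Q.nZ := Nat.mul_le_mul hA hB
    _ = _ := by rw [pow_add, mul_assoc]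

open Classical in
theorem pat_count_of (M : Model Pt k Np R) (x₀ : M.X) (g : ℕ) (Q : Pat)
    (hsw : ∀ B : Finset (Pt × M.X × M.Z),
      ((M.GS g).filter fun σ => ∀ e ∈ B, M.Has σ e).card * (R - B.card - nearB Pt g) ^ B.card ≤
        (M.GS g).card) :
    k ^ Q.nX * (((M.GS g).filter fun σ => Q.Occurs M x₀ σ).card *
        (R - Q.nE - nearB Pt g) ^ Q.nE) ≤
      (M.GS g).card * (Np ^ Q.nF * Fintype.card Pt ^ (4 * Q.nB) * k ^ Q.nL *
        (R + k) ^ (Q.nX + Q.nZ)) := by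
  let Λ := univ.filter fun la : Q.Ed → Pt => Q.Lab M la
  let F : (Q.Ed → Pt) → Finset ((Q.PX → M.X) × (Q.PZ → M.Z)) := fun la =>
    univ.filter fun f => Q.Pl M x₀ la f
  let Bf : (Q.Ed → Pt) → ((Q.PX → M.X) × (Q.PZ → M.Z)) → Finset (Pt × M.X × M.Z) := fun la f =>
    univ.image fun e => (la e, f.1 (Q.ex e), f.2 (Q.ez e))
  let W : (Q.Ed → Pt) → ((Q.PX → M.X) × (Q.PZ → M.Z)) → Finset M.Conf := fun la f =>
    (M.GS g).filter fun σ => (Bf la f).card = Q.nE ∧ ∀ e ∈ Bf la f, M.Has σ e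
  have hW : ∀ la f, (W la f).card * (R - Q.nE - nearB Pt g) ^ Q.nE ≤ (M.GS g).card := by
    intro la f
    by_cases hc : (Bf la f).card = Q.nE
    · have := hsw (Bf la f)
      rw [hc] at this
      refine le_trans (Nat.mul_le_mul_right _ (Finset.card_le_card fun σ hσ => ?_)) this
      exact Finset.mem_filter.2 ⟨(Finset.mem_filter.1 hσ).1, (Finset.mem_filter.1 hσ).2.2⟩
    · have : W la f = ∅ := Finset.filter_eq_empty_iff.2 fun σ _ h => hc h.1
      rw [this]; simp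
  have hsub : ((M.GS g).filter fun σ => Q.Occurs M x₀ σ) ⊆
      Λ.biUnion fun la => (F la).biUnion fun f => W la f := by
    intro σ hσ
    obtain ⟨hG, fx, fz, la, h1, h2, h3, h4, h5, h6, h7⟩ := Finset.mem_filter.1 hσ
    simp only [Finset.mem_biUnion]
    refine ⟨la, Finset.mem_filter.2 ⟨Finset.mem_univ _, h5, ?_, ?_, ?_⟩, (fx, fz),
      Finset.mem_filter.2 ⟨Finset.mem_univ _, fun e => ⟨M.has_lx (h3 e), M.has_bz (h3 e)⟩,
        h4, h6, h7⟩, Finset.mem_filter.2 ⟨hG, ?_, ?_⟩⟩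
    · intro e e' he hl
      have a := h3 e
      rw [he, hl] at a
      exact Q.inj e e' he (h2 (M.has_injz a (h3 e')))
    · intro e e' he hl
      have a := h3 e
      rw [he, hl] at a
      exact Q.inj e e' (h1 (M.has_injx a (h3 e'))) he
    · intro z
      exact ⟨fz z, fun e he => he ▸ M.has_bz (h3 e)⟩
    · rw [Finset.card_image_of_injective, Finset.card_univ, Pat.nE, Nat.card_eq_fintype_card]
      intro e e' h
      simp only [Prod.mk.injEq] at h
      exact Q.inj e e' (h1 h.2.1) (h2 h.2.2)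
    · intro b hb
      obtain ⟨e, -, rfl⟩ := Finset.mem_image.1 hb
      exact h3 e
  have hc : ((M.GS g).filter fun σ => Q.Occurs M x₀ σ).card ≤
      ∑ la ∈ Λ, ∑ f ∈ F la, (W la f).card :=
    (Finset.card_le_card hsub).trans (Finset.card_biUnion_le.trans
      (Finset.sum_le_sum fun la _ => Finset.card_biUnion_le))
  calc _ ≤ k ^ Q.nX * ((∑ la ∈ Λ, ∑ f ∈ F la, (W la f).card) *
        (R - Q.nE - nearB Pt g) ^ Q.nE) := Nat.mul_le_mul_left _ (Nat.mul_le_mul_right _ hc)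
    _ ≤ ∑ la ∈ Λ, (k ^ Q.nL * (R + k) ^ (Q.nX + Q.nZ)) * (M.GS g).card := by
        rw [Finset.sum_mul, Finset.mul_sum]
        refine Finset.sum_le_sum fun la hla => ?_
        calc _ ≤ k ^ Q.nX * ((F la).card * (M.GS g).card) := by
              refine Nat.mul_le_mul_left _ ?_
              rw [Finset.sum_mul, Finset.card_eq_sum_ones, Finset.sum_mul]
              exact Finset.sum_le_sum fun f _ => by rw [one_mul]; exact hW la f
          _ ≤ _ := by
              rw [← mul_assoc]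
              exact Nat.mul_le_mul_right _ (Q.pl_card M x₀ la (Finset.mem_filter.1 hla).2)
    _ = Λ.card * ((k ^ Q.nL * (R + k) ^ (Q.nX + Q.nZ)) * (M.GS g).card) := by
        rw [Finset.sum_const, smul_eq_mul]
    _ ≤ (Np ^ Q.nF * Fintype.card Pt ^ (4 * Q.nB)) *
        ((k ^ Q.nL * (R + k) ^ (Q.nX + Q.nZ)) * (M.GS g).card) :=
        Nat.mul_le_mul_right _ (Q.lab_card M)
    _ = _ := by ring

end
end Crest.Agent.ZD
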