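import Crest.Agent.ZD.Shape
import Crest.Agent.ZD.PatCount0

set_option autoImplicit false
set_option maxHeartbeats 400000

namespace Crest.Agent.ZD

open Finset (univ)

/-- reindexing a system of pieces -/
def LG.Pieces.reindex {S : Type} {Γ : LG S} {U : Set Γ.V} {x₀ : Γ.V} {ι κ : Type}
    (P : Γ.Pieces U x₀ ι) (e : κ ≃ ι) : Γ.Pieces U x₀ κ where
  st := fun i => P.st (e i)
  en := fun i => P.en (e i)
  wd := fun i => P.wd (e i)
  sc := fun i => (P.sc (e i)).map e.symm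
  mu := fun i => (P.mu (e i)).map e.symm
  run := fun i => P.run (e i)
  ne := fun i => P.ne (e i)
  red := fun i => P.red (e i)
  sc_inj := by
    intro i j k h1 h2
    obtain ⟨a, ha, rfl⟩ := Option.map_eq_some_iff.1 h1
    obtain ⟨b, hb, h⟩ := Option.map_eq_some_iff.1 h2
    obtain rfl := e.symm.injective h
    exact e.injective (P.sc_inj _ _ _ ha hb)
  sc_st := by
    intro i k h
    obtain ⟨a, ha, rfl⟩ := Option.map_eq_some_iff.1 h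
    simpa using P.sc_st _ _ ha
  sc_none := fun i h => P.sc_none _ (Option.map_eq_none_iff.1 h)
  pred_none := by
    intro k h
    refine P.pred_none _ fun i hi => h (e.symm i) ?_
    simp [hi]
  mu_symm := by
    intro i j h
    obtain ⟨a, ha, rfl⟩ := Option.map_eq_some_iff.1 h
    simp [P.mu_symm _ _ ha]
  mu_ne := by
    intro i h
    obtain ⟨a, ha, h⟩ := Option.map_eq_some_iff.1 h
    obtain rfl : a = e i := by rw [← h]; simp
    exact P.mu_ne _ ha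
  mu_wd := by
    intro i j h
    obtain ⟨a, ha, rfl⟩ := Option.map_eq_some_iff.1 h
    simpa using P.mu_wd _ _ ha

lemma LG.Pieces.reindex_len {S : Type} {Γ : LG S} {U : Set Γ.V} {x₀ : Γ.V} {ι κ : Type}
    [Fintype ι] [Fintype κ] (P : Γ.Pieces U x₀ ι) (e : κ ≃ ι) : (P.reindex e).len = P.len :=
  Equiv.sum_comp e fun i => (P.wd i).length

lemma LG.Pieces.reindex_bdry {S : Type} {Γ : LG S} {U : Set Γ.V} {x₀ : Γ.V} {ι κ : Type}
    [Fintype ι] [Fintype κ] (P : Γ.Pieces U x₀ ι) (e : κ ≃ ι) : (P.reindex e).bdry = P.bdry := by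
  rw [LG.Pieces.bdry, LG.Pieces.bdry, ← Equiv.sum_comp e]
  simp [LG.Pieces.reindex]

/-- statement of (P4) -/
def CoreStmt : Prop := ∀ J : ℕ, ∃ c : ℕ, ∀ (Pt : Type) [Fintype Pt] [DecidableEq Pt]
    (k Np R g : ℕ)
    (M : Model Pt k Np R) (x₀ : M.X) (ι : Type) [Fintype ι] (σ₀ : M.Conf)
    (P₀ : (M.graph σ₀).Pieces M.UX (Sum.inl x₀) ι), 3 ≤ g → σ₀ ∈ M.GS g → Fintype.card ι ≤ J →
    (∀ i, 2 * (P₀.wd i).length < g) →
    ∃ Q : Fin J → Pat,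
      (∀ σ ∈ M.GS g, ∀ P : (M.graph σ).Pieces M.UX (Sum.inl x₀) ι, SameShape P₀ P →
        (∀ i, M.col (P₀.st i) = M.col (P.st i)) → ∀ k, (Q k).Occurs M x₀ σ) ∧
      ∑ k, ((Q k).nX + (Q k).nZ) ≤ ∑ k, (Q k).nE ∧ 2 * ∑ k, (Q k).nZ ≤ ∑ k, (Q k).nE ∧
      2 * ∑ k, (Q k).nZ = P₀.len ∧ 2 * ∑ k, (Q k).nF ≤ ∑ k, (Q k).nZ + P₀.bdry + c ∧
      ∀ k, (Q k).nB ≤ c ∧ (Q k).nL ≤ c ∧ (Q k).nE ≤ J * g

open Classical in
/-- statement of (P1) -/
def SwitchStmt : Prop := ∀ (Pt : Type) [Fintype Pt] [DecidableEq Pt] (k Np R : ℕ)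
    (M : Model Pt k Np R) (g : ℕ) (B : Finset (Pt × M.X × M.Z)),
    ((M.GS g).filter fun σ => ∀ e ∈ B, M.Has σ e).card * (R - B.card - nearB Pt g) ^ B.card ≤
      (M.GS g).card

/-- the numerical heart -/
lemma bad_num {J Cc c k Np N R R' n G a z e f b nb nl : ℕ} {ρ θ : ℝ} (hk : 2 ≤ k) (hNp : 1 ≤ Np)
    (hN : 1 ≤ N) (hR' : 0 < R') (hρ2 : ρ ≤ 2) (hρ : ((R + k : ℕ) : ℝ) ≤ ρ * R')
    (hθ : (Np : ℝ) ^ (Cc + 2) * ρ ^ (4 * Cc) ≤ θ * (k : ℝ) ^ (2 * Cc))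
    (h1 : a + z ≤ e) (h2 : 2 * z ≤ e) (h3 : 2 * f ≤ z + b + c) (h4 : Cc * b ≤ 2 * z)
    (h5 : nb ≤ J * c) (h6 : nl ≤ J * c)
    (h : k ^ a * (n ^ J * R' ^ e) ≤ G ^ J * (Np ^ f * N ^ (4 * nb) * k ^ nl * (R + k) ^ (a + z))) :
    (n : ℝ) ^ (J * (2 * Cc)) ≤ (G : ℝ) ^ (J * (2 * Cc)) *
      ((Np : ℝ) ^ (c * Cc) * ((N : ℝ) ^ (4 * (J * c)) * (k : ℝ) ^ (J * c)) ^ (2 * Cc) * θ ^ z) := by
  have hk0 : (0 : ℝ) < k := by positivity
  have hk2 : (2 : ℝ) ≤ k := by exact_mod_cast hk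
  have hR0 : (0 : ℝ) < R' := by positivity
  have hRk : (k : ℝ) ≤ ((R + k : ℕ) : ℝ) := by exact_mod_cast Nat.le_add_left k R
  have hρ0 : 0 < ρ := by
    by_contra hh
    have : ρ * R' ≤ 0 := mul_nonpos_of_nonpos_of_nonneg (not_lt.1 hh) hR0.le
    linarith
  set K : ℝ := (N : ℝ) ^ (4 * (J * c)) * (k : ℝ) ^ (J * c) with hK
  have hNp1 : (1 : ℝ) ≤ Np := by exact_mod_cast hNp
  have hN1 : (1 : ℝ) ≤ N := by exact_mod_cast hN
  have hA : (N : ℝ) ^ (4 * nb) * (k : ℝ) ^ nl ≤ K :=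
    mul_le_mul (pow_le_pow_right₀ hN1 (by omega)) (pow_le_pow_right₀ (by linarith) h6)
      (by positivity) (by positivity)
  obtain ⟨s, rfl⟩ := Nat.exists_eq_add_of_le h1
  obtain ⟨t, ht⟩ : ∃ t, a + s = z + t := ⟨a + s - z, by omega⟩
  -- (R+k)^(a+z) * k^z ≤ k^a R'^e ρ^(2z)
  have hB : ((R + k : ℕ) : ℝ) ^ (a + z) * (k : ℝ) ^ z ≤
      (k : ℝ) ^ a * (R' : ℝ) ^ (a + z + s) * (ρ ^ 2) ^ z := by
    have e1 : ((R + k : ℕ) : ℝ) ^ (a + z) * (k : ℝ) ^ s ≤ ((R + k : ℕ) : ℝ) ^ (a + z + s) := by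
      rw [pow_add _ (a + z) s]; gcongr
    have e2 : ((R + k : ℕ) : ℝ) ^ (a + z + s) ≤ ρ ^ (a + z + s) * (R' : ℝ) ^ (a + z + s) := by
      rw [← mul_pow]; gcongr
    have e3 : ρ ^ (a + z + s) ≤ (ρ ^ 2) ^ z * (k : ℝ) ^ t := by
      rw [show a + z + s = 2 * z + t by omega, pow_add, pow_mul]
      gcongr; linarith
    have e4 : (k : ℝ) ^ t * (k : ℝ) ^ z = (k : ℝ) ^ a * (k : ℝ) ^ s := by
      rw [← pow_add, ← pow_add]; congr 1; omega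
    have hs : (0 : ℝ) < (k : ℝ) ^ s := by positivity
    refine le_of_mul_le_mul_right ?_ hs
    calc _ = (((R + k : ℕ) : ℝ) ^ (a + z) * (k : ℝ) ^ s) * (k : ℝ) ^ z := by ring
      _ ≤ ((ρ ^ 2) ^ z * (k : ℝ) ^ t * (R' : ℝ) ^ (a + z + s)) * (k : ℝ) ^ z := by
          refine mul_le_mul_of_nonneg_right (e1.trans (e2.trans ?_)) (by positivity)
          exact mul_le_mul_of_nonneg_right e3 (by positivity)
      _ = (ρ ^ 2) ^ z * (R' : ℝ) ^ (a + z + s) * ((k : ℝ) ^ t * (k : ℝ) ^ z) := by ring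
      _ = _ := by rw [e4]; ring
  have hC : (n : ℝ) ^ J * (k : ℝ) ^ z ≤ (G : ℝ) ^ J * ((Np : ℝ) ^ f * K * (ρ ^ 2) ^ z) := by
    have h' : (k : ℝ) ^ a * ((n : ℝ) ^ J * (R' : ℝ) ^ (a + z + s)) ≤ (G : ℝ) ^ J *
        ((Np : ℝ) ^ f * (N : ℝ) ^ (4 * nb) * (k : ℝ) ^ nl * ((R + k : ℕ) : ℝ) ^ (a + z)) := by
      exact_mod_cast h
    have hp : (0 : ℝ) < (k : ℝ) ^ a * (R' : ℝ) ^ (a + z + s) := by positivity
    refine le_of_mul_le_mul_right ?_ hp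
    calc _ = ((k : ℝ) ^ a * ((n : ℝ) ^ J * (R' : ℝ) ^ (a + z + s))) * (k : ℝ) ^ z := by ring
      _ ≤ ((G : ℝ) ^ J * ((Np : ℝ) ^ f * (N : ℝ) ^ (4 * nb) * (k : ℝ) ^ nl *
            ((R + k : ℕ) : ℝ) ^ (a + z))) * (k : ℝ) ^ z := by gcongr
      _ = (G : ℝ) ^ J * (Np : ℝ) ^ f * ((N : ℝ) ^ (4 * nb) * (k : ℝ) ^ nl) *
            (((R + k : ℕ) : ℝ) ^ (a + z) * (k : ℝ) ^ z) := by ring
      _ ≤ (G : ℝ) ^ J * (Np : ℝ) ^ f * K *
            ((k : ℝ) ^ a * (R' : ℝ) ^ (a + z + s) * (ρ ^ 2) ^ z) := by gcongr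
      _ = _ := by ring
  have hD := pow_le_pow_left₀ (by positivity) hC (2 * Cc)
  have hE : ((Np : ℝ) ^ f) ^ (2 * Cc) ≤ (Np : ℝ) ^ (c * Cc) * ((Np : ℝ) ^ (Cc + 2)) ^ z := by
    rw [← pow_mul, ← pow_mul, ← pow_add]
    refine pow_le_pow_right₀ hNp1 ?_
    calc f * (2 * Cc) = (2 * f) * Cc := by ring
      _ ≤ (z + b + c) * Cc := Nat.mul_le_mul_right _ h3
      _ = z * Cc + Cc * b + c * Cc := by ring
      _ ≤ z * Cc + 2 * z + c * Cc := by omega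
      _ = _ := by ring
  have hF : ((Np : ℝ) ^ (Cc + 2)) ^ z * ((ρ ^ 2) ^ z) ^ (2 * Cc) ≤
      θ ^ z * ((k : ℝ) ^ z) ^ (2 * Cc) := by
    have := pow_le_pow_left₀ (by positivity) hθ z
    calc _ = ((Np : ℝ) ^ (Cc + 2) * ρ ^ (4 * Cc)) ^ z := by
          rw [mul_pow, ← pow_mul ρ, ← pow_mul ρ, ← pow_mul ρ]; congr 2; ring
      _ ≤ _ := this
      _ = _ := by rw [mul_pow, ← pow_mul, ← pow_mul, mul_comm z]
  have hp : (0 : ℝ) < ((k : ℝ) ^ z) ^ (2 * Cc) := by positivity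
  refine le_of_mul_le_mul_right ?_ hp
  have hK0 : 0 ≤ K := by positivity
  calc _ = ((n : ℝ) ^ J * (k : ℝ) ^ z) ^ (2 * Cc) := by rw [mul_pow, ← pow_mul (n : ℝ)]
    _ ≤ _ := hD
    _ = (G : ℝ) ^ (J * (2 * Cc)) * K ^ (2 * Cc) *
        (((Np : ℝ) ^ f) ^ (2 * Cc) * ((ρ ^ 2) ^ z) ^ (2 * Cc)) := by
        rw [mul_pow, mul_pow, mul_pow, ← pow_mul (G : ℝ)]; ring
    _ ≤ (G : ℝ) ^ (J * (2 * Cc)) * K ^ (2 * Cc) *
        (((Np : ℝ) ^ (c * Cc) * ((Np : ℝ) ^ (Cc + 2)) ^ z) * ((ρ ^ 2) ^ z) ^ (2 * Cc)) := by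
        gcongr
    _ = (G : ℝ) ^ (J * (2 * Cc)) * K ^ (2 * Cc) * (Np : ℝ) ^ (c * Cc) *
        (((Np : ℝ) ^ (Cc + 2)) ^ z * ((ρ ^ 2) ^ z) ^ (2 * Cc)) := by ring
    _ ≤ (G : ℝ) ^ (J * (2 * Cc)) * K ^ (2 * Cc) * (Np : ℝ) ^ (c * Cc) *
        (θ ^ z * ((k : ℝ) ^ z) ^ (2 * Cc)) := by gcongr
    _ = _ := by ring

lemma exists_consts {k Np : ℕ} (hNp : 1 ≤ Np) (hN : Np < k ^ 2) :
    ∃ Cc : ℕ, 0 < Cc ∧ ∃ ρ θ : ℝ, 1 < ρ ∧ ρ ≤ 2 ∧ 0 < θ ∧ θ < 1 ∧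
      (Np : ℝ) ^ (Cc + 2) * ρ ^ (4 * Cc) ≤ θ * (k : ℝ) ^ (2 * Cc) := by
  have hNp0 : (0 : ℝ) < Np := by positivity
  have h1 : (1 : ℝ) < (k : ℝ) ^ 2 / Np := by
    rw [one_lt_div hNp0]; exact_mod_cast hN
  obtain ⟨m, hm⟩ := pow_unbounded_of_one_lt ((Np : ℝ) ^ 2) h1
  have hm0 : 0 < m := by
    rcases Nat.eq_zero_or_pos m with rfl | h
    · have : (1 : ℝ) ≤ (Np : ℝ) ^ 2 := one_le_pow₀ (by exact_mod_cast hNp)
      simp at hm; linarith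
    · exact h
  have h2 : (Np : ℝ) ^ (m + 2) * 1 ^ (4 * m) < (k : ℝ) ^ (2 * m) := by
    rw [div_pow, lt_div_iff₀ (by positivity), ← pow_mul] at hm
    rw [one_pow, mul_one, pow_add, mul_comm]; exact hm
  have hc : ContinuousAt (fun ρ : ℝ => (Np : ℝ) ^ (m + 2) * ρ ^ (4 * m)) 1 := by fun_prop
  have h3 := hc.eventually (gt_mem_nhds h2)
  have h4 : ∀ᶠ ρ : ℝ in nhdsWithin 1 (Set.Ioi 1),
      (Np : ℝ) ^ (m + 2) * ρ ^ (4 * m) < (k : ℝ) ^ (2 * m) ∧ ρ < 2 ∧ 1 < ρ := by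
    refine ((h3.and (gt_mem_nhds (by norm_num : (1 : ℝ) < 2))).filter_mono
      nhdsWithin_le_nhds).mp (eventually_nhdsWithin_of_forall fun x hx h => ⟨h.1, h.2, hx⟩)
  obtain ⟨ρ, a, b, c⟩ := h4.exists
  have hk : (0 : ℝ) < (k : ℝ) ^ (2 * m) := lt_of_le_of_lt (by positivity) h2
  refine ⟨m, hm0, ρ, (Np : ℝ) ^ (m + 2) * ρ ^ (4 * m) / (k : ℝ) ^ (2 * m), c, b.le,
    by have : 0 < ρ := by linarith
       positivity, (div_lt_one hk).2 a, ?_⟩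
  rw [div_mul_cancel₀ _ hk.ne']

lemma eventually_small (K θ : ℝ) (h0 : 0 < θ) (h1 : θ < 1) (m : ℕ) :
    ∃ g₀ : ℕ, ∀ g, g₀ ≤ g → K * ((g + 2 : ℕ) : ℝ) ^ m * θ ^ g < 1 := by
  have h := tendsto_pow_const_mul_const_pow_of_abs_lt_one m (r := θ) (by rwa [abs_of_pos h0])
  have h2 := (h.comp (Filter.tendsto_add_atTop_nat 2)).const_mul (K / θ ^ 2)
  rw [mul_zero] at h2
  obtain ⟨g₀, hg⟩ := Filter.eventually_atTop.1 (h2.eventually (gt_mem_nhds one_pos))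
  refine ⟨g₀, fun g hg' => ?_⟩
  have := hg g hg'
  simp only [Function.comp] at this
  refine lt_of_eq_of_lt ?_ this
  rw [pow_add θ g 2]
  field_simp

open Classical in
theorem bad_iso_of (hcore : CoreStmt) (hsw : SwitchStmt) (Pt : Type) [Fintype Pt] [DecidableEq Pt]
    (k Np : ℕ) (hk : 65 ≤ k) (hN : Np < k ^ 2) : ∃ Cc : ℕ, ∀ J : ℕ, ∃ g₀ D : ℕ,
    ∀ g, g₀ ≤ g → ∀ (R : ℕ) (M : Model Pt k Np R) (x₀ : M.X), D * nearB Pt g ≤ R →
    3 * ((M.GS g).filter fun σ => ¬ (M.graph σ).Iso M.UX (Sum.inl x₀) g J Cc).card ≤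
      (M.GS g).card := by
  have hNp : 1 ≤ max Np 1 := le_max_right _ _
  obtain ⟨Cc, hCc, ρ, θ, hρ1, hρ2, hθ0, hθ1, hθ⟩ :=
    exists_consts (k := k) hNp (max_lt hN (by nlinarith))
  refine ⟨Cc, fun J => ?_⟩
  obtain ⟨c, hc⟩ := hcore J
  choose cs hcs using shape_code
  set c' := ∑ j ∈ Finset.range (J + 1), cs j with hc'
  set N := Fintype.card Pt with hNdef
  set K₂ : ℝ := ((max Np 1 : ℕ) : ℝ) ^ (c * Cc) *
    ((N : ℝ) ^ (4 * (J * c)) * (k : ℝ) ^ (J * c)) ^ (2 * Cc) with hK₂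
  obtain ⟨g₀, hg₀⟩ := eventually_small (K₂ ^ 2 * (3 * (J + 1)) ^ (J * (2 * Cc) * 2)) θ hθ0 hθ1
    (c' * (J * (2 * Cc) * 2))
  obtain ⟨D, hD⟩ := exists_nat_ge ((1 + ρ * (J + 1)) / (ρ - 1))
  refine ⟨max g₀ 3, D, fun g hg R M x₀ hR => ?_⟩
  have hg3 : 3 ≤ g := le_of_max_le_right hg
  have hkN : k ≤ N := by rw [← M.lx_card x₀]; exact Finset.card_le_univ _
  set nb := nearB Pt g with hnb
  have hgnb : g ≤ nb := by
    refine le_trans (by omega) ((Nat.lt_two_pow_self (n := g + 2)).le.trans ?_)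
    exact Nat.pow_le_pow_left (by omega) _
  have hknb : k ≤ nb := by
    refine le_trans (by omega) (Nat.le_self_pow (n := g + 2) (by omega) (2 * N + 1))
  have hD' : 1 + ρ * (J + 1) ≤ D * (ρ - 1) := by
    rwa [div_le_iff₀ (by linarith)] at hD
  have hDJ : J + 1 < D := by
    have : ((J + 1 : ℕ) : ℝ) < D := by
      push_cast
      by_contra hh
      have hh := not_lt.1 hh
      nlinarith
    exact_mod_cast this
  have hnb0 : 0 < nb := by omega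
  have hJg : J * g + nb ≤ (J + 1) * nb := by nlinarith
  have hlt : (J + 1) * nb < R := lt_of_lt_of_le (Nat.mul_lt_mul_of_pos_right hDJ hnb0) hR
  set R' := R - J * g - nb with hR'
  have hR'0 : 0 < R' := by omega
  have hρ : ((R + k : ℕ) : ℝ) ≤ ρ * R' := by
    have a1 : (R : ℝ) - (J + 1) * nb ≤ R' := by
      have : R ≤ R' + (J + 1) * nb := by omega
      have : (R : ℝ) ≤ R' + (J + 1) * nb := by exact_mod_cast this
      linarith
    have a2 : (D : ℝ) * nb ≤ R := by exact_mod_cast hR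
    have a3 : (k : ℝ) ≤ nb := by exact_mod_cast hknb
    have a4 : (0 : ℝ) ≤ nb := by positivity
    push_cast
    nlinarith [mul_le_mul_of_nonneg_left a1 (by linarith : 0 ≤ ρ),
      mul_le_mul_of_nonneg_right hD' a4, mul_le_mul_of_nonneg_left a2 (by linarith : 0 ≤ ρ - 1)]
  choose T iT code hT hcode using fun j => hcs j Pt k Np R g M x₀
  set G := (M.GS g).card with hG
  let Cl : ∀ j, T j → Finset M.Conf := fun j τ => (M.GS g).filter fun σ =>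
    ∃ P : (M.graph σ).Pieces M.UX (Sum.inl x₀) (Fin j), (∀ i, 2 * (P.wd i).length < g) ∧
      g ≤ P.len ∧ Cc * P.bdry < P.len ∧ code j σ P = τ
  have hCl : ∀ j, j ≤ J → ∀ τ, (Cl j τ).card * (3 * (J + 1) * (g + 2) ^ c') ≤ G := by
    intro j hj τ
    rcases (Cl j τ).eq_empty_or_nonempty with h0 | ⟨σ₀, hσ₀⟩
    · rw [h0]; simp
    obtain ⟨hG₀, P₀, hs₀, hl₀, hb₀, hc₀⟩ := Finset.mem_filter.1 hσ₀
    obtain ⟨Q, hQ, q1, q2, q3, q4, q5⟩ := hc Pt k Np R g M x₀ (Fin j) σ₀ P₀ hg3 hG₀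
      (by simpa using hj) hs₀
    set n := (Cl j τ).card with hn
    have hk1 : ∀ i, k ^ (Q i).nX * (n * R' ^ (Q i).nE) ≤ G * ((max Np 1) ^ (Q i).nF *
        N ^ (4 * (Q i).nB) * k ^ (Q i).nL * (R + k) ^ ((Q i).nX + (Q i).nZ)) := by
      intro i
      have a := pat_count_of M x₀ g (Q i) (hsw Pt k Np R M g)
      refine le_trans (Nat.mul_le_mul_left _ (Nat.mul_le_mul (Finset.card_le_card ?_)
        (Nat.pow_le_pow_left ?_ _))) (a.trans ?_)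
      · intro σ hσ
        obtain ⟨hσG, P, hs, -, -, hcd⟩ := Finset.mem_filter.1 hσ
        obtain ⟨b1, b2⟩ := hcode j σ₀ hG₀ σ hσG P₀ P hs₀ hs (hc₀.trans hcd.symm)
        exact Finset.mem_filter.2 ⟨hσG, hQ σ hσG P b1 b2 i⟩
      · have := (q5 i).2.2
        omega
      · gcongr
        exact le_max_left _ _
    have hprod := Finset.prod_le_prod' (s := (univ : Finset (Fin J))) fun i _ => hk1 i
    simp only [Finset.prod_mul_distrib, Finset.prod_pow_eq_pow_sum, Finset.prod_const,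
      Finset.card_univ, Fintype.card_fin, ← Finset.mul_sum] at hprod
    rw [Finset.sum_add_distrib] at hprod q1
    have hnB : ∑ i, (Q i).nB ≤ J * c := by
      simpa using Finset.sum_le_card_nsmul univ _ c fun i _ => (q5 i).1
    have hnL : ∑ i, (Q i).nL ≤ J * c := by
      simpa using Finset.sum_le_card_nsmul univ _ c fun i _ => (q5 i).2.1
    have hnum := bad_num (by omega) hNp (by omega) hR'0 hρ2 hρ hθ q1 q2 q4 (by omega) hnB hnL hprod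
    set z := ∑ i, (Q i).nZ with hz
    have hJ : 0 < J := by
      rcases Nat.eq_zero_or_pos J with rfl | h
      · simp at hz; omega
      · exact h
    by_contra hcon
    have hcon : (G : ℝ) < n * (3 * (J + 1) * ((g + 2 : ℕ) : ℝ) ^ c') := by
      exact_mod_cast not_le.1 hcon
    set L : ℝ := 3 * (J + 1) * ((g + 2 : ℕ) : ℝ) ^ c' with hL
    set m := J * (2 * Cc) with hm
    have hm0 : m ≠ 0 := by positivity
    have hn0 : (0 : ℝ) < n := by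
      have : 0 < n := Finset.card_pos.2 ⟨σ₀, hσ₀⟩
      positivity
    have hK0 : 0 ≤ K₂ := by positivity
    have b1 : (G : ℝ) ^ m ≤ (n * L) ^ m := pow_le_pow_left₀ (by positivity) hcon.le m
    have b2 : (n : ℝ) ^ m * 1 ≤ (n : ℝ) ^ m * (L ^ m * (K₂ * θ ^ z)) := by
      calc (n : ℝ) ^ m * 1 = n ^ m := mul_one _
        _ ≤ _ := hnum
        _ ≤ (n * L) ^ m * (K₂ * θ ^ z) := by gcongr
        _ = _ := by rw [mul_pow]; ring
    have b3 := le_of_mul_le_mul_left b2 (by positivity)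
    have b4 : 1 ≤ (L ^ m * (K₂ * θ ^ z)) ^ 2 := one_le_pow₀ b3
    have b5 : θ ^ (2 * z) ≤ θ ^ g := pow_le_pow_of_le_one hθ0.le hθ1.le (by omega)
    have b6 := hg₀ g (le_of_max_le_left hg)
    have b7 : (L ^ m * (K₂ * θ ^ z)) ^ 2 = K₂ ^ 2 * (3 * (J + 1)) ^ (m * 2) *
        ((g + 2 : ℕ) : ℝ) ^ (c' * (m * 2)) * θ ^ (2 * z) := by
      rw [hL, pow_mul _ c', mul_comm 2 z, pow_mul θ, mul_pow, mul_pow, ← pow_mul, mul_pow]; ring
    have b8 : K₂ ^ 2 * (3 * (J + 1)) ^ (m * 2) * ((g + 2 : ℕ) : ℝ) ^ (c' * (m * 2)) *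
        θ ^ (2 * z) ≤ K₂ ^ 2 * (3 * (J + 1)) ^ (m * 2) * ((g + 2 : ℕ) : ℝ) ^ (c' * (m * 2)) *
        θ ^ g := by gcongr
    linarith
  have hsub : ((M.GS g).filter fun σ => ¬ (M.graph σ).Iso M.UX (Sum.inl x₀) g J Cc) ⊆
      (Finset.range (J + 1)).biUnion fun j => (univ : Finset (T j)).biUnion fun τ => Cl j τ := by
    intro σ hσ
    obtain ⟨hσG, hI⟩ := Finset.mem_filter.1 hσ
    simp only [LG.Iso, not_forall] at hI
    obtain ⟨ι, inst, P, h1, h2, h3, h4⟩ := hI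
    simp only [Finset.mem_biUnion]
    let e := (Fintype.equivFin ι).symm
    refine ⟨Fintype.card ι, Finset.mem_range.2 (by omega), code _ σ (P.reindex e),
      Finset.mem_univ _, Finset.mem_filter.2 ⟨hσG, P.reindex e, fun i => h2 _, ?_, ?_, rfl⟩⟩
    · rw [P.reindex_len]; exact h3
    · rw [P.reindex_len, P.reindex_bdry]; omega
  have hcard := (Finset.card_le_card hsub).trans (Finset.card_biUnion_le.trans
      (Finset.sum_le_sum fun j _ => Finset.card_biUnion_le))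
  have hL0 : 0 < (J + 1) * (g + 2) ^ c' := by positivity
  refine Nat.le_of_mul_le_mul_right ?_ hL0
  calc _ ≤ 3 * (∑ j ∈ Finset.range (J + 1), ∑ τ : T j, (Cl j τ).card) *
        ((J + 1) * (g + 2) ^ c') := by gcongr
    _ = ∑ j ∈ Finset.range (J + 1), ∑ τ : T j, (Cl j τ).card * (3 * (J + 1) * (g + 2) ^ c') := by
        simp only [← Finset.sum_mul]; ring
    _ ≤ ∑ j ∈ Finset.range (J + 1), (g + 2) ^ c' * G := by
        refine Finset.sum_le_sum fun j hj => ?_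
        have hj' : j ≤ J := Nat.lt_succ_iff.1 (Finset.mem_range.1 hj)
        calc _ ≤ ∑ _τ : T j, G := Finset.sum_le_sum fun τ _ => hCl j hj' τ
          _ = Fintype.card (T j) * G := by simp
          _ ≤ _ := Nat.mul_le_mul_right _ ((hT j).trans (Nat.pow_le_pow_right (by omega)
              (Finset.single_le_sum (f := cs) (fun _ _ => Nat.zero_le _) hj)))
    _ = _ := by simp; ring

end Crest.Agent.ZD
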