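import Crest.Agent.ZD.CoreB

set_option autoImplicit false
set_option maxHeartbeats 400000

namespace Crest.Agent.ZD

open FreeGroup (invRev IsReduced)
open Finset (univ)

section
variable {Pt : Type} [Fintype Pt] [DecidableEq Pt] {k Np R : ℕ} {M : Model Pt k Np R}
  {σ : M.Conf} {x₀ : M.X} {ι : Type} (P : (M.graph σ).Pieces M.UX (Sum.inl x₀) ι)

lemma Model.has_label {g : ℕ} (hg : (M.graph σ).Girth g) (h3 : 3 ≤ g) (p q : Pt) (x : M.X)
    (z : M.Z) (hp : M.Has σ (p, x, z)) (hq : M.Has σ (q, x, z)) : p = q := by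
  by_contra hne
  have h1 : (M.graph σ).nxt (Sum.inr z) (q, false) = some (Sum.inl x) :=
    (M.graph σ).symm (Sum.inl x) (Sum.inr z) (q, true) hq
  have h2 : (M.graph σ).run (Sum.inl x) [(p, true), (q, false)] = some (Sum.inl x) :=
    (M.graph σ).run_cons_eq_some.2 ⟨Sum.inr z, hp, by rw [LG.run_singleton]; exact h1⟩
  have := hg _ _ h2 (by simp [FreeGroup.IsReduced, hne]) (by simp; omega)
  cases this

lemma pos_edge (a : P.Pos) : ∃ e : M.X × M.Z, M.Has σ ((P.lt a).1, e.1, e.2) ∧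
    (((P.lt a).2 = true ∧ P.vt a.1 a.2 = Sum.inl e.1 ∧ P.vt a.1 (a.2 + 1) = Sum.inr e.2) ∨
      ((P.lt a).2 = false ∧ P.vt a.1 a.2 = Sum.inr e.2 ∧ P.vt a.1 (a.2 + 1) = Sum.inl e.1)) := by
  have h : M.nxt σ (P.vt a.1 a.2) (P.lt a) = some (P.vt a.1 (a.2 + 1)) := P.vt_step a.1 a.2.2
  obtain ⟨e1, e2⟩ := M.nxt_side h
  generalize P.vt a.1 a.2 = u at *
  generalize P.vt a.1 (a.2 + 1) = v at *
  generalize P.lt a = d at *
  obtain ⟨p, b⟩ := d
  rcases u with x | z <;> rcases v with x' | z' <;> simp only [Sum.isLeft] at e1 e2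
  · cases e2
  · subst e1; exact ⟨(x, z'), h, Or.inl ⟨rfl, rfl, rfl⟩⟩
  · subst e1
    exact ⟨(x', z), (M.graph σ).symm (Sum.inr z) (Sum.inl x') (p, false) h,
      Or.inr ⟨rfl, rfl, rfl⟩⟩
  · cases e2

/-- the `X`-end of the edge at a position -/
noncomputable def pex (a : P.Pos) : M.X := (pos_edge P a).choose.1
/-- the `Z`-end of the edge at a position -/
noncomputable def pez (a : P.Pos) : M.Z := (pos_edge P a).choose.2

lemma pe_has (a : P.Pos) : M.Has σ ((P.lt a).1, pex P a, pez P a) := (pos_edge P a).choose_spec.1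

lemma pe_t {a : P.Pos} (h : (P.lt a).2 = true) :
    P.vt a.1 a.2 = Sum.inl (pex P a) ∧ P.vt a.1 (a.2 + 1) = Sum.inr (pez P a) := by
  rcases (pos_edge P a).choose_spec.2 with e | e
  · exact e.2
  · exact absurd (h.symm.trans e.1) (by simp)

lemma pe_f {a : P.Pos} (h : (P.lt a).2 = false) :
    P.vt a.1 a.2 = Sum.inr (pez P a) ∧ P.vt a.1 (a.2 + 1) = Sum.inl (pex P a) := by
  rcases (pos_edge P a).choose_spec.2 with e | e
  · exact absurd (h.symm.trans e.1) (by simp)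
  · exact e.2

lemma sg_of_inl {a : P.Pos} {x : M.X} (h : P.vt a.1 a.2 = Sum.inl x) :
    (P.lt a).2 = true ∧ pex P a = x := by
  cases hs : (P.lt a).2
  · rw [(pe_f P hs).1] at h; cases h
  · rw [(pe_t P hs).1] at h; exact ⟨rfl, Sum.inl.inj h⟩

lemma sg_of_inr {a : P.Pos} {z : M.Z} (h : P.vt a.1 a.2 = Sum.inr z) :
    (P.lt a).2 = false ∧ pez P a = z := by
  cases hs : (P.lt a).2
  · rw [(pe_f P hs).1] at h; exact ⟨rfl, Sum.inr.inj h⟩
  · rw [(pe_t P hs).1] at h; cases h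

lemma sg_of_inl' {a : P.Pos} {x : M.X} (h : P.vt a.1 (a.2 + 1) = Sum.inl x) :
    (P.lt a).2 = false ∧ pex P a = x := by
  cases hs : (P.lt a).2
  · rw [(pe_f P hs).2] at h; exact ⟨rfl, Sum.inl.inj h⟩
  · rw [(pe_t P hs).2] at h; cases h

lemma sg_of_inr' {a : P.Pos} {z : M.Z} (h : P.vt a.1 (a.2 + 1) = Sum.inr z) :
    (P.lt a).2 = true ∧ pez P a = z := by
  cases hs : (P.lt a).2
  · rw [(pe_f P hs).2] at h; cases h
  · rw [(pe_t P hs).2] at h; exact ⟨rfl, Sum.inr.inj h⟩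

/-- index of the `X`-end -/
def pxi (a : P.Pos) : ℕ := if (P.lt a).2 then a.2.1 else a.2.1 + 1
/-- index of the `Z`-end -/
def pzi (a : P.Pos) : ℕ := if (P.lt a).2 then a.2.1 + 1 else a.2.1

lemma vt_pxi (a : P.Pos) : P.vt a.1 (pxi P a) = Sum.inl (pex P a) := by
  unfold pxi
  cases hs : (P.lt a).2
  · exact (pe_f P hs).2
  · exact (pe_t P hs).1

lemma vt_pzi (a : P.Pos) : P.vt a.1 (pzi P a) = Sum.inr (pez P a) := by
  unfold pzi
  cases hs : (P.lt a).2
  · exact (pe_f P hs).1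
  · exact (pe_t P hs).2

lemma pxi_le (a : P.Pos) : pxi P a ≤ (P.wd a.1).length := by
  have := a.2.2
  unfold pxi; split_ifs <;> omega

lemma pzi_le (a : P.Pos) : pzi P a ≤ (P.wd a.1).length := by
  have := a.2.2
  unfold pzi; split_ifs <;> omega

lemma pxi_pzi (a : P.Pos) : pzi P a = pxi P a + 1 ∨ pxi P a = pzi P a + 1 := by
  unfold pxi pzi; split_ifs <;> simp

lemma start_ex {b : P.Pos} (h0 : b.2.1 = 0) (h : ∀ i, P.sc i ≠ some b.1) :
    (P.lt b).2 = true ∧ pex P b = x₀ :=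
  sg_of_inl P (by rw [h0, P.vt_zero, P.pred_none _ h])

variable [Fintype ι] {g : ℕ}

open Classical in
lemma mult_eq_vis (hg : (M.graph σ).Girth g) (hl : ∀ i, 2 * (P.wd i).length < g) {z : M.Z}
    (hz : Sum.inr z ∉ P.Irr) :
    (univ.filter fun b : P.Pos => (P.lt b).2 = true ∧ pez P b = z).card =
      (univ.filter fun j => j ∈ P.Vis (Sum.inr z)).card := by
  refine Finset.card_bij (fun a _ => a.1) ?_ ?_ ?_
  · intro a ha
    obtain ⟨h1, rfl⟩ := (Finset.mem_filter.1 ha).2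
    exact Finset.mem_filter.2 ⟨Finset.mem_univ _, _, a.2.2, (pe_t P h1).2⟩
  · rintro ⟨i, t⟩ ha ⟨j, l⟩ ha' (rfl : i = j)
    obtain ⟨h1, h2⟩ := (Finset.mem_filter.1 ha).2
    obtain ⟨h3, h4⟩ := (Finset.mem_filter.1 ha').2
    have := P.vt_inj hg hl t.2 l.2 ((pe_t P h1).2.trans (by rw [h2, ← h4]; exact (pe_t P h3).2.symm))
    exact P.pos_ext rfl (by simpa using this)
  · intro j hj
    obtain ⟨l, h1, h2⟩ := (Finset.mem_filter.1 hj).2
    obtain ⟨h3, -⟩ := P.reg_self hg hl h1 (h2 ▸ hz)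
    refine ⟨⟨j, ⟨l - 1, by omega⟩⟩, Finset.mem_filter.2 ⟨Finset.mem_univ _, sg_of_inr' P ?_⟩, rfl⟩
    simp only
    rwa [show l - 1 + 1 = l by omega]

open Classical in
/-- the abstract data of a system of pieces -/
noncomputable def mkAD (hg : (M.graph σ).Girth g) (h3 : 3 ≤ g)
    (hl : ∀ i, 2 * (P.wd i).length < g) {J : ℕ} (hJ : Fintype.card ι ≤ J) :
    AD M.X M.Z x₀ J (2 * J ^ 2) P.bdry where
  α := P.Pos
  fin := inferInstance
  dec := Classical.decEq _
  sg := fun a => (P.lt a).2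
  ex := pex P
  ez := pez P
  nx := P.nx
  nx_inj := fun _ _ _ h h' => P.nx_inj h h'
  nx_sg := by
    intro a b h
    have e := P.nx_vt h
    cases hs : (P.lt a).2
    · rw [(pe_f P hs).2] at e; exact (sg_of_inl P e).1
    · rw [(pe_t P hs).2] at e; exact (sg_of_inr P e).1
  nx_t := by
    intro a b h hs
    have e := P.nx_vt h
    rw [(pe_t P hs).2] at e
    obtain ⟨e1, e2⟩ := sg_of_inr P e
    refine ⟨e2, fun e3 => ?_⟩
    have := P.nx_red h (Model.has_label hg h3 _ _ _ _ (pe_has P a) (e2 ▸ e3 ▸ pe_has P b))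
    rw [hs, e1] at this; cases this
  nx_f := by
    intro a b h hs
    have e := P.nx_vt h
    rw [(pe_f P hs).2] at e
    obtain ⟨e1, e2⟩ := sg_of_inl P e
    refine ⟨e2, fun e3 => ?_⟩
    have := P.nx_red h (Model.has_label hg h3 _ _ _ _ (pe_has P a) (e2 ▸ e3 ▸ pe_has P b))
    rw [hs, e1] at this; cases this
  nx_none := by
    intro a h
    unfold LG.Pieces.nx at h
    split_ifs at h with h1
    obtain ⟨x, hx⟩ := P.sc_none _ (Option.map_eq_none_iff.1 h)
    have e : a.2.1 + 1 = (P.wd a.1).length := by have := a.2.2; omega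
    exact (sg_of_inl' P (x := x) (by rw [e, P.vt_len, hx])).1
  pred_none := fun b h => start_ex P (P.no_pred h).1 (P.no_pred h).2
  mult_le := by
    intro z
    refine le_trans (Finset.card_le_card_of_injOn (t := univ) (fun a => a.1)
      (fun _ _ => Finset.mem_univ _) ?_) (by rw [Finset.card_univ]; exact hJ)
    rintro ⟨i, t⟩ ha ⟨j, l⟩ ha' (rfl : i = j)
    obtain ⟨h1, h2⟩ := (Finset.mem_filter.1 ha).2
    obtain ⟨h3, h4⟩ := (Finset.mem_filter.1 ha').2
    have := P.vt_inj hg hl t.2 l.2 ((pe_t P h1).2.trans (by rw [h2, ← h4]; exact (pe_t P h3).2.symm))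
    exact P.pos_ext rfl (by simpa using this)
  deg_le := by
    intro z
    refine le_trans ?_ (M.bz_hi z)
    refine Finset.card_le_card_of_surjOn
      (fun p => if h : ∃ x, M.Has σ (p, x, z) then h.choose else x₀) ?_
    intro x hx
    obtain ⟨a, rfl, rfl⟩ := (Finset.mem_filter.1 hx).2
    have h : ∃ x, M.Has σ ((P.lt a).1, x, pez P a) := ⟨_, pe_has P a⟩
    refine ⟨(P.lt a).1, M.has_bz (pe_has P a), ?_⟩
    simp only [dif_pos h]
    exact M.has_injx h.choose_spec (pe_has P a)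
  IX := univ.filter fun x => Sum.inl x ∈ P.Irr
  IZ := univ.filter fun z => Sum.inr z ∈ P.Irr
  IX_le := by
    refine le_trans (Finset.card_le_card_of_injOn (t := P.Irr) Sum.inl
      (fun x hx => (Finset.mem_filter.1 hx).2) Sum.inl_injective.injOn) (P.Irr_card.trans ?_)
    gcongr
  IZ_le := by
    refine le_trans (Finset.card_le_card_of_injOn (t := P.Irr) Sum.inr
      (fun x hx => (Finset.mem_filter.1 hx).2) Sum.inr_injective.injOn) (P.Irr_card.trans ?_)
    gcongr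
  regZ := by
    intro a a' b b' hz hs hs' e hb hb'
    have hz : Sum.inr (pez P a) ∉ P.Irr := by simpa using hz
    have key : ∀ c d : P.Pos, (P.lt c).2 = true → pez P c = pez P a → P.nx c = some d →
        P.vt c.1 (c.2 + 1 + 1) = Sum.inl (pex P d) := by
      intro c d hc ec hd
      have v1 := (pe_t P hc).2
      have v2 := P.reg_self hg hl c.2.2 (by rw [v1, ec]; exact hz)
      have v3 := P.nx_vt hd
      rw [v1] at v3
      have v4 := (pe_f P (sg_of_inr P v3).1).2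
      rcases P.nx_iff.1 hd with h | h
      · rwa [h.2, h.1] at v4
      · omega
    have k1 := key a b hs rfl hb
    have k2 := key a' b' hs' e hb'
    have v1 := pe_t P hs
    have v2 := pe_t P hs'
    obtain ⟨-, -, h | h⟩ := P.reg_nb hg hl (P.coin_iff.2 ⟨a.2.2, a'.2.2,
      v1.2.trans (by rw [v2.2, e])⟩) (by rw [v1.2]; exact hz)
    · have c1 := (P.coin_iff.1 h.1).2.2
      have c2 := (P.coin_iff.1 h.2).2.2
      simp only [Nat.succ_eq_add_one, Nat.add_sub_cancel] at c1 c2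
      rw [v1.1, v2.1] at c1
      rw [k1, k2] at c2
      exact Or.inl ⟨(Sum.inl.inj c1).symm, (Sum.inl.inj c2).symm⟩
    · have c1 := (P.coin_iff.1 h.1).2.2
      have c2 := (P.coin_iff.1 h.2).2.2
      simp only [Nat.succ_eq_add_one, Nat.add_sub_cancel] at c1 c2
      rw [v1.1, k2] at c1
      rw [k1, v2.1] at c2
      exact Or.inr ⟨(Sum.inl.inj c2).symm, (Sum.inl.inj c1).symm⟩
  regX := by
    intro a hx
    have hx : Sum.inl (pex P a) ∉ P.Irr := by simpa using hx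
    have ht := a.2.2
    cases hs : (P.lt a).2
    · have v := pe_f P hs
      obtain ⟨-, h⟩ := P.reg_self hg hl a.2.2 (by rw [v.2]; exact hx)
      have w := sg_of_inl P (a := ⟨a.1, ⟨a.2.1 + 1, h⟩⟩) v.2
      refine ⟨_, w.2, fun e => ?_⟩
      have := P.vt_inj hg hl h ht.le ((pe_t P w.1).2.trans (by rw [e, v.1]))
      omega
    · have v := pe_t P hs
      obtain ⟨h, -⟩ := P.reg_self hg hl ht.le (by rw [v.1]; exact hx)
      have w := sg_of_inl' P (a := ⟨a.1, ⟨a.2.1 - 1, by omega⟩⟩) (x := pex P a)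
        (by simp only; rw [show a.2.1 - 1 + 1 = a.2.1 by omega]; exact v.1)
      refine ⟨_, w.2, fun e => ?_⟩
      have := P.vt_inj hg hl (t := a.2.1 - 1) (by omega) ht ((pe_f P w.1).1.trans (by rw [e, v.2]))
      omega
  regXZ := by
    intro a a' hx e hz hz'
    have hx : Sum.inl (pex P a) ∉ P.Irr := by simpa using hx
    have key : ∀ c : P.Pos, Sum.inl (pex P c) ∉ P.Irr → Sum.inr (pez P c) ∉ P.Irr →
        P.Vis (Sum.inr (pez P c)) = P.Vis (Sum.inl (pex P c)) := by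
      intro c h1 h2
      rw [← vt_pxi, ← vt_pzi] at *
      exact Set.Subset.antisymm (P.vis_sub hg hl (pzi_le P c) h2 (pxi_pzi P c).symm)
        (P.vis_sub hg hl (pxi_le P c) h1 (pxi_pzi P c))
    have hz : Sum.inr (pez P a) ∉ P.Irr := by simpa using hz
    have hz' : Sum.inr (pez P a') ∉ P.Irr := by simpa using hz'
    have m1 := mult_eq_vis P hg hl hz
    have m2 := mult_eq_vis P hg hl hz'
    rw [key a hx hz] at m1
    rw [key a' (e ▸ hx) hz', e] at m2
    convert m1.trans m2.symm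
  Gd := univ.filter fun a => a.2.1 + 1 < (P.wd a.1).length ∧ (P.mu a.1).isSome ∧ (P.lt a).2 = true
  pt := P.pt
  lk := P.lk
  Gd_pt := by
    intro a ha
    obtain ⟨h1, h2, hs⟩ := (Finset.mem_filter.1 ha).2
    obtain ⟨j, hj⟩ := Option.isSome_iff_exists.1 h2
    obtain ⟨e1, e2⟩ := P.pt_eq hj
    have hlen : (P.wd (P.pt a).1).length = (P.wd a.1).length := by rw [e1]; exact P.mu_len hj
    have hmu : P.mu (P.pt a).1 = some a.1 := by rw [e1]; exact P.mu_symm _ _ hj
    have hb := (sg_of_inr P (a := ⟨a.1, ⟨a.2.1 + 1, h1⟩⟩) (pe_t P hs).2).1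
    have hlk : P.lk ⟨a.1, ⟨a.2.1 + 1, h1⟩⟩ (P.pt a) := ⟨by rw [e1]; exact hj, by simp only; omega⟩
    have hs' : (P.lt (P.pt a)).2 = true := by rw [P.lk_lt hlk, hb]; rfl
    refine ⟨Finset.mem_filter.2 ⟨Finset.mem_univ _, by omega, by simp [hmu], hs'⟩, ?_, fun e => ?_⟩
    · obtain ⟨e3, e4⟩ := P.pt_eq hmu
      exact P.pos_ext e3 (by omega)
    · refine P.mu_vt_ne hj (t := a.2.1 + 1) (l := (P.pt a).2.1 + 1) (by omega) ?_
      have := (pe_t P hs').2
      rw [(pe_t P hs).2, ← e, ← this]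
      congr 1
      exact e1.symm
  Gd_sg := fun a ha => (Finset.mem_filter.1 ha).2.2.2
  Gd_lk := by
    intro a ha b hb
    obtain ⟨h1, h2, hs⟩ := (Finset.mem_filter.1 ha).2
    obtain ⟨j, hj⟩ := Option.isSome_iff_exists.1 h2
    obtain ⟨e1, e2⟩ := P.pt_eq hj
    have hlen : (P.wd (P.pt a).1).length = (P.wd a.1).length := by rw [e1]; exact P.mu_len hj
    obtain rfl : b = ⟨a.1, ⟨a.2.1 + 1, h1⟩⟩ := by
      rcases P.nx_iff.1 hb with h | h
      · exact P.pos_ext h.1 h.2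
      · omega
    have hb := (sg_of_inr P (a := ⟨a.1, ⟨a.2.1 + 1, h1⟩⟩) (pe_t P hs).2).1
    have hlk : P.lk ⟨a.1, ⟨a.2.1 + 1, h1⟩⟩ (P.pt a) := ⟨by rw [e1]; exact hj, by simp only; omega⟩
    have hs' : (P.lt (P.pt a)).2 = true := by rw [P.lk_lt hlk, hb]; rfl
    refine ⟨⟨(P.pt a).1, ⟨(P.pt a).2.1 + 1, by omega⟩⟩, P.pt a,
      ⟨by rw [← e1] at hj; exact hj, by simp only; omega⟩, hlk, ?_, rfl⟩
    exact (sg_of_inr P (a := ⟨(P.pt a).1, ⟨(P.pt a).2.1 + 1, by omega⟩⟩) (pe_t P hs').2).2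
  nGd := by
    have h1 : (univ.filter fun a : P.Pos => (P.mu a.1).isNone).card = P.bdry := by
      rw [Finset.card_filter, Fintype.sum_sigma, LG.Pieces.bdry]
      refine Finset.sum_congr rfl fun i _ => ?_
      split_ifs <;> simp
    have h2 : (univ.filter fun a : P.Pos => a.2.1 + 1 = (P.wd a.1).length).card ≤ J := by
      refine le_trans (Finset.card_le_card_of_injOn (t := univ) (fun a => a.1)
        (fun _ _ => Finset.mem_univ _) ?_) (by rw [Finset.card_univ]; exact hJ)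
      rintro ⟨i, t⟩ ha ⟨j, l⟩ ha' (rfl : i = j)
      have a1 := (Finset.mem_filter.1 ha).2
      have a2 := (Finset.mem_filter.1 ha').2
      exact P.pos_ext rfl (by simp only at a1 a2 ⊢; omega)
    refine le_trans (Finset.card_le_card fun a ha => ?_) ((Finset.card_union_le _ _).trans
      (Nat.add_le_add h1.le h2))
    have := a.2.2
    simp only [Finset.mem_filter, Finset.mem_univ, true_and, Finset.mem_union] at ha ⊢
    cases hm : P.mu a.1 with
    | none => simp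
    | some j =>
      right
      by_contra hh
      exact ha.2 ⟨by omega, by simp [hm], ha.1⟩

end

/-- (P4) ZD/Core.lean -/
theorem core (J : ℕ) : ∃ c : ℕ, ∀ (Pt : Type) [Fintype Pt] [DecidableEq Pt] (k Np R g : ℕ)
    (M : Model Pt k Np R) (x₀ : M.X) (ι : Type) [Fintype ι] (σ₀ : M.Conf)
    (P₀ : (M.graph σ₀).Pieces M.UX (Sum.inl x₀) ι), 3 ≤ g → σ₀ ∈ M.GS g → Fintype.card ι ≤ J →
    (∀ i, 2 * (P₀.wd i).length < g) →
    ∃ Q : Fin J → Pat,
      (∀ σ ∈ M.GS g, ∀ P : (M.graph σ).Pieces M.UX (Sum.inl x₀) ι, SameShape P₀ P →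
        (∀ i, M.col (P₀.st i) = M.col (P.st i)) → ∀ k, (Q k).Occurs M x₀ σ) ∧
      ∑ k, ((Q k).nX + (Q k).nZ) ≤ ∑ k, (Q k).nE ∧ 2 * ∑ k, (Q k).nZ ≤ ∑ k, (Q k).nE ∧
      2 * ∑ k, (Q k).nZ = P₀.len ∧ 2 * ∑ k, (Q k).nF ≤ ∑ k, (Q k).nZ + P₀.bdry + c ∧
      ∀ k, (Q k).nB ≤ c ∧ (Q k).nL ≤ c ∧ (Q k).nE ≤ J * g := by
  classical
  refine ⟨J + 2 * (2 * J ^ 2 * J) + 5 * (2 * J ^ 2), ?_⟩
  intro Pt _ _ k Np R g M x₀ ι _ σ₀ P₀ h3 hσ₀ hJ hl
  obtain ⟨hg₀, hc₀⟩ := M.mem_GS.1 hσ₀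
  let A := mkAD P₀ hg₀ h3 hl hJ
  have hcard : Fintype.card A.α = P₀.len := by
    show Fintype.card P₀.Pos = _
    simp [LG.Pieces.len]
  refine ⟨fun j => A.pat M.cx M.cz j, ?_, ?_, ?_, ?_, ?_, fun j => ⟨?_, ?_, ?_⟩⟩
  · intro σ hσ P hS hcol j
    obtain ⟨hg, hc⟩ := M.mem_GS.1 hσ
    obtain ⟨s1, s2, s3, s4⟩ := hS
    have hlen : ∀ i, (P₀.wd i).length = (P.wd i).length := fun i => by
      simpa using congrArg List.length (s3 i)
    let tr : P₀.Pos → P.Pos := fun a => ⟨a.1, ⟨a.2.1, hlen a.1 ▸ a.2.2⟩⟩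
    have hsg : ∀ a, (P.lt (tr a)).2 = (P₀.lt a).2 := by
      intro a
      have : ((P.wd a.1).map Prod.snd)[a.2.1]? = ((P₀.wd a.1).map Prod.snd)[a.2.1]? := by
        rw [s3]
      rw [List.getElem?_eq_getElem (by rw [List.length_map]; exact (tr a).2.2),
        List.getElem?_eq_getElem (by rw [List.length_map]; exact a.2.2)] at this
      simp only [List.getElem_map, Option.some.injEq] at this
      exact this
    have hxi : ∀ a, pxi P (tr a) = pxi P₀ a := fun a => by simp only [pxi, hsg]; rfl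
    have hzi : ∀ a, pzi P (tr a) = pzi P₀ a := fun a => by simp only [pzi, hsg]; rfl
    have hv : ∀ i t j l, t ≤ (P₀.wd i).length → l ≤ (P₀.wd j).length →
        (P₀.vt i t = P₀.vt j l ↔ P.vt i t = P.vt j l) := by
      intro i t j l a b
      simpa [LG.Pieces.vt_spec] using s4 i t j l a b
    have hX : ∀ a a', pex P₀ a = pex P₀ a' ↔ pex P (tr a) = pex P (tr a') := by
      intro a a'
      have := hv _ _ _ _ (pxi_le P₀ a) (pxi_le P₀ a')
      have b1 := vt_pxi P (tr a)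
      have b2 := vt_pxi P (tr a')
      rw [hxi] at b1 b2
      rw [vt_pxi, vt_pxi, b1, b2] at this
      simpa using this
    have hZ : ∀ a a', pez P₀ a = pez P₀ a' ↔ pez P (tr a) = pez P (tr a') := by
      intro a a'
      have := hv _ _ _ _ (pzi_le P₀ a) (pzi_le P₀ a')
      have b1 := vt_pzi P (tr a)
      have b2 := vt_pzi P (tr a')
      rw [hzi] at b1 b2
      rw [vt_pzi, vt_pzi, b1, b2] at this
      simpa using this
    let fx : M.X → M.X := fun x => if h : ∃ a, pex P₀ a = x then pex P (tr h.choose) else x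
    let fz : M.Z → M.Z := fun z => if h : ∃ a, pez P₀ a = z then pez P (tr h.choose) else z
    have hfx : ∀ a, fx (pex P₀ a) = pex P (tr a) := by
      intro a
      have h : ∃ a', pex P₀ a' = pex P₀ a := ⟨a, rfl⟩
      simp only [fx, dif_pos h]
      exact (hX _ _).1 h.choose_spec
    have hfz : ∀ a, fz (pez P₀ a) = pez P (tr a) := by
      intro a
      have h : ∃ a', pez P₀ a' = pez P₀ a := ⟨a, rfl⟩
      simp only [fz, dif_pos h]
      exact (hZ _ _).1 h.choose_spec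
    have hcv : ∀ i t l, M.col (P.vt i t) = M.col (P₀.vt i l) := fun i t l => by
      rw [M.run_col hc (P.vt_spec i t), M.run_col hc₀ (P₀.vt_spec i l), hcol]
    refine A.occurs M.cx M.cz M x₀ σ fx fz (fun a => (P.lt (tr a)).1) ?_ ?_ ?_
      (Model.has_label hg h3) ?_ ?_ ?_ ?_ j
    · intro a a' h
      exact (hX a a').2 ((hfx a).symm.trans (h.trans (hfx a')))
    · intro a a' h
      exact (hZ a a').2 ((hfz a).symm.trans (h.trans (hfz a')))
    · intro a
      show M.Has σ (_, fx (pex P₀ a), fz (pez P₀ a))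
      rw [hfx, hfz]; exact pe_has P (tr a)
    · intro a a' h
      have : P.lk (tr a) (tr a') := ⟨s2 ▸ h.1, h.2.trans (hlen a.1)⟩
      show (P.lt (tr a)).1 = (P.lt (tr a')).1
      rw [P.lk_lt this]
    · rintro ⟨b, hb⟩
      obtain ⟨b1, b2⟩ := P₀.no_pred hb
      have e := hfx b
      rw [(start_ex P₀ b1 b2).2] at e
      rw [e]
      exact (start_ex P (b := tr b) b1 (s1 ▸ b2)).2
    · intro a
      show M.cx (fx (pex P₀ a)) = M.cx (pex P₀ a)
      have := hcv a.1 (pxi P (tr a)) (pxi P₀ a)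
      rw [vt_pxi P₀ a, vt_pxi P (tr a)] at this
      rw [hfx]; exact this
    · intro a
      show M.cz (fz (pez P₀ a)) = M.cz (pez P₀ a)
      have := hcv a.1 (pzi P (tr a)) (pzi P₀ a)
      rw [vt_pzi P₀ a, vt_pzi P (tr a)] at this
      rw [hfz]; exact this
  · rw [Finset.sum_add_distrib, A.sum_nX, A.sum_nZ, A.sum_nE]; exact A.chi
  · rw [A.sum_nZ, A.sum_nE]; exact A.two_nZ_le
  · rw [A.sum_nZ, A.two_card_t, hcard]
  · rw [A.sum_nF, A.sum_nZ]
    have := A.nF_le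
    omega
  · exact (A.nB_le M.cx M.cz j).trans (by omega)
  · exact (A.nL_le M.cx M.cz j).trans (by omega)
  · refine (A.nE_le M.cx M.cz j).trans ?_
    rw [hcard, LG.Pieces.len]
    refine (Finset.sum_le_card_nsmul univ _ g fun i _ => by have := hl i; omega).trans ?_
    rw [Finset.card_univ, smul_eq_mul]
    exact Nat.mul_le_mul_right _ hJ

end Crest.Agent.ZD
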