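import Crest.Agent.ZD.Switch
import Crest.Agent.ZD.Bad0
import Crest.Agent.ZD.Core

set_option autoImplicit false

namespace Crest.Agent.ZD

open Finset (univ)

open Classical in
/-- (P6) -/
theorem bad_iso (Pt : Type) [Fintype Pt] [DecidableEq Pt] (k Np : ℕ) (hk : 65 ≤ k)
    (hN : Np < k ^ 2) : ∃ Cc : ℕ, ∀ J : ℕ, ∃ g₀ D : ℕ,
    ∀ g, g₀ ≤ g → ∀ (R : ℕ) (M : Model Pt k Np R) (x₀ : M.X), D * nearB Pt g ≤ R →
    3 * ((M.GS g).filter fun σ => ¬ (M.graph σ).Iso M.UX (Sum.inl x₀) g J Cc).card ≤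
      (M.GS g).card :=
  bad_iso_of core (fun _ _ _ _ _ _ M g B => switching M g B) Pt k Np hk hN

open Classical in
/-- the statement of (P2) -/
def DiamStmt : Prop := ∀ (Pt : Type) [Fintype Pt] [DecidableEq Pt], ∃ C₁ : ℕ, ∀ (k Np R g : ℕ)
    (M : Model Pt k Np R), 65 ≤ k → 4 * nearB Pt g ≤ R →
    3 * ((M.GS g).filter fun σ => ¬ ∀ u v, (∃ w, (M.graph σ).run u w = some v) →
      ∃ w : List (Pt × Bool), w.length ≤ C₁ * (Nat.log 2 R + 1) ∧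
        (M.graph σ).run u w = some v).card ≤ (M.GS g).card

lemma log_bound (c D N g : ℕ) (hc : c ≤ g) (hD : D ≤ g) (hg : 1 ≤ g) :
    Nat.log 2 (c * (D * N ^ (g + 2))) + 1 ≤ (3 + 3 * N) * g := by
  have h1 : c ≤ 2 ^ g := hc.trans (Nat.lt_two_pow_self).le
  have h2 : D ≤ 2 ^ g := hD.trans (Nat.lt_two_pow_self).le
  have h3 : N ^ (g + 2) ≤ 2 ^ (3 * N * g) := by
    calc N ^ (g + 2) ≤ (2 ^ N) ^ (g + 2) := Nat.pow_le_pow_left (Nat.lt_two_pow_self).le _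
      _ = 2 ^ (N * (g + 2)) := by rw [← pow_mul]
      _ ≤ 2 ^ (3 * N * g) := Nat.pow_le_pow_right (by norm_num) (by nlinarith)
  have h4 : c * (D * N ^ (g + 2)) ≤ 2 ^ (g + g + 3 * N * g) := by
    rw [pow_add 2 (g + g), pow_add 2 g g, mul_assoc]
    exact Nat.mul_le_mul h1 (Nat.mul_le_mul h2 h3)
  have h5 := Nat.log_mono_right (b := 2) h4
  rw [Nat.log_pow (by norm_num)] at h5
  nlinarith

/-- (P8), modulo (P2) -/
theorem exists_good_of (hd : DiamStmt) (Pt : Type) [Fintype Pt] [DecidableEq Pt] (k Np c : ℕ)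
    (hk : 65 ≤ k) (hN : Np < k ^ 2) (hc : 0 < c) (Ms : ∀ t : ℕ, Model Pt k Np (c * t))
    (x₀ : ∀ t, (Ms (t + 1)).X) :
    ∃ C₀ Cc : ℕ, ∀ J, ∃ (t g : ℕ) (σ : (Ms (t + 1)).Conf), σ ∈ (Ms (t + 1)).GS g ∧ J ≤ g ∧
      (∀ u v, (∃ w, ((Ms (t + 1)).graph σ).run u w = some v) →
        ∃ w : List (Pt × Bool), w.length ≤ C₀ * g ∧ ((Ms (t + 1)).graph σ).run u w = some v) ∧
      ((Ms (t + 1)).graph σ).Iso (Ms (t + 1)).UX (Sum.inl (x₀ t)) g J Cc := by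
  classical
  obtain ⟨C₁, hC₁⟩ := hd Pt
  obtain ⟨Cc, hCc⟩ := bad_iso Pt k Np hk hN
  refine ⟨C₁ * (3 + 3 * (2 * Fintype.card Pt + 1)), Cc, fun J => ?_⟩
  obtain ⟨g₀, D, hD⟩ := hCc J
  obtain ⟨g, hg⟩ : ∃ g, g = g₀ + J + c + (D + 4) := ⟨_, rfl⟩
  have hn : 0 < nearB Pt g := by unfold nearB; positivity
  obtain ⟨t, ht⟩ : ∃ t, t + 1 = (D + 4) * nearB Pt g :=
    ⟨(D + 4) * nearB Pt g - 1, Nat.sub_add_cancel (Nat.mul_pos (by omega) hn)⟩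
  have hR : (D + 4) * nearB Pt g ≤ c * (t + 1) := by
    rw [← ht]; exact Nat.le_mul_of_pos_left _ hc
  have hlog : Nat.log 2 (c * (t + 1)) + 1 ≤ (3 + 3 * (2 * Fintype.card Pt + 1)) * g := by
    rw [ht]; exact log_bound _ _ _ _ (by omega) (by omega) (by omega)
  have b1 := hD g (by omega) _ (Ms (t + 1)) (x₀ t) (le_trans (by nlinarith) hR)
  have b2 := hC₁ k Np _ g (Ms (t + 1)) hk (le_trans (by nlinarith) hR)
  have b3 := (GS_nonempty (Ms (t + 1)) g (lt_of_lt_of_le (by nlinarith) hR)).card_pos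
  obtain ⟨σ, hσ, hσ'⟩ := Finset.exists_mem_notMem_of_card_lt_card
    (lt_of_le_of_lt (Finset.card_union_le _ _) (by omega) :
      ((((Ms (t + 1)).GS g).filter fun σ =>
        ¬ ((Ms (t + 1)).graph σ).Iso (Ms (t + 1)).UX (Sum.inl (x₀ t)) g J Cc) ∪
      (((Ms (t + 1)).GS g).filter fun σ => ¬ ∀ u v, (∃ w, ((Ms (t + 1)).graph σ).run u w = some v) →
      ∃ w : List (Pt × Bool), w.length ≤ C₁ * (Nat.log 2 (c * (t + 1)) + 1) ∧
        ((Ms (t + 1)).graph σ).run u w = some v)).card < ((Ms (t + 1)).GS g).card)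
  simp only [Finset.mem_union, Finset.mem_filter, hσ, true_and, not_or, not_not] at hσ'
  refine ⟨t, g, σ, hσ, by omega, fun u v huv => ?_, hσ'.1⟩
  obtain ⟨w, hw1, hw2⟩ := hσ'.2 u v huv
  exact ⟨w, hw1.trans (by rw [mul_assoc]; exact Nat.mul_le_mul_left _ hlog), hw2⟩

end Crest.Agent.ZD
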