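import Crest.Agent.ZD.LocA

set_option autoImplicit false
set_option linter.unusedSectionVars false
set_option linter.unusedVariables false

namespace Crest.Agent.ZD

open FreeGroup (mk of invRev IsReduced IsCyclicallyReduced mul_mk inv_mk one_eq_mk invRev_cons
  invRev_append invRev_invRev)

namespace Osc

variable {S G : Type} [Group G] (Γ : LG S) (π : FreeGroup S →* G)

/-- reachability -/
def rs : Setoid Γ.V where
  r x y := ∃ w, Γ.run x w = some y
  iseqv := ⟨fun x => ⟨[], rfl⟩, fun ⟨w, h⟩ => ⟨_, Γ.run_invRev h⟩,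
    fun ⟨w, h⟩ ⟨w', h'⟩ => ⟨w ++ w', Γ.run_append_eq_some.mpr ⟨_, h, h'⟩⟩⟩

/-- components -/
abbrev Cp : Type := Quotient (rs Γ)

/-- component of a vertex -/
def cp (x : Γ.V) : Cp Γ := Quotient.mk _ x

lemma exists_wd (x : Γ.V) : ∃ w, Γ.run (cp Γ x).out w = some x := Quotient.mk_out (s := rs Γ) x

/-- a word from the root -/
noncomputable def wd (x : Γ.V) : List (S × Bool) := (exists_wd Γ x).choose

lemma run_wd (x : Γ.V) : Γ.run (cp Γ x).out (wd Γ x) = some x := (exists_wd Γ x).choose_spec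

lemma cp_run {x y : Γ.V} {w : List (S × Bool)} (h : Γ.run x w = some y) : cp Γ x = cp Γ y :=
  Quotient.sound ⟨w, h⟩

lemma cp_out (κ : Cp Γ) : cp Γ κ.out = κ := Quotient.out_eq κ

/-- position of a vertex -/
noncomputable def a (x : Γ.V) : G := π (mk (wd Γ x))

/-- the closed walk through an edge or a walk -/
noncomputable def cyc {x y : Γ.V} {w : List (S × Bool)} (h : Γ.run x w = some y) : Γ.Cyc :=
  ⟨((cp Γ x).out, wd Γ x ++ (w ++ invRev (wd Γ y))), Γ.run_append_eq_some.mpr ⟨x, run_wd Γ x,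
    Γ.run_append_eq_some.mpr ⟨y, h, by
      have := Γ.run_invRev (run_wd Γ y)
      rwa [← cp_run Γ h] at this⟩⟩⟩

lemma mk_cyc {x y : Γ.V} {w : List (S × Bool)} (h : Γ.run x w = some y) :
    mk (Γ.cw (cyc Γ h)) = mk (wd Γ x) * mk w * (mk (wd Γ y))⁻¹ := by
  rw [inv_mk, mul_mk, mul_mk, List.append_assoc]; rfl

variable {Γ π}

lemma a_run (hc : ∀ q : Γ.Cyc, π (mk (Γ.cw q)) = 1) {x y : Γ.V} {w : List (S × Bool)}
    (h : Γ.run x w = some y) : a Γ π y = a Γ π x * π (mk w) := by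
  have := hc (cyc Γ h)
  rw [mk_cyc, map_mul, map_mul, map_inv, mul_inv_eq_one] at this
  exact this.symm

lemma a_nxt (hc : ∀ q : Γ.Cyc, π (mk (Γ.cw q)) = 1) {x y : Γ.V} {s : S}
    (h : Γ.nxt x (s, true) = some y) : a Γ π y = a Γ π x * π (of s) :=
  a_run hc (w := [(s, true)]) (by simpa using h)

variable (Γ π)

/-- vertices of the coned-off Cayley complex -/
abbrev Vx (G : Type) : Type := G × (Unit ⊕ Γ.V ⊕ Cp Γ)

/-- edges -/
inductive E : Vx Γ G → Vx Γ G → Prop
  | cm (g : G) (κ : Cp Γ) (x : Γ.V) (e : κ = cp Γ x) : E (g, .inr (.inr κ)) (g, .inr (.inl x))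
  | mm (g : G) (x y : Γ.V) (s : S) (e : Γ.nxt x (s, true) = some y) :
      E (g, .inr (.inl x)) (g, .inr (.inl y))
  | mo (g h : G) (x : Γ.V) (e : h = g * a Γ π x) : E (g, .inr (.inl x)) (h, .inl ())
  | mo' (g h : G) (x y : Γ.V) (s : S) (e : Γ.nxt x (s, true) = some y) (e' : h = g * a Γ π y) :
      E (g, .inr (.inl x)) (h, .inl ())
  | oo (h h' : G) (s : S) (e : h' = h * π (of s)) : E (h, .inl ()) (h', .inl ())

/-- triangles -/
inductive T : Vx Γ G → Vx Γ G → Vx Γ G → Prop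
  | t1 (g : G) (κ : Cp Γ) (x y : Γ.V) (s : S) (e : Γ.nxt x (s, true) = some y) (e' : κ = cp Γ x) :
      T (g, .inr (.inr κ)) (g, .inr (.inl x)) (g, .inr (.inl y))
  | t2 (g h : G) (x y : Γ.V) (s : S) (e : Γ.nxt x (s, true) = some y) (e' : h = g * a Γ π y) :
      T (g, .inr (.inl x)) (g, .inr (.inl y)) (h, .inl ())
  | t3 (g h h' : G) (x y : Γ.V) (s : S) (e : Γ.nxt x (s, true) = some y) (e' : h = g * a Γ π x)
      (e'' : h' = g * a Γ π y) : T (g, .inr (.inl x)) (h, .inl ()) (h', .inl ())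

instance act : MulAction G (Vx Γ G) where
  smul g v := (g * v.1, v.2)
  one_smul v := Prod.ext (one_mul _) rfl
  mul_smul g h v := Prod.ext (mul_assoc _ _ _) rfl

lemma smul_def (g h : G) (i : Unit ⊕ Γ.V ⊕ Cp Γ) :
    (act Γ).smul g ((h, i) : Vx Γ G) = (g * h, i) := rfl

variable {Γ π}

lemma conn (surj : Function.Surjective π) (v : Vx Γ G) :
    Relation.EqvGen (E Γ π) (1, .inl ()) v := by
  have h1 : ∀ (w : FreeGroup S) (h : G),
      Relation.EqvGen (E Γ π) (h, .inl ()) (h * π w, .inl ()) := by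
    intro w
    induction w with
    | C1 => intro h; simpa using Relation.EqvGen.refl _
    | of s => intro h; exact .rel _ _ (.oo _ _ s rfl)
    | inv_of s _ =>
      intro h
      exact .symm _ _ (.rel _ _ (.oo _ _ s (by simp)))
    | mul u w hu hw =>
      intro h
      rw [map_mul, ← mul_assoc]
      exact .trans _ _ _ (hu h) (hw _)
  have h2 : ∀ h : G, Relation.EqvGen (E Γ π) (1, .inl ()) (h, .inl ()) := fun h => by
    obtain ⟨w, rfl⟩ := surj h
    simpa using h1 w 1
  have h3 : ∀ (g : G) x, Relation.EqvGen (E Γ π) (1, .inl ()) (g, .inr (.inl x)) := fun g x =>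
    .trans _ _ _ (h2 _) (.symm _ _ (.rel _ _ (.mo g _ x rfl)))
  obtain ⟨g, _ | x | κ⟩ := v
  · exact h2 g
  · exact h3 g x
  · exact .trans _ _ _ (h3 g κ.out) (.symm _ _ (.rel _ _ (.cm g κ _ (cp_out Γ κ).symm)))

lemma lf [Finite S] [Finite Γ.V] (v : Vx Γ G) : {w | E Γ π v w ∨ E Γ π w v}.Finite := by
  let B : Set G := insert 1 (Set.range (a Γ π) ∪ Set.range fun s => π (of s))
  have hB : B.Finite := ((Set.finite_range _).union (Set.finite_range _)).insert _
  have hE : ∀ v w, E Γ π v w → v.1⁻¹ * w.1 ∈ B := by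
    intro v w h
    cases h with
    | cm => simp [B]
    | mm => simp [B]
    | mo g h x e => simp [B, e]
    | mo' g h x y s e e' => simp [B, e']
    | oo h h' s e => simp [B, e]
  refine (((hB.image (v.1 * ·)).union (hB.image fun b => v.1 * b⁻¹)).prod
    (Set.finite_univ (α := Unit ⊕ Γ.V ⊕ Cp Γ))).subset ?_
  rintro w (h | h)
  · exact ⟨Or.inl ⟨_, hE _ _ h, by simp⟩, trivial⟩
  · exact ⟨Or.inr ⟨_, hE _ _ h, by simp⟩, trivial⟩

lemma red2 [DecidableEq S] (s s' : S) : FreeGroup.IsReduced [(s, true), (s', true)] := by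
  simp [FreeGroup.IsReduced]

lemma asymm [DecidableEq S] (hg : Γ.Girth 3)
    (h2 : ∀ w : FreeGroup S, w.norm ≤ 2 → π w = 1 → w = 1) (v w : Vx Γ G) (h : E Γ π v w) :
    ¬ E Γ π w v := by
  intro h'
  cases h with
  | cm => cases h'
  | mm g x y s e =>
    cases h' with
    | mm _ _ _ s' e' =>
      have := hg x [(s, true), (s', true)] (by simp [LG.run_cons, e, e']) (red2 s s') (by simp)
      simp at this
  | mo => cases h'
  | mo' => cases h'
  | oo h h'' s e =>
    cases h' with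
    | oo _ _ s' e' =>
      have h3 : π (mk [(s, true), (s', true)]) = 1 := by
        have : mk [(s, true), (s', true)] = of s * of s' := rfl
        rw [this, map_mul]
        rw [e, mul_assoc] at e'
        exact (mul_eq_left.mp e'.symm)
      have h4 := h2 _ ((FreeGroup.norm_mk_le).trans (by simp)) h3
      have h5 := congrArg FreeGroup.toWord h4
      rw [FreeGroup.toWord_mk, (red2 s s').reduce_eq] at h5
      simp at h5

lemma T_E (hc : ∀ q : Γ.Cyc, π (mk (Γ.cw q)) = 1) (u v w : Vx Γ G) (h : T Γ π u v w) :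
    E Γ π u v ∧ E Γ π v w ∧ E Γ π u w := by
  cases h with
  | t1 g κ x y s e e' =>
    exact ⟨.cm _ _ _ e', .mm _ _ _ s e,
      .cm _ _ _ (e'.trans (cp_run Γ (w := [(s, true)]) (by simpa using e)))⟩
  | t2 g h x y s e e' => exact ⟨.mm _ _ _ s e, .mo _ _ _ e', .mo' _ _ _ _ s e e'⟩
  | t3 g h h' x y s e e' e'' =>
    exact ⟨.mo _ _ _ e', .oo _ _ s (by rw [e'', e', a_nxt hc e, mul_assoc]), .mo' _ _ _ _ s e e''⟩

/-! ### Simple connectivity -/

section sc
variable {H : Type} [Group H] (π) (β : G → S → H)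

/-- the permutation of `G × H` given by a letter -/
def perm (s : S) : Equiv.Perm (G × H) where
  toFun z := (z.1 * π (of s), z.2 * β z.1 s)
  invFun z := (z.1 * (π (of s))⁻¹, z.2 * (β (z.1 * (π (of s))⁻¹) s)⁻¹)
  left_inv z := by simp
  right_inv z := by simp

/-- the right action of the free group -/
noncomputable def Φ : FreeGroup S →* (Equiv.Perm (G × H))ᵐᵒᵖ :=
  FreeGroup.lift fun s => MulOpposite.op (perm π β s)

/-- holonomy along a word -/
noncomputable def P (h : G) (w : FreeGroup S) : H := ((Φ π β w).unop (h, 1)).2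

lemma Φ_apply (w : FreeGroup S) (h : G) (k : H) :
    (Φ π β w).unop (h, k) = (h * π w, k * P π β h w) := by
  unfold P
  induction w generalizing h k with
  | C1 => simp
  | of s => simp [Φ, perm]
  | inv_of s _ =>
    simp only [Φ, map_inv, FreeGroup.lift_apply_of, MulOpposite.unop_inv, MulOpposite.unop_op,
      Equiv.Perm.inv_def]
    simp [perm]
  | mul u w hu hw =>
    simp only [map_mul, MulOpposite.unop_mul, Equiv.Perm.mul_apply]
    rw [hu h k, hu h 1, hw, hw (h * π u) (1 * _)]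
    simp [mul_assoc]

lemma P_mul (h : G) (u w : FreeGroup S) : P π β h (u * w) = P π β h u * P π β (h * π u) w := by
  conv_lhs => unfold P
  simp only [map_mul, MulOpposite.unop_mul, Equiv.Perm.mul_apply, Φ_apply, one_mul]

lemma P_of (h : G) (s : S) : P π β h (of s) = β h s := by simp [P, Φ, perm]

lemma P_one (h : G) : P π β h 1 = 1 := by simp [P]

lemma P_inv (h : G) (w : FreeGroup S) : P π β (h * π w) w⁻¹ = (P π β h w)⁻¹ := by
  have := P_mul π β h w w⁻¹
  rw [mul_inv_cancel, P_one] at this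
  exact eq_inv_of_mul_eq_one_right this.symm

end sc

lemma sc (surj : Function.Surjective π)
    (hker : ∀ w, π w = 1 ↔ ∃ l : List (FreeGroup S × Γ.Cyc), fprod Γ.cw l = w)
    (H : Type) [Group H] (p : Vx Γ G → Vx Γ G → H)
    (hp : ∀ u v w, T Γ π u v w → p u v * p v w = p u w) :
    ∃ s : Vx Γ G → H, ∀ u v, E Γ π u v → p u v = (s u)⁻¹ * s v := by
  have hc : ∀ q : Γ.Cyc, π (mk (Γ.cw q)) = 1 := fun q => (hker _).mpr ⟨[(1, q)], by simp⟩
  let β : G → S → H := fun h s => p (h, .inl ()) (h * π (of s), .inl ())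
  let τ : G → Γ.V → H := fun g x => p (g, .inr (.inr (cp Γ x))) (g, .inr (.inl x)) *
    p (g, .inr (.inl x)) (g * a Γ π x, .inl ())
  have hβ : ∀ g x y s, Γ.nxt x (s, true) = some y →
      p (g, .inr (.inl x)) (g * a Γ π x, .inl ()) * β (g * a Γ π x) s =
        p (g, .inr (.inl x)) (g * a Γ π y, .inl ()) := fun g x y s e => by
    have := hp _ _ _ (.t3 g _ _ x y s e rfl rfl)
    simp only [β]
    rw [mul_assoc g, ← a_nxt hc e, this]
  have hτ : ∀ g x y s, Γ.nxt x (s, true) = some y → τ g x * β (g * a Γ π x) s = τ g y := by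
    intro g x y s e
    have e' : cp Γ x = cp Γ y := cp_run Γ (w := [(s, true)]) (by simpa using e)
    simp only [τ]
    rw [mul_assoc, hβ g x y s e, ← hp _ _ _ (.t2 g _ x y s e rfl), ← mul_assoc,
      hp _ _ _ (.t1 g _ x y s e rfl), e']
  have hrun : ∀ g (w : List (S × Bool)) x y, Γ.run x w = some y →
      τ g x * P π β (g * a Γ π x) (mk w) = τ g y := by
    intro g w
    induction w with
    | nil => intro x y h; simp at h; subst h; rw [← one_eq_mk, P_one, mul_one]
    | cons d w ih =>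
      intro x y h
      obtain ⟨z, h1, h2⟩ := Γ.run_cons_eq_some.mp h
      have ha := a_run hc (w := [d]) (x := x) (y := z) (by simpa using h1)
      rw [← List.singleton_append, ← mul_mk, P_mul, ← mul_assoc, mul_assoc g, ← ha, ← ih z y h2]
      congr 1
      obtain ⟨s, _ | _⟩ := d
      · have h3 := hτ g z x s (Γ.symm _ _ _ h1)
        have e1 : (mk [(s, false)] : FreeGroup S) = (of s)⁻¹ := mk_inv_letter (s, true)
        have e2 : g * a Γ π x = g * a Γ π z * π (of s) := by rw [ha, e1]; simp [mul_assoc]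
        rw [e1, e2, P_inv, P_of, ← h3, mul_inv_cancel_right]
      · rw [← hτ g x z s h1]; exact congrArg _ (P_of π β _ s)
  have hcyc : ∀ (q : Γ.Cyc) h, P π β h (mk (Γ.cw q)) = 1 := fun q h => by
    have := hrun (h * (a Γ π q.1.1)⁻¹) _ _ _ q.2
    rw [inv_mul_cancel_right] at this
    exact mul_eq_left.mp this
  have hfp : ∀ (l : List (FreeGroup S × Γ.Cyc)) h, P π β h (fprod Γ.cw l) = 1 := by
    intro l
    induction l with
    | nil => intro h; exact P_one π β h
    | cons q l ih =>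
      intro h
      rw [fprod_cons, P_mul, ih, P_mul, P_mul, hcyc, map_mul, hc, mul_one, mul_one, mul_one,
        P_inv, mul_inv_cancel]
  choose t ht using surj
  let so : G → H := fun h => P π β 1 (t h)
  have hso : ∀ h w, so (h * π w) = so h * P π β h w := fun h w => by
    obtain ⟨l, hl⟩ := (hker (t (h * π w) * (t h * w)⁻¹)).mp (by simp [ht])
    have : t (h * π w) = fprod Γ.cw l * (t h * w) := by rw [hl]; group
    simp only [so]
    rw [this, P_mul, hfp, (hker _).mpr ⟨l, rfl⟩, P_mul, ht]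
    simp
  have hoo : ∀ h s, so (h * π (of s)) = so h * β h s := fun h s => by rw [hso, P_of]
  refine ⟨fun v => match v with
    | (h, .inl _) => so h
    | (g, .inr (.inl x)) => so (g * a Γ π x) * (p (g, .inr (.inl x)) (g * a Γ π x, .inl ()))⁻¹
    | (g, .inr (.inr κ)) => so (g * a Γ π κ.out) * (τ g κ.out)⁻¹, ?_⟩
  intro u v h
  cases h with
  | cm g κ x e =>
    subst e
    have h1 := hrun g _ _ _ (run_wd Γ x)
    have h2 := a_run hc (run_wd Γ x)
    simp only
    rw [h2, ← mul_assoc g, hso, mul_assoc g, ← h2, eq_inv_mul_iff_mul_eq.mpr h1]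
    simp only [τ]; group
  | mm g x y s e =>
    simp only
    rw [a_nxt hc e, ← mul_assoc g, hoo, mul_assoc g, ← a_nxt hc e,
      eq_inv_mul_iff_mul_eq.mpr (hβ g x y s e), ← hp _ _ _ (.t2 g _ x y s e rfl)]
    group
  | mo g h x e => subst e; simp only; group
  | mo' g h x y s e e' =>
    subst e'
    simp only
    rw [← hβ g x y s e, a_nxt hc e, ← mul_assoc g, hoo]
    group
  | oo h h' s e => subst e; simp only; rw [hoo]; simp [β]

/-! ### Vanishing of the second cohomology -/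

/-- the reverse of a closed walk -/
def rev (q : Γ.Cyc) : Γ.Cyc := ⟨(q.1.1, invRev q.1.2), Γ.run_invRev q.2⟩

lemma exists_inv (hc : ∀ q : Γ.Cyc, π (mk (Γ.cw q)) = 1) (l : List (FreeGroup S × Γ.Cyc)) :
    ∃ l', fprod Γ.cw l' = (fprod Γ.cw l)⁻¹ ∧
      fchain (wrep π Γ) (Γ.cch π) l' = - fchain (wrep π Γ) (Γ.cch π) l := by
  induction l with
  | nil => exact ⟨[], by simp, by simp⟩
  | cons q l ih =>
    obtain ⟨l', h1, h2⟩ := ih
    refine ⟨l' ++ [(q.1, rev q.2)], ?_, ?_⟩
    · have : mk (Γ.cw (rev q.2)) = (mk (Γ.cw q.2))⁻¹ := by rw [inv_mk]; rfl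
      simp [h1, this, mul_assoc]
    · have : Γ.cch π (rev q.2) = - Γ.cch π q.2 := by
        have := wch_invRev π Γ (h := 1) q.2.2
        rw [show π (mk q.2.1.2) = 1 from hc q.2, mul_one] at this
        exact this
      simp [h2, this]

lemma exists_conj (w : FreeGroup S) (l : List (FreeGroup S × Γ.Cyc)) :
    ∃ l', fprod Γ.cw l' = w * fprod Γ.cw l * w⁻¹ ∧
      fchain (wrep π Γ) (Γ.cch π) l' = wrep π Γ w (fchain (wrep π Γ) (Γ.cch π) l) := by
  induction l with
  | nil => exact ⟨[], by simp, by simp⟩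
  | cons q l ih =>
    obtain ⟨l', h1, h2⟩ := ih
    refine ⟨(w * q.1, q.2) :: l', ?_, ?_⟩
    · simp [h1, mul_assoc]
    · simp [h2]

lemma exists_zeta (hker : ∀ w, π w = 1 ↔ ∃ l : List (FreeGroup S × Γ.Cyc), fprod Γ.cw l = w)
    (asph : ∀ l : List (FreeGroup S × Γ.Cyc), fprod Γ.cw l = 1 →
      fchain (wrep π Γ) (Γ.cch π) l = 0) :
    ∃ ζ : FreeGroup S → (G × Γ.V × S →₀ ℤ),
      (∀ n n', π n = 1 → π n' = 1 → ζ (n * n') = ζ n + ζ n') ∧
      ∀ w (q : Γ.Cyc), ζ (w * mk (Γ.cw q) * w⁻¹) = wch π Γ (π w) q.1.1 q.1.2 := by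
  classical
  have hc : ∀ q : Γ.Cyc, π (mk (Γ.cw q)) = 1 := fun q => (hker _).mpr ⟨[(1, q)], by simp⟩
  let ζ : FreeGroup S → (G × Γ.V × S →₀ ℤ) := fun n =>
    if h : ∃ l : List (FreeGroup S × Γ.Cyc), fprod Γ.cw l = n then
      fchain (wrep π Γ) (Γ.cch π) h.choose else 0
  have hζ : ∀ l, ζ (fprod Γ.cw l) = fchain (wrep π Γ) (Γ.cch π) l := fun l => by
    have h : ∃ l' : List (FreeGroup S × Γ.Cyc), fprod Γ.cw l' = fprod Γ.cw l := ⟨l, rfl⟩
    simp only [ζ, dif_pos h]
    obtain ⟨l', h1, h2⟩ := exists_inv hc l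
    have := asph (h.choose ++ l') (by rw [fprod_append, h.choose_spec, h1, mul_inv_cancel])
    rw [fchain_append, h2] at this
    exact add_neg_eq_zero.mp this
  refine ⟨ζ, fun n n' hn hn' => ?_, fun w q => ?_⟩
  · obtain ⟨l, rfl⟩ := (hker n).mp hn
    obtain ⟨l', rfl⟩ := (hker n').mp hn'
    rw [← fprod_append, hζ, hζ, hζ, fchain_append]
  · have := hζ [(w, q)]
    simp only [fprod_cons, fprod_nil, mul_one, fchain_cons, fchain_nil, add_zero] at this
    rw [this, LG.cch, wrep_wch, mul_one]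

lemma cob [DecidableEq S] (surj : Function.Surjective π)
    (hker : ∀ w, π w = 1 ↔ ∃ l : List (FreeGroup S × Γ.Cyc), fprod Γ.cw l = w)
    (h2 : ∀ w : FreeGroup S, w.norm ≤ 2 → π w = 1 → w = 1)
    (asph : ∀ l : List (FreeGroup S × Γ.Cyc), fprod Γ.cw l = 1 →
      fchain (wrep π Γ) (Γ.cch π) l = 0)
    (A : Type) [AddCommGroup A] (c : Vx Γ G → Vx Γ G → Vx Γ G → A) :
    ∃ u : Vx Γ G → Vx Γ G → A, ∀ v w z, T Γ π v w z → u v w + u w z - u v z = c v w z := by
  classical
  have hc : ∀ q : Γ.Cyc, π (mk (Γ.cw q)) = 1 := fun q => (hker _).mpr ⟨[(1, q)], by simp⟩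
  obtain ⟨ζ, hζ1, hζ2⟩ := exists_zeta hker asph
  have hinj : ∀ s s', π (of s) = π (of s') → s = s' := fun s s' h => by
    have := h2 (of s * (of s')⁻¹) ((FreeGroup.norm_mul_le _ _).trans (by simp)) (by simp [h])
    exact FreeGroup.of_injective (mul_inv_eq_one.mp this)
  have hne : ∀ s, π (of s) ≠ 1 := fun s h =>
    FreeGroup.of_ne_one s (h2 _ (by simp) h)
  choose t ht using surj
  let sec : G → FreeGroup S := fun g => if h : ∃ s, g = π (of s) then of h.choose else 1
  have hsec : ∀ s, sec (π (of s)) = of s := fun s => by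
    have h : ∃ s', π (of s) = π (of s') := ⟨s, rfl⟩
    simp only [sec, dif_pos h]
    rw [← hinj _ _ h.choose_spec]
  let κ : G → Γ.V → Γ.V → A := fun g x y =>
    c (g, .inr (.inr (cp Γ x))) (g, .inr (.inl x)) (g, .inr (.inl y)) -
    c (g, .inr (.inl x)) (g, .inr (.inl y)) (g * a Γ π y, .inl ()) +
    c (g, .inr (.inl x)) (g * a Γ π x, .inl ()) (g * a Γ π y, .inl ())
  let C : (G × Γ.V × S →₀ ℤ) →ₗ[ℤ] A := Finsupp.linearCombination ℤ fun q =>
    κ (q.1 * (a Γ π q.2.1)⁻¹) q.2.1 ((Γ.nxt q.2.1 (q.2.2, true)).getD q.2.1)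
  let β : G → G → A := fun h h' => C (ζ (t h * sec (h⁻¹ * h') * (t h')⁻¹))
  let μ : G → Γ.V → A := fun g x => C (ζ (t g * mk (wd Γ x) * (t (g * a Γ π x))⁻¹)) -
    C (wch π Γ g (cp Γ x).out (wd Γ x))
  have hμ : ∀ g x y s, Γ.nxt x (s, true) = some y →
      μ g y - μ g x = β (g * a Γ π x) (g * a Γ π y) - κ g x y := by
    intro g x y s e
    have er : Γ.run x [(s, true)] = some y := by simpa using e
    have ea := a_nxt hc e
    have ecp := cp_run Γ er
    have e1 : (g * a Γ π x)⁻¹ * (g * a Γ π y) = π (of s) := by rw [ea]; group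
    have e2 := hζ1 (t g * mk (wd Γ x) * (t (g * a Γ π x))⁻¹)
      (t (g * a Γ π x) * of s * (t (g * a Γ π y))⁻¹) (by simp [ht, a]) (by simp [ht, ea, mul_assoc])
    have e3 := hζ1 (t g * mk (Γ.cw (cyc Γ er)) * (t g)⁻¹)
      (t g * mk (wd Γ y) * (t (g * a Γ π y))⁻¹) (by simp [hc]) (by simp [ht, a])
    have e4 : t g * mk (wd Γ x) * (t (g * a Γ π x))⁻¹ *
        (t (g * a Γ π x) * of s * (t (g * a Γ π y))⁻¹) =
        t g * mk (Γ.cw (cyc Γ er)) * (t g)⁻¹ * (t g * mk (wd Γ y) * (t (g * a Γ π y))⁻¹) := by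
      rw [mk_cyc, show mk [(s, true)] = of s from rfl]; group
    rw [e4, e3, hζ2, ht] at e2
    have e5 : wch π Γ g (cyc Γ er).1.1 (cyc Γ er).1.2 = wch π Γ g (cp Γ x).out (wd Γ x) +
        (Finsupp.single (g * a Γ π x, x, s) 1 - wch π Γ g (cp Γ y).out (wd Γ y)) := by
      show wch π Γ g (cp Γ x).out (wd Γ x ++ ((s, true) :: invRev (wd Γ y))) = _
      rw [wch_append π Γ _ (run_wd Γ x), wch_cons π Γ _ e]
      have : g * π (mk (wd Γ x)) * π (mk [(s, true)]) = g * π (mk (wd Γ y)) := by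
        rw [mul_assoc]; exact congrArg _ ea.symm
      rw [this, wch_invRev π Γ (run_wd Γ y), sub_eq_add_neg]
      rfl
    have e6 : C (Finsupp.single (g * a Γ π x, x, s) 1) = κ g x y := by
      simp [C, e]
    have e7 := congrArg C e2
    rw [e5] at e7
    simp only [map_add, map_sub, e6] at e7
    simp only [μ, β, e1, hsec]
    linear_combination (norm := abel) e7
  refine ⟨fun v w => match v, w with
    | (g, .inr (.inl x)), (g', .inr (.inl y)) =>
        c (g, .inr (.inr (cp Γ x))) (g, .inr (.inl x)) (g', .inr (.inl y))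
    | (g, .inr (.inl x)), (h, .inl _) => if h = g * a Γ π x then μ g x else
        μ g x + β (g * a Γ π x) h - c (g, .inr (.inl x)) (g * a Γ π x, .inl ()) (h, .inl ())
    | (h, .inl _), (h', .inl _) => β h h'
    | _, _ => 0, ?_⟩
  have hxy : ∀ (g : G) x y s, Γ.nxt x (s, true) = some y → g * a Γ π y ≠ g * a Γ π x := by
    intro g x y s e h
    rw [a_nxt hc e, mul_left_cancel_iff, mul_eq_left] at h
    exact hne s h
  intro v w z h
  cases h with
  | t1 g k x y s e e' => subst e'; simp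
  | t2 g h x y s e e' =>
    subst e'
    have := hμ g x y s e
    simp only [if_true, if_neg (hxy g x y s e)]
    simp only [κ] at this
    linear_combination (norm := abel) this
  | t3 g h h' x y s e e' e'' =>
    subst e' e''
    simp only [if_true, if_neg (hxy g x y s e)]
    abel

end Osc

/-- (K) ZD/Osc.lean ; v2: `Γ` need not be connected (one cone vertex type per component) -/
theorem exists_osc {S G : Type} [Finite S] [DecidableEq S] [Group G] (Γ : LG S) [Finite Γ.V]
    (hg : Γ.Girth 3)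
    (π : FreeGroup S →* G) (surj : Function.Surjective π)
    (hker : ∀ w, π w = 1 ↔ ∃ l : List (FreeGroup S × Γ.Cyc), fprod Γ.cw l = w)
    (h2 : ∀ w : FreeGroup S, w.norm ≤ 2 → π w = 1 → w = 1)
    (asph : ∀ l : List (FreeGroup S × Γ.Cyc), fprod Γ.cw l = 1 →
      fchain (wrep π Γ) (Γ.cch π) l = 0) : Nonempty (OSC G) := by
  have hc : ∀ q : Γ.Cyc, π (mk (Γ.cw q)) = 1 := fun q => (hker _).mpr ⟨[(1, q)], by simp⟩
  refine ⟨{
    V := Osc.Vx Γ G
    act := Osc.act Γ
    E := Osc.E Γ π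
    T := Osc.T Γ π
    asymm := Osc.asymm hg h2
    T_E := Osc.T_E hc
    E_smul := ?_
    T_smul := ?_
    free := fun g v h => mul_eq_right.mp (congrArg Prod.fst h)
    lf := Osc.lf
    cofin := ⟨{1} ×ˢ Set.univ, (Set.finite_singleton _).prod Set.finite_univ,
      fun v => ⟨v.1⁻¹, inv_mul_cancel _, trivial⟩⟩
    o := (1, .inl ())
    conn := Osc.conn surj
    sc := Osc.sc surj hker
    cob := Osc.cob surj hker h2 asph }⟩
  · intro g v w h
    cases h with
    | cm g' κ x e => exact .cm _ _ _ e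
    | mm g' x y s e => exact .mm _ _ _ s e
    | mo g' h x e => exact .mo _ _ _ (by rw [e]; exact (mul_assoc _ _ _).symm)
    | mo' g' h x y s e e' => exact .mo' _ _ _ _ s e (by rw [e']; exact (mul_assoc _ _ _).symm)
    | oo h h' s e => exact .oo _ _ s (by rw [e]; exact (mul_assoc _ _ _).symm)
  · intro g u v w h
    cases h with
    | t1 g' κ x y s e e' => exact .t1 _ _ _ _ s e e'
    | t2 g' h x y s e e' => exact .t2 _ _ _ _ s e (by rw [e']; exact (mul_assoc _ _ _).symm)
    | t3 g' h h' x y s e e' e'' =>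
      exact .t3 _ _ _ _ _ s e (by rw [e']; exact (mul_assoc _ _ _).symm)
        (by rw [e'']; exact (mul_assoc _ _ _).symm)

end Crest.Agent.ZD
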