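import Crest.Agent.ZD.PatCount0

set_option autoImplicit false
set_option maxHeartbeats 400000

namespace Crest.Agent.ZD

open Finset (univ)

/-- abstract combinatorial data extracted from a system of pieces -/
structure AD (X Z : Type) [Fintype X] [Fintype Z] [DecidableEq X] [DecidableEq Z] (x₀ : X)
    (J c₀ bd : ℕ) where
  α : Type
  fin : Fintype α
  dec : DecidableEq α
  sg : α → Bool
  ex : α → X
  ez : α → Z
  nx : α → Option α
  nx_inj : ∀ a a' b, nx a = some b → nx a' = some b → a = a'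
  nx_sg : ∀ a b, nx a = some b → sg b = !sg a
  nx_t : ∀ a b, nx a = some b → sg a = true → ez b = ez a ∧ ex b ≠ ex a
  nx_f : ∀ a b, nx a = some b → sg a = false → ex b = ex a ∧ ez b ≠ ez a
  nx_none : ∀ a, nx a = none → sg a = false
  pred_none : ∀ b, (∀ a, nx a ≠ some b) → sg b = true ∧ ex b = x₀
  mult_le : ∀ z, (univ.filter fun a => sg a = true ∧ ez a = z).card ≤ J
  deg_le : ∀ z, (univ.filter fun x => ∃ a, ex a = x ∧ ez a = z).card ≤ 4
  IX : Finset X
  IZ : Finset Z
  IX_le : IX.card ≤ c₀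
  IZ_le : IZ.card ≤ c₀
  regZ : ∀ a a' b b', ez a ∉ IZ → sg a = true → sg a' = true → ez a' = ez a → nx a = some b →
    nx a' = some b' → (ex a' = ex a ∧ ex b' = ex b) ∨ (ex a' = ex b ∧ ex b' = ex a)
  regX : ∀ a, ex a ∉ IX → ∃ a', ex a' = ex a ∧ ez a' ≠ ez a
  regXZ : ∀ a a', ex a ∉ IX → ex a' = ex a → ez a ∉ IZ → ez a' ∉ IZ →
    (univ.filter fun b => sg b = true ∧ ez b = ez a).card =
      (univ.filter fun b => sg b = true ∧ ez b = ez a').card
  Gd : Finset α
  pt : α → α
  lk : α → α → Prop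
  Gd_pt : ∀ a ∈ Gd, pt a ∈ Gd ∧ pt (pt a) = a ∧ ez (pt a) ≠ ez a
  Gd_sg : ∀ a ∈ Gd, sg a = true
  Gd_lk : ∀ a ∈ Gd, ∀ b, nx a = some b → ∃ a' b', lk a a' ∧ lk b b' ∧ ez a' = ez (pt a) ∧
    ez b' = ez (pt a)
  nGd : (univ.filter fun a => sg a = true ∧ a ∉ Gd).card ≤ bd + J

namespace AD
variable {X Z : Type} [Fintype X] [Fintype Z] [DecidableEq X] [DecidableEq Z] {x₀ : X}
  {J c₀ bd : ℕ} (A : AD X Z x₀ J c₀ bd)

instance : Fintype A.α := A.fin
instance : DecidableEq A.α := A.dec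

/-- number of corners at `z` -/
def mult (z : Z) : ℕ := (univ.filter fun a => A.sg a = true ∧ A.ez a = z).card

/-- the edge is used -/
def Used (x : X) (z : Z) : Prop := ∃ a, A.ex a = x ∧ A.ez a = z

/-- rank of a vertex -/
noncomputable def rk (z : Z) : ℕ := (J - A.mult z) * Fintype.card Z + (Fintype.equivFin Z z).1

/-- constrained vertices -/
def Con (z : Z) : Prop := z ∉ A.IZ ∧ ∃ a ∈ A.Gd, A.ez a = z ∧ A.rk (A.ez (A.pt a)) < A.rk z

/-- some chain has a start -/
def HasStart : Prop := ∃ b, ∀ a, A.nx a ≠ some b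

lemma mult_le' (z : Z) : A.mult z ≤ J := A.mult_le z

lemma rk_inj {z z' : Z} (h : A.rk z = A.rk z') : z = z' := by
  have h1 := congrArg (· % Fintype.card Z) h
  simp only [rk, Nat.mul_add_mod_of_lt (Fintype.equivFin Z _).2] at h1
  exact (Fintype.equivFin Z).injective (Fin.ext h1)

lemma mult_le_of_rk {z z' : Z} (h : A.rk z' < A.rk z) : A.mult z ≤ A.mult z' := by
  by_contra hh
  have h1 : J - A.mult z + 1 ≤ J - A.mult z' := by
    have : A.mult z ≤ J := A.mult_le z
    omega
  have h2 := Nat.mul_le_mul_right (Fintype.card Z) h1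
  have h3 := (Fintype.equivFin Z z).2
  simp only [rk] at h
  rw [add_mul, one_mul] at h2
  omega

lemma exists_nx {a : A.α} (h : A.sg a = true) : ∃ b, A.nx a = some b := by
  cases hb : A.nx a with
  | none => rw [A.nx_none a hb] at h; cases h
  | some b => exact ⟨b, rfl⟩

lemma exists_pred {b : A.α} (h : A.sg b = false) : ∃ a, A.nx a = some b ∧ A.sg a = true := by
  by_contra hh
  have : ∀ a, A.nx a ≠ some b := by
    intro a ha
    refine hh ⟨a, ha, ?_⟩
    have := A.nx_sg a b ha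
    rw [h] at this
    cases hs : A.sg a
    · rw [hs] at this; cases this
    · rfl
  rw [(A.pred_none b this).1] at h; cases h

/-- every used edge lies in a corner -/
lemma exists_corner (a : A.α) : ∃ c b, A.sg c = true ∧ A.nx c = some b ∧ (a = c ∨ a = b) := by
  cases h : A.sg a with
  | true => obtain ⟨b, hb⟩ := A.exists_nx h; exact ⟨a, b, h, hb, Or.inl rfl⟩
  | false => obtain ⟨c, hc, hs⟩ := A.exists_pred h; exact ⟨c, a, hs, hc, Or.inr rfl⟩

lemma used_reg {c b : A.α} (hz : A.ez c ∉ A.IZ) (hs : A.sg c = true) (hb : A.nx c = some b)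
    {x : X} (h : A.Used x (A.ez c)) : x = A.ex c ∨ x = A.ex b := by
  obtain ⟨a, rfl, ha⟩ := h
  obtain ⟨c', b', hs', hb', h⟩ := A.exists_corner a
  have e : A.ez c' = A.ez c := by
    rcases h with rfl | rfl
    · exact ha
    · rw [← ha, (A.nx_t _ _ hb' hs').1]
  rcases A.regZ c c' b b' hz hs hs' e hb hb' with h' | h' <;> rcases h with rfl | rfl <;> tauto

open Classical in
/-- the patterns -/
noncomputable def pat (cx : X → Fin 4) (cz : Z → Fin 4) (k : ℕ) : Pat where
  PX := {x : X // ∃ z, A.Used x z ∧ k < A.mult z}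
  PZ := {z : Z // k < A.mult z}
  Ed := {e : X × Z // A.Used e.1 e.2 ∧ k < A.mult e.2}
  finX := inferInstance
  finZ := inferInstance
  finE := inferInstance
  ex := fun e => ⟨e.1.1, e.1.2, e.2⟩
  ez := fun e => ⟨e.1.2, e.2.2⟩
  inj := fun e e' h h' => Subtype.ext (Prod.ext (congrArg Subtype.val h) (congrArg Subtype.val h'))
  ex_surj := fun x => by
    obtain ⟨x, z, h⟩ := x
    exact ⟨⟨(x, z), h⟩, rfl⟩
  ez_surj := fun z => by
    obtain ⟨a, ha⟩ := Finset.card_pos.1 (lt_of_le_of_lt (Nat.zero_le _) z.2)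
    have h := (Finset.mem_filter.1 ha).2.2
    exact ⟨⟨(A.ex a, z.1), ⟨a, rfl, h⟩, z.2⟩, rfl⟩
  deg_le := fun z => by
    refine le_trans ?_ (A.deg_le z.1)
    rw [← Set.ncard_coe_finset]
    refine Set.ncard_le_ncard_of_injOn (fun e => e.1.1) ?_ ?_
    · intro e he
      have h : e.1.2 = z.1 := congrArg Subtype.val he
      simp only [Finset.coe_filter, Finset.mem_univ, true_and, Set.mem_setOf_eq]
      rw [← h]; exact e.2.1
    · intro e he e' he' h
      have h1 : e.1.2 = z.1 := congrArg Subtype.val he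
      have h2 : e'.1.2 = z.1 := congrArg Subtype.val he'
      exact Subtype.ext (Prod.ext h (h1.trans h2.symm))
  root := {x | A.HasStart ∧ x.1 = x₀}
  link := fun e e' => ∃ a a', A.lk a a' ∧ e.1 = (A.ex a, A.ez a) ∧ e'.1 = (A.ex a', A.ez a')
  rank := fun z => A.rk z.1
  con := {z | A.Con z.1}
  con_link := fun e he => by
    obtain ⟨hz, c, hc, hcz, hr⟩ := he
    have hcz : A.ez c = e.1.2 := hcz
    have hz : e.1.2 ∉ A.IZ := hz
    have hr : A.rk (A.ez (A.pt c)) < A.rk e.1.2 := hr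
    have hs := A.Gd_sg c hc
    obtain ⟨b, hb⟩ := A.exists_nx hs
    obtain ⟨a', b', l1, l2, e1, e2⟩ := A.Gd_lk c hc b hb
    have hm : k < A.mult (A.ez (A.pt c)) := lt_of_lt_of_le e.2.2 (A.mult_le_of_rk hr)
    rcases A.used_reg (hcz ▸ hz) hs hb (hcz ▸ e.2.1) with h | h
    · refine ⟨⟨(A.ex a', A.ez a'), ⟨a', rfl, rfl⟩, e1 ▸ hm⟩,
        ⟨c, a', l1, Prod.ext h hcz.symm, rfl⟩, ?_⟩
      show A.rk (A.ez a') < A.rk e.1.2
      rwa [e1]
    · refine ⟨⟨(A.ex b', A.ez b'), ⟨b', rfl, rfl⟩, e2 ▸ hm⟩,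
        ⟨b, b', l2, Prod.ext h (hcz.symm.trans (A.nx_t _ _ hb hs).1.symm), rfl⟩, ?_⟩
      show A.rk (A.ez b') < A.rk e.1.2
      rwa [e2]
  px := fun x => cx x.1
  pz := fun z => cz z.1

end AD

lemma sum_fin_lt_card {β : Type} (s : Finset β) (f : β → ℕ) (J : ℕ) (h : ∀ b ∈ s, f b ≤ J) :
    ∑ k : Fin J, (s.filter fun b => k.1 < f b).card = ∑ b ∈ s, f b := by
  simp only [Finset.card_filter]
  rw [Finset.sum_comm]
  refine Finset.sum_congr rfl fun b hb => ?_
  rw [Fin.sum_univ_eq_sum_range (fun k => if k < f b then 1 else 0) J, ← Finset.card_filter]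
  have : (Finset.range J).filter (fun k => k < f b) = Finset.range (f b) := by
    ext k; simp only [Finset.mem_filter, Finset.mem_range]
    have := h b hb
    omega
  rw [this, Finset.card_range]

lemma ncard_subtype_eq {β : Type} [Fintype β] (p : β → Prop) (s : Set {b // p b})
    (t : Finset β) (h : ∀ b, b ∈ t ↔ ∃ hb : p b, (⟨b, hb⟩ : {b // p b}) ∈ s) :
    s.ncard = t.card := by
  rw [← Set.ncard_coe_finset, ← Set.ncard_image_of_injective s Subtype.val_injective]
  congr 1
  ext b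
  simp only [Set.mem_image, Finset.mem_coe, h, Subtype.exists, exists_and_right, exists_eq_right]

lemma natcard_subtype_eq {β : Type} [Fintype β] (p : β → Prop)
    (t : Finset β) (h : ∀ b, b ∈ t ↔ p b) : Nat.card {b // p b} = t.card := by
  rw [← Set.ncard_univ]
  exact ncard_subtype_eq p _ t (by simpa using h)

namespace AD
variable {X Z : Type} [Fintype X] [Fintype Z] [DecidableEq X] [DecidableEq Z] {x₀ : X}
  {J c₀ bd : ℕ} (A : AD X Z x₀ J c₀ bd) (cx : X → Fin 4) (cz : Z → Fin 4)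

open Classical in
/-- used edges -/
noncomputable def UE : Finset (X × Z) := univ.filter fun e => A.Used e.1 e.2

open Classical in
/-- the largest multiplicity of a neighbour -/
noncomputable def mx (x : X) : ℕ := (univ.filter fun z => A.Used x z).sup A.mult

lemma lt_mx {x : X} {k : ℕ} : k < A.mx x ↔ ∃ z, A.Used x z ∧ k < A.mult z := by
  simp [mx, Finset.lt_sup_iff]

lemma sum_nZ : ∑ k : Fin J, (A.pat cx cz k).nZ = (univ.filter fun a => A.sg a = true).card := by
  have : ∀ k : Fin J, (A.pat cx cz k).nZ = (univ.filter fun z => k.1 < A.mult z).card :=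
    fun k => natcard_subtype_eq _ _ (by simp)
  rw [Finset.sum_congr rfl fun k _ => this k, sum_fin_lt_card _ _ _ fun z _ => A.mult_le' z,
    Finset.card_eq_sum_card_fiberwise (f := A.ez) (t := univ) (fun _ _ => Finset.mem_univ _)]
  refine Finset.sum_congr rfl fun z _ => ?_
  rw [Finset.filter_filter]; rfl

lemma sum_nE : ∑ k : Fin J, (A.pat cx cz k).nE = ∑ e ∈ A.UE, A.mult e.2 := by
  have : ∀ k : Fin J, (A.pat cx cz k).nE = (A.UE.filter fun e => k.1 < A.mult e.2).card :=
    fun k => natcard_subtype_eq _ _ (by simp [UE])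
  rw [Finset.sum_congr rfl fun k _ => this k, sum_fin_lt_card _ _ _ fun e _ => A.mult_le e.2]

open Classical in
lemma sum_nX : ∑ k : Fin J, (A.pat cx cz k).nX =
    ∑ x ∈ univ.filter fun x => ¬ (A.HasStart ∧ x = x₀), A.mx x := by
  have : ∀ k : Fin J, (A.pat cx cz k).nX =
      ((univ.filter fun x => ¬ (A.HasStart ∧ x = x₀)).filter fun x => k.1 < A.mx x).card := by
    intro k
    refine ncard_subtype_eq _ _ _ fun x => ?_
    simp only [Finset.mem_filter, Finset.mem_univ, true_and, lt_mx]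
    exact ⟨fun h => ⟨h.2, h.1⟩, fun ⟨h1, h2⟩ => ⟨h2, h1⟩⟩
  rw [Finset.sum_congr rfl fun k _ => this k, sum_fin_lt_card]
  intro x _
  exact Finset.sup_le fun z _ => A.mult_le z

open Classical in
lemma sum_nF : ∑ k : Fin J, (A.pat cx cz k).nF =
    (univ.filter fun a => A.sg a = true ∧ ¬ A.Con (A.ez a)).card := by
  have : ∀ k : Fin J, (A.pat cx cz k).nF =
      ((univ.filter fun z => ¬ A.Con z).filter fun z => k.1 < A.mult z).card := by
    intro k
    refine ncard_subtype_eq _ _ _ fun x => ?_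
    simp only [Finset.mem_filter, Finset.mem_univ, true_and]
    exact ⟨fun h => ⟨h.2, h.1⟩, fun ⟨h1, h2⟩ => ⟨h2, h1⟩⟩
  rw [Finset.sum_congr rfl fun k _ => this k, sum_fin_lt_card _ _ _ fun z _ => A.mult_le' z,
    Finset.card_eq_sum_card_fiberwise (f := A.ez) (t := univ.filter fun z => ¬ A.Con z)
      (fun a ha => by
        simp only [Finset.coe_filter, Finset.mem_univ, true_and, Set.mem_setOf_eq] at ha ⊢
        exact ha.2)]
  refine Finset.sum_congr rfl fun z hz => ?_
  rw [Finset.filter_filter, mult]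
  congr 1
  ext a
  simp only [Finset.mem_filter, Finset.mem_univ, true_and] at hz ⊢
  constructor
  · rintro ⟨h1, rfl⟩; exact ⟨⟨h1, hz⟩, rfl⟩
  · rintro ⟨h1, h2⟩; exact ⟨h1.1, h2⟩

/-- successor, made total -/
def nxt (a : A.α) : A.α := (A.nx a).getD a

lemma nxt_eq {a b : A.α} (h : A.nx a = some b) : A.nxt a = b := by simp [nxt, h]

lemma card_tf : (univ.filter fun a => A.sg a = true).card =
    (univ.filter fun a => A.sg a = false).card := by
  refine Finset.card_bij (fun a _ => A.nxt a) ?_ ?_ ?_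
  · intro a ha
    have hs := (Finset.mem_filter.1 ha).2
    obtain ⟨b, hb⟩ := A.exists_nx hs
    simp [A.nxt_eq hb, A.nx_sg _ _ hb, hs]
  · intro a ha a' ha' h
    obtain ⟨b, hb⟩ := A.exists_nx (Finset.mem_filter.1 ha).2
    obtain ⟨b', hb'⟩ := A.exists_nx (Finset.mem_filter.1 ha').2
    rw [A.nxt_eq hb, A.nxt_eq hb'] at h
    exact A.nx_inj _ _ _ hb (h ▸ hb')
  · intro b hb
    obtain ⟨a, ha, hs⟩ := A.exists_pred (Finset.mem_filter.1 hb).2
    exact ⟨a, by simp [hs], A.nxt_eq ha⟩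

lemma two_card_t : 2 * (univ.filter fun a => A.sg a = true).card = Fintype.card A.α := by
  have := Finset.card_filter_add_card_filter_not (s := (univ : Finset A.α))
    (fun a => A.sg a = true)
  simp only [Bool.not_eq_true, Finset.card_univ] at this
  rw [← this, ← A.card_tf]; ring

lemma ends_eq_starts : (univ.filter fun a => A.nx a = none).card =
    (univ.filter fun b => ∀ a, A.nx a ≠ some b).card := by
  classical
  have h1 := Finset.card_filter_add_card_filter_not (s := (univ : Finset A.α))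
    (fun a => A.nx a = none)
  have h2 := Finset.card_filter_add_card_filter_not (s := (univ : Finset A.α))
    (fun b => ∀ a, A.nx a ≠ some b)
  have h3 : (univ.filter fun a => ¬ A.nx a = none).card =
      (univ.filter fun b => ¬ ∀ a, A.nx a ≠ some b).card := by
    refine Finset.card_bij (fun a _ => A.nxt a) ?_ ?_ ?_
    · intro a ha
      obtain ⟨b, hb⟩ := Option.ne_none_iff_exists'.1 (Finset.mem_filter.1 ha).2
      simp only [Finset.mem_filter, Finset.mem_univ, true_and, A.nxt_eq hb]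
      exact fun h => h a hb
    · intro a ha a' ha' h
      obtain ⟨b, hb⟩ := Option.ne_none_iff_exists'.1 (Finset.mem_filter.1 ha).2
      obtain ⟨b', hb'⟩ := Option.ne_none_iff_exists'.1 (Finset.mem_filter.1 ha').2
      rw [A.nxt_eq hb, A.nxt_eq hb'] at h
      exact A.nx_inj _ _ _ hb (h ▸ hb')
    · intro b hb
      have := (Finset.mem_filter.1 hb).2
      push Not at this
      obtain ⟨a, ha⟩ := this
      exact ⟨a, by simp [ha], A.nxt_eq ha⟩
  convert (by omega : (univ.filter fun a => A.nx a = none).card =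
    (univ.filter fun b => ∀ a, A.nx a ≠ some b).card)

/-- number of positions on an edge -/
def pm (e : X × Z) : ℕ := (univ.filter fun a => A.ex a = e.1 ∧ A.ez a = e.2).card

lemma exists_cor : ∃ cor : A.α → A.α, ∀ a, A.sg (cor a) = true ∧ A.ez (cor a) = A.ez a ∧
    (cor a = a ∨ A.nx (cor a) = some a) := by
  have : ∀ a, ∃ c, A.sg c = true ∧ A.ez c = A.ez a ∧ (c = a ∨ A.nx c = some a) := by
    intro a
    obtain ⟨c, b, hs, hb, h | h⟩ := A.exists_corner a
    · exact ⟨c, hs, by rw [h], Or.inl h.symm⟩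
    · exact ⟨c, hs, by rw [h, (A.nx_t _ _ hb hs).1], Or.inr (h ▸ hb)⟩
  choose cor h using this
  exact ⟨cor, h⟩

lemma pm_le (e : X × Z) : A.pm e ≤ A.mult e.2 := by
  obtain ⟨cor, hc⟩ := A.exists_cor
  refine Finset.card_le_card_of_injOn cor ?_ ?_
  · intro a ha
    simp only [Finset.coe_filter, Finset.mem_univ, true_and, Set.mem_setOf_eq] at ha ⊢
    exact ⟨(hc a).1, (hc a).2.1.trans ha.2⟩
  · intro a ha a' ha' h
    simp only [Finset.coe_filter, Finset.mem_univ, true_and, Set.mem_setOf_eq] at ha ha'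
    have hx : A.ex a = A.ex a' := ha.1.trans ha'.1.symm
    rcases (hc a).2.2 with h1 | h1 <;> rcases (hc a').2.2 with h2 | h2
    · rw [← h1, ← h2, h]
    · rw [← h, h1] at h2
      exact absurd hx.symm (A.nx_t _ _ h2 (h1 ▸ (hc a).1)).2
    · rw [h, h2] at h1
      exact absurd hx (A.nx_t _ _ h1 (h2 ▸ (hc a').1)).2
    · rw [h, h2] at h1; exact (Option.some.inj h1).symm

lemma two_pm_le (e : X × Z) (hx : ¬ (A.HasStart ∧ e.1 = x₀)) :
    2 * A.pm e ≤ (univ.filter fun a => A.ex a = e.1).card +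
      (univ.filter fun a => A.nx a = none ∧ A.ex a = e.1).card := by
  classical
  have hp : ∀ a, A.sg a = true → A.ex a = e.1 → ∃ p, A.nx p = some a := by
    intro a _ ha
    by_contra hh
    push Not at hh
    exact hx ⟨⟨a, hh⟩, ha.symm.trans (A.pred_none a hh).2⟩
  choose! pr hpr using hp
  have h1 : (univ.filter fun a => (A.ex a = e.1 ∧ A.ez a = e.2) ∧ A.sg a = true).card ≤
      (univ.filter fun a => (A.ex a = e.1 ∧ A.ez a ≠ e.2) ∧ A.sg a = false).card := by
    refine Finset.card_le_card_of_injOn pr ?_ ?_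
    · intro a ha
      simp only [Finset.coe_filter, Finset.mem_univ, true_and, Set.mem_setOf_eq] at ha ⊢
      have h := hpr a ha.2 ha.1.1
      have hs : A.sg (pr a) = false := by
        have := A.nx_sg _ _ h
        rw [ha.2] at this
        cases hs : A.sg (pr a)
        · rfl
        · rw [hs] at this; cases this
      obtain ⟨e1, e2⟩ := A.nx_f _ _ h hs
      exact ⟨⟨e1 ▸ ha.1.1, fun h' => e2 (ha.1.2.trans h'.symm)⟩, hs⟩
    · intro a ha a' ha' h
      simp only [Finset.coe_filter, Finset.mem_univ, true_and, Set.mem_setOf_eq] at ha ha'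
      have h1 := hpr a ha.2 ha.1.1
      rw [h, hpr a' ha'.2 ha'.1.1] at h1
      exact (Option.some.inj h1).symm
  have h2 : (univ.filter fun a => ((A.ex a = e.1 ∧ A.ez a = e.2) ∧ ¬ A.sg a = true) ∧
      ¬ A.nx a = none).card ≤
      (univ.filter fun a => (A.ex a = e.1 ∧ A.ez a ≠ e.2) ∧ ¬ A.sg a = false).card := by
    refine Finset.card_le_card_of_injOn A.nxt ?_ ?_
    · intro a ha
      simp only [Finset.coe_filter, Finset.mem_univ, true_and, Set.mem_setOf_eq,
        Bool.not_eq_true] at ha ⊢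
      obtain ⟨b, hb⟩ := Option.ne_none_iff_exists'.1 ha.2
      obtain ⟨e1, e2⟩ := A.nx_f _ _ hb ha.1.2
      rw [A.nxt_eq hb, A.nx_sg _ _ hb, ha.1.2]
      exact ⟨⟨e1.trans ha.1.1.1, fun h' => e2 (h'.trans ha.1.1.2.symm)⟩, by simp⟩
    · intro a ha a' ha' h
      simp only [Finset.coe_filter, Finset.mem_univ, true_and, Set.mem_setOf_eq] at ha ha'
      obtain ⟨b, hb⟩ := Option.ne_none_iff_exists'.1 ha.2
      obtain ⟨b', hb'⟩ := Option.ne_none_iff_exists'.1 ha'.2
      rw [A.nxt_eq hb, A.nxt_eq hb'] at h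
      exact A.nx_inj _ _ _ hb (h ▸ hb')
  have h3 : (univ.filter fun a => ((A.ex a = e.1 ∧ A.ez a = e.2) ∧ ¬ A.sg a = true) ∧
      A.nx a = none).card ≤ (univ.filter fun a => A.nx a = none ∧ A.ex a = e.1).card :=
    Finset.card_le_card fun a ha => by
      simp only [Finset.mem_filter, Finset.mem_univ, true_and] at ha ⊢
      exact ⟨ha.2, ha.1.1.1⟩
  have s1 := Finset.card_filter_add_card_filter_not
    (s := univ.filter fun a => A.ex a = e.1 ∧ A.ez a = e.2) (fun a => A.sg a = true)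
  have s2 := Finset.card_filter_add_card_filter_not
    (s := univ.filter fun a => (A.ex a = e.1 ∧ A.ez a = e.2) ∧ ¬ A.sg a = true)
    (fun a => A.nx a = none)
  have s3 := Finset.card_filter_add_card_filter_not
    (s := univ.filter fun a => A.ex a = e.1 ∧ A.ez a ≠ e.2) (fun a => A.sg a = false)
  have s4 := Finset.card_filter_add_card_filter_not
    (s := univ.filter fun a => A.ex a = e.1) (fun a => A.ez a = e.2)
  simp only [Finset.filter_filter] at s1 s2 s3 s4
  unfold pm
  simp only [ne_eq] at *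
  omega

lemma sum_pm : ∑ e ∈ A.UE, A.pm e = Fintype.card A.α := by
  rw [← Finset.card_univ, Finset.card_eq_sum_card_fiberwise (f := fun a => (A.ex a, A.ez a))
    (t := A.UE) (fun a _ => by
      simp only [UE, Finset.coe_filter, Finset.mem_univ, true_and, Set.mem_setOf_eq]
      exact ⟨a, rfl, rfl⟩)]
  refine Finset.sum_congr rfl fun e _ => ?_
  unfold pm
  congr 1
  ext a
  simp [Prod.ext_iff]

open Classical in
lemma chi : ∑ x ∈ univ.filter fun x => ¬ (A.HasStart ∧ x = x₀), A.mx x +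
    (univ.filter fun a => A.sg a = true).card ≤ ∑ e ∈ A.UE, A.mult e.2 := by
  set T := univ.filter fun x => ¬ (A.HasStart ∧ x = x₀) with hT
  let ps : X → ℕ := fun x => (univ.filter fun a => A.ex a = x).card
  let en : X → ℕ := fun x => (univ.filter fun a => A.nx a = none ∧ A.ex a = x).card
  let df : X → ℕ := fun x => ∑ e ∈ A.UE.filter fun e => e.1 = x, (A.mult e.2 - A.pm e)
  have h1 : ∀ x ∈ T, 2 * A.mx x ≤ ps x + en x + 2 * df x := by
    intro x hx
    rcases (univ.filter fun z => A.Used x z).eq_empty_or_nonempty with h0 | h0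
    · simp [mx, h0]
    obtain ⟨z, hz, he⟩ := Finset.exists_mem_eq_sup _ h0 A.mult
    have a1 := A.two_pm_le (x, z) (Finset.mem_filter.1 hx).2
    have a2 : A.mult z - A.pm (x, z) ≤ df x :=
      Finset.single_le_sum (f := fun e : X × Z => A.mult e.2 - A.pm e) (a := (x, z))
        (fun _ _ => Nat.zero_le _) (by simpa [UE] using hz)
    have a3 : A.mx x = A.mult z := he
    simp only [ps, en] at *
    omega
  have h2 : ∑ x, ps x = Fintype.card A.α := by
    rw [← Finset.card_univ, Finset.card_eq_sum_card_fiberwise (f := A.ex) (t := univ)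
      (fun _ _ => Finset.mem_univ _)]
  have h3 : ∑ x, en x = (univ.filter fun a => A.nx a = none).card := by
    rw [Finset.card_eq_sum_card_fiberwise (f := A.ex) (t := univ) (fun _ _ => Finset.mem_univ _)]
    simp only [Finset.filter_filter, en]
  have h4 : ∑ x, df x + Fintype.card A.α = ∑ e ∈ A.UE, A.mult e.2 := by
    rw [← A.sum_pm, Finset.sum_fiberwise_of_maps_to (g := Prod.fst) (fun _ _ => Finset.mem_univ _),
      ← Finset.sum_add_distrib]
    exact Finset.sum_congr rfl fun e _ => Nat.sub_add_cancel (A.pm_le e)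
  have h5 : ∑ x ∈ T, ps x + (univ.filter fun a => A.nx a = none).card ≤ Fintype.card A.α := by
    rw [A.ends_eq_starts, ← h2]
    by_cases hs : A.HasStart
    · have e : T = univ.erase x₀ := by ext x; simp [hT, hs]
      rw [e, ← Finset.sum_erase_add _ _ (Finset.mem_univ x₀)]
      refine Nat.add_le_add_left (Finset.card_le_card fun b hb => ?_) _
      simp only [Finset.mem_filter, Finset.mem_univ, true_and] at hb ⊢
      exact (A.pred_none b hb).2
    · have : (univ.filter fun b => ∀ a, A.nx a ≠ some b) = ∅ :=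
        Finset.filter_eq_empty_iff.2 fun b _ hb => hs ⟨b, hb⟩
      rw [this, Finset.card_empty, add_zero]
      exact Finset.sum_le_sum_of_subset (Finset.subset_univ _)
  have h6 := Finset.sum_le_sum h1
  rw [← Finset.mul_sum, Finset.sum_add_distrib, Finset.sum_add_distrib, ← Finset.mul_sum] at h6
  have h7 : ∑ x ∈ T, en x ≤ ∑ x, en x := Finset.sum_le_sum_of_subset (Finset.subset_univ _)
  have h8 : ∑ x ∈ T, df x ≤ ∑ x, df x := Finset.sum_le_sum_of_subset (Finset.subset_univ _)
  have h9 := A.two_card_t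
  omega

lemma two_nZ_le : 2 * (univ.filter fun a => A.sg a = true).card ≤ ∑ e ∈ A.UE, A.mult e.2 := by
  rw [A.two_card_t, ← A.sum_pm]
  exact Finset.sum_le_sum fun e _ => A.pm_le e

open Classical in
lemma nF_le : 2 * (univ.filter fun a => A.sg a = true ∧ ¬ A.Con (A.ez a)).card ≤
    (univ.filter fun a => A.sg a = true).card + bd + (J + 2 * (c₀ * J)) := by
  set N1 := A.Gd.filter fun a => A.ez a ∉ A.IZ ∧ ¬ A.Con (A.ez a) with hN1
  have h1 : 2 * N1.card ≤ A.Gd.card := by
    have hlt : ∀ a ∈ N1, A.rk (A.ez a) < A.rk (A.ez (A.pt a)) := by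
      intro a ha
      obtain ⟨hG, hI, hC⟩ := Finset.mem_filter.1 ha
      rcases lt_trichotomy (A.rk (A.ez a)) (A.rk (A.ez (A.pt a))) with h | h | h
      · exact h
      · exact absurd (A.rk_inj h).symm (A.Gd_pt a hG).2.2
      · exact absurd ⟨hI, a, hG, rfl, h⟩ hC
    have : N1.card ≤ (A.Gd \ N1).card := by
      refine Finset.card_le_card_of_injOn A.pt ?_ ?_
      · intro a ha
        have hG := (Finset.mem_filter.1 ha).1
        refine Finset.mem_coe.2 (Finset.mem_sdiff.2 ⟨(A.Gd_pt a hG).1, fun h => ?_⟩)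
        have a1 := hlt a ha
        have a2 := hlt _ h
        rw [(A.Gd_pt a hG).2.1] at a2
        omega
      · intro a ha a' ha' h
        rw [← (A.Gd_pt a (Finset.mem_filter.1 ha).1).2.1, h,
          (A.Gd_pt a' (Finset.mem_filter.1 ha').1).2.1]
    have h2 := Finset.card_sdiff_add_card_eq_card (Finset.filter_subset
      (fun a => A.ez a ∉ A.IZ ∧ ¬ A.Con (A.ez a)) A.Gd)
    rw [← hN1] at h2
    omega
  have h2 : (univ.filter fun a => A.sg a = true ∧ A.ez a ∈ A.IZ).card ≤ c₀ * J := by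
    refine le_trans (Finset.card_le_mul_card_image_of_maps_to (f := A.ez) (t := A.IZ)
      (fun a ha => (Finset.mem_filter.1 ha).2.2) J fun z _ => ?_) ?_
    · refine le_trans (Finset.card_le_card fun a ha => ?_) (A.mult_le z)
      simp only [Finset.mem_filter, Finset.mem_univ, true_and] at ha ⊢
      exact ⟨ha.1.1, ha.2⟩
    · rw [mul_comm]; exact Nat.mul_le_mul_right _ A.IZ_le
  have h3 : (univ.filter fun a => A.sg a = true ∧ ¬ A.Con (A.ez a)).card ≤ N1.card +
      (univ.filter fun a => A.sg a = true ∧ A.ez a ∈ A.IZ).card +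
      (univ.filter fun a => A.sg a = true ∧ a ∉ A.Gd).card := by
    refine le_trans (Finset.card_le_card fun a ha => ?_) ((Finset.card_union_le _ _).trans
      (Nat.add_le_add_right (Finset.card_union_le _ _) _))
    simp only [hN1, Finset.mem_filter, Finset.mem_univ, true_and, Finset.mem_union] at ha ⊢
    tauto
  have h4 : A.Gd.card + (univ.filter fun a => A.sg a = true ∧ a ∉ A.Gd).card =
      (univ.filter fun a => A.sg a = true).card := by
    have := Finset.card_filter_add_card_filter_not (s := univ.filter fun a => A.sg a = true)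
      (fun a => a ∈ A.Gd)
    rw [← this, Finset.filter_filter, Finset.filter_filter]
    congr 2
    ext a
    simp only [Finset.mem_filter, Finset.mem_univ, true_and]
    exact ⟨fun h => ⟨A.Gd_sg a h, h⟩, fun h => h.2⟩
  have h5 := A.nGd
  omega

lemma nB_le (k : ℕ) : (A.pat cx cz k).nB ≤ c₀ := by
  refine le_trans ?_ A.IZ_le
  rw [Pat.nB, ← Set.ncard_coe_finset]
  refine Set.ncard_le_ncard_of_injOn Subtype.val ?_ Subtype.val_injective.injOn
  rintro ⟨z, hz⟩ h
  by_contra hI
  apply h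
  obtain ⟨c, hc⟩ := Finset.card_pos.1 (lt_of_le_of_lt (Nat.zero_le _) hz)
  obtain ⟨hs, rfl⟩ := (Finset.mem_filter.1 hc).2
  obtain ⟨b, hb⟩ := A.exists_nx hs
  obtain ⟨e1, e2⟩ := A.nx_t _ _ hb hs
  refine Set.ncard_eq_two.2 ⟨⟨(A.ex c, A.ez c), ⟨c, rfl, rfl⟩, hz⟩,
    ⟨(A.ex b, A.ez c), ⟨b, rfl, e1⟩, hz⟩, fun h => e2 ?_, ?_⟩
  · exact (congrArg (fun e => e.1.1) h).symm
  · ext ⟨⟨x, z⟩, hu, hm⟩
    constructor
    · intro h
      obtain rfl : z = A.ez c := congrArg Subtype.val h
      rcases A.used_reg hI hs hb hu with rfl | rfl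
      · exact Or.inl rfl
      · exact Or.inr rfl
    · rintro (h | h)
      · exact Subtype.ext (congrArg (fun e => e.1.2) h)
      · exact Subtype.ext (congrArg (fun e => e.1.2) h)

open Classical in
lemma nL_le (k : ℕ) : (A.pat cx cz k).nL ≤ 5 * c₀ := by
  let W : Finset X := A.IX ∪ A.IZ.biUnion fun z => univ.filter fun x => ∃ a, A.ex a = x ∧ A.ez a = z
  have hW : W.card ≤ 5 * c₀ := by
    have a1 := A.IX_le
    have a2 := A.IZ_le
    have a3 := Finset.card_biUnion_le_card_mul A.IZ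
      (fun z => univ.filter fun x => ∃ a, A.ex a = x ∧ A.ez a = z) 4 fun z _ => A.deg_le z
    refine (Finset.card_union_le _ _).trans ?_
    omega
  refine le_trans ?_ hW
  rw [Pat.nL, ← Set.ncard_coe_finset]
  refine Set.ncard_le_ncard_of_injOn Subtype.val ?_ Subtype.val_injective.injOn
  rintro ⟨x, z, ⟨a, rfl, rfl⟩, hm⟩ ⟨-, h⟩
  by_contra hI
  simp only [W, Finset.coe_union, Set.mem_union, Finset.mem_coe, Finset.mem_biUnion,
    Finset.mem_filter, Finset.mem_univ, true_and, not_or, not_exists, not_and] at hI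
  obtain ⟨a', e1, e2⟩ := A.regX a hI.1
  have hm' : A.mult (A.ez a) = A.mult (A.ez a') :=
    A.regXZ a a' hI.1 e1 (fun h => hI.2 _ h a rfl rfl) (fun h => hI.2 _ h a' e1 rfl)
  refine absurd h (not_le.2 ((Set.one_lt_ncard_iff (Set.toFinite _)).2
    ⟨⟨(A.ex a, A.ez a), ⟨a, rfl, rfl⟩, hm⟩, ⟨(A.ex a, A.ez a'), ⟨a', e1, rfl⟩, hm' ▸ hm⟩,
      rfl, rfl, fun h => e2 ?_⟩))
  exact (congrArg (fun e => e.1.2) h).symm

lemma nE_le (k : ℕ) : (A.pat cx cz k).nE ≤ Fintype.card A.α := by
  rw [Pat.nE, ← Nat.card_eq_fintype_card]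
  refine Nat.card_le_card_of_injective (fun e => e.2.1.choose) fun e e' h => Subtype.ext ?_
  have h1 := e.2.1.choose_spec
  have h2 := e'.2.1.choose_spec
  simp only at h
  rw [h] at h1
  exact Prod.ext (h1.1.symm.trans h2.1) (h1.2.symm.trans h2.2)

lemma occurs {Pt : Type} [Fintype Pt] [DecidableEq Pt] {k Np R : ℕ} (M : Model Pt k Np R)
    (y₀ : M.X) (σ : M.Conf) (fx : X → M.X) (fz : Z → M.Z) (la : A.α → Pt)
    (hx : ∀ a a', fx (A.ex a) = fx (A.ex a') → A.ex a = A.ex a')
    (hz : ∀ a a', fz (A.ez a) = fz (A.ez a') → A.ez a = A.ez a')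
    (hH : ∀ a, M.Has σ (la a, fx (A.ex a), fz (A.ez a)))
    (hu : ∀ p q x z, M.Has σ (p, x, z) → M.Has σ (q, x, z) → p = q)
    (hl : ∀ a a', A.lk a a' → la a = la a') (hr : A.HasStart → fx x₀ = y₀)
    (hcx : ∀ a, M.cx (fx (A.ex a)) = cx (A.ex a)) (hcz : ∀ a, M.cz (fz (A.ez a)) = cz (A.ez a))
    (j : ℕ) : (A.pat cx cz j).Occurs M y₀ σ := by
  have hZ : ∀ z : (A.pat cx cz j).PZ, ∃ a, A.ez a = z.1 := by
    intro z
    obtain ⟨a, ha⟩ := Finset.card_pos.1 (lt_of_le_of_lt (Nat.zero_le _) z.2)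
    exact ⟨a, (Finset.mem_filter.1 ha).2.2⟩
  have hE : ∀ e : (A.pat cx cz j).Ed, M.Has σ (la e.2.1.choose, fx e.1.1, fz e.1.2) := by
    intro e
    have h1 := e.2.1.choose_spec
    have := hH e.2.1.choose
    rwa [h1.1, h1.2] at this
  refine ⟨fun x => fx x.1, fun z => fz z.1, fun e => la e.2.1.choose, ?_, ?_, hE, ?_, ?_, ?_, ?_⟩
  · rintro ⟨_, _, ⟨a, rfl, rfl⟩, _⟩ ⟨_, _, ⟨a', rfl, rfl⟩, _⟩ h
    exact Subtype.ext (hx a a' h)
  · intro z z' h
    obtain ⟨a, ha⟩ := hZ z
    obtain ⟨a', ha'⟩ := hZ z'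
    simp only [← ha, ← ha'] at h
    exact Subtype.ext (ha.symm.trans ((hz a a' h).trans ha'))
  · rintro x ⟨h1, h2⟩
    show fx x.1 = y₀
    rw [h2, hr h1]
  · rintro e e' ⟨a, a', h, h1, h2⟩
    have a1 := hE e
    have a2 := hE e'
    have b1 : M.Has σ (la a, fx e.1.1, fz e.1.2) := by rw [h1]; exact hH a
    have b2 : M.Has σ (la a', fx e'.1.1, fz e'.1.2) := by rw [h2]; exact hH a'
    exact (hu _ _ _ _ a1 b1).trans ((hl a a' h).trans (hu _ _ _ _ b2 a2))
  · rintro ⟨_, _, ⟨a, rfl, rfl⟩, _⟩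
    exact hcx a
  · intro z
    obtain ⟨a, ha⟩ := hZ z
    show M.cz (fz z.1) = cz z.1
    rw [← ha]; exact hcz a

end AD

end Crest.Agent.ZD
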