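import Crest.Agent.ZD.Walk

set_option autoImplicit false
set_option maxHeartbeats 400000

namespace Crest.Agent.ZD

open Finset (univ)

/-- relations which are diagonal or antidiagonal intervals -/
def IntRel (n : ℕ) (C : ℕ → ℕ → Prop) : Prop :=
  (∀ k l, C k l → k ≤ n ∧ l ≤ n) ∧ ∀ k₀ l₀ k₁ l₁, k₀ ≤ k₁ → C k₀ l₀ → C k₁ l₁ →
    (l₁ = l₀ + (k₁ - k₀) ∧ ∀ t, t ≤ k₁ - k₀ → C (k₀ + t) (l₀ + t)) ∨
      (l₀ = l₁ + (k₁ - k₀) ∧ ∀ t, t ≤ k₁ - k₀ → C (k₀ + t) (l₀ - t))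

/-- decoding -/
def decRel (n : ℕ) : Option (Fin (n + 1) × Fin (n + 1) × Fin (n + 1) × Fin (n + 1)) → ℕ → ℕ → Prop
  | none => fun _ _ => False
  | some (k₀, l₀, k₁, l₁) => fun k l => k₀.1 ≤ k ∧ k ≤ k₁.1 ∧
      if l₀.1 ≤ l₁.1 then l = l₀.1 + (k - k₀.1) else l + (k - k₀.1) = l₀.1

lemma IntRel.exists_dec {n : ℕ} {C : ℕ → ℕ → Prop} (h : IntRel n C) : ∃ c, decRel n c = C := by
  classical
  by_cases hC : ∃ k l, C k l
  · have hb : ∃ k, (∃ l, C k l) ∧ ∀ k' l', C k' l' → k' ≤ k := by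
      obtain ⟨k, l, hkl⟩ := hC
      have := Nat.findGreatest_spec (P := fun k => ∃ l, C k l) (h.1 k l hkl).1 ⟨l, hkl⟩
      exact ⟨_, this, fun k' l' h' => Nat.le_findGreatest (h.1 k' l' h').1 ⟨l', h'⟩⟩
    obtain ⟨k₁, ⟨l₁, h₁⟩, hmax⟩ := hb
    obtain ⟨l₀, h₀⟩ := Nat.find_spec hC
    have hmin : ∀ k' l', C k' l' → Nat.find hC ≤ k' := fun k' l' h' => Nat.find_min' hC ⟨l', h'⟩
    set k₀ := Nat.find hC
    have huniq : ∀ k l l', C k l → C k l' → l = l' := by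
      intro k l l' a b
      rcases h.2 k l k l' le_rfl a b with c | c <;> omega
    refine ⟨some (⟨k₀, Nat.lt_succ_of_le (h.1 _ _ h₀).1⟩, ⟨l₀, Nat.lt_succ_of_le (h.1 _ _ h₀).2⟩,
      ⟨k₁, Nat.lt_succ_of_le (h.1 _ _ h₁).1⟩, ⟨l₁, Nat.lt_succ_of_le (h.1 _ _ h₁).2⟩), ?_⟩
    have hk := hmin _ _ h₁
    funext k l
    apply propext
    simp only [decRel]
    rcases h.2 k₀ l₀ k₁ l₁ hk h₀ h₁ with ⟨e, c⟩ | ⟨e, c⟩
    · rw [if_pos (by omega)]
      constructor
      · rintro ⟨a, b, rfl⟩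
        have := c (k - k₀) (by omega)
        rwa [show k₀ + (k - k₀) = k by omega] at this
      · intro a
        have a1 := hmin _ _ a
        have a2 := hmax _ _ a
        have := c (k - k₀) (by omega)
        rw [show k₀ + (k - k₀) = k by omega] at this
        exact ⟨a1, a2, huniq _ _ _ a this⟩
    · constructor
      · rintro ⟨a, b, d⟩
        have := c (k - k₀) (by omega)
        rw [show k₀ + (k - k₀) = k by omega] at this
        have e' : l = l₀ - (k - k₀) := by split_ifs at d <;> omega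
        rwa [e']
      · intro a
        have a1 := hmin _ _ a
        have a2 := hmax _ _ a
        have := c (k - k₀) (by omega)
        rw [show k₀ + (k - k₀) = k by omega] at this
        have e' := huniq _ _ _ a this
        refine ⟨a1, a2, ?_⟩
        split_ifs <;> omega
  · refine ⟨none, ?_⟩
    funext k l
    exact propext ⟨fun h => h.elim, fun h => hC ⟨k, l, h⟩⟩

lemma IntRel.inj {n : ℕ} {C C' : ℕ → ℕ → Prop} (h : IntRel n C) (h' : IntRel n C')
    (e : Function.invFun (decRel n) C = Function.invFun (decRel n) C') : C = C' := by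
  rw [← Function.invFun_eq h.exists_dec, ← Function.invFun_eq h'.exists_dec, e]

/-- coincidences of two pieces -/
def LG.Pieces.coin {S : Type} {Γ : LG S} {U : Set Γ.V} {x₀ : Γ.V} {ι : Type}
    (P : Γ.Pieces U x₀ ι) (i j : ι) (k l : ℕ) : Prop :=
  k ≤ (P.wd i).length ∧ l ≤ (P.wd j).length ∧
    Γ.run (P.st i) ((P.wd i).take k) = Γ.run (P.st j) ((P.wd j).take l)

lemma LG.Pieces.coin_int {S : Type} {Γ : LG S} {U : Set Γ.V} {x₀ : Γ.V} {ι : Type}
    (P : Γ.Pieces U x₀ ι) {g : ℕ} (hg : Γ.Girth g) (hl : ∀ i, 2 * (P.wd i).length < g)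
    (i j : ι) : IntRel g (P.coin i j) := by
  have a := hl i
  have b := hl j
  refine ⟨fun k l h => ⟨by have := h.1; omega, by have := h.2.1; omega⟩, ?_⟩
  rintro k₀ l₀ k₁ l₁ hk ⟨a0, b0, c0⟩ ⟨a1, b1, c1⟩
  rcases hg.interval Γ (P.run i) (P.run j) (P.red i) (P.red j) (by omega) hk a1 b0 b1 c0 c1 with
    ⟨e, -, c⟩ | ⟨e, -, c⟩
  · exact Or.inl ⟨e, fun t ht => ⟨by omega, by omega, c t ht⟩⟩
  · exact Or.inr ⟨e, fun t ht => ⟨by omega, by omega, c t ht⟩⟩

/-- (P5) ZD/Shape.lean -/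
theorem shape_code (j : ℕ) : ∃ c : ℕ, ∀ (Pt : Type) [Fintype Pt] [DecidableEq Pt] (k Np R g : ℕ)
    (M : Model Pt k Np R) (x₀ : M.X), ∃ (T : Type) (_ : Fintype T)
    (code : ∀ σ : M.Conf, (M.graph σ).Pieces M.UX (Sum.inl x₀) (Fin j) → T),
      Fintype.card T ≤ (g + 2) ^ c ∧ ∀ σ ∈ M.GS g, ∀ σ' ∈ M.GS g, ∀ P P',
        (∀ i, 2 * (P.wd i).length < g) → (∀ i, 2 * (P'.wd i).length < g) →
        code σ P = code σ' P' → SameShape P P' ∧ ∀ i, M.col (P.st i) = M.col (P'.st i) := by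
  refine ⟨(j + j + 1 + 1 + 2 + 4 * j) * j, fun Pt _ _ k Np R g M x₀ => ?_⟩
  refine ⟨Fin j → Option (Fin j) × Option (Fin j) × Fin (g + 1) × Bool × Fin 4 ×
      (Fin j → Option (Fin (g + 1) × Fin (g + 1) × Fin (g + 1) × Fin (g + 1))), inferInstance,
    fun σ P i => (P.sc i, P.mu i, ⟨min (P.wd i).length g, Nat.lt_succ_of_le (min_le_right _ _)⟩,
      (P.st i).isLeft, M.col (P.st i), fun i' => Function.invFun (decRel g) (P.coin i i')), ?_, ?_⟩
  · rw [Fintype.card_fun, Fintype.card_fin, pow_mul]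
    refine Nat.pow_le_pow_left ?_ _
    simp only [Fintype.card_prod, Fintype.card_option, Fintype.card_fin, Fintype.card_bool,
      Fintype.card_fun]
    have h1 : j + 1 ≤ (g + 2) ^ j :=
      (Nat.succ_le_of_lt Nat.lt_two_pow_self).trans (Nat.pow_le_pow_left (by omega) _)
    have h2 : ((g + 1) * ((g + 1) * ((g + 1) * (g + 1))) + 1) ^ j ≤ (g + 2) ^ (4 * j) := by
      rw [pow_mul]
      exact Nat.pow_le_pow_left (by nlinarith [Nat.zero_le g, Nat.zero_le (g ^ 2), Nat.zero_le (g ^ 3)]) _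
    have h3 : 4 ≤ (g + 2) ^ 2 := by nlinarith [Nat.zero_le g, Nat.zero_le (g ^ 2)]
    calc _ ≤ (g + 2) ^ j * ((g + 2) ^ j * ((g + 2) * ((g + 2) * ((g + 2) ^ 2 *
          (g + 2) ^ (4 * j))))) := by gcongr <;> omega
      _ = _ := by ring
  · intro σ hσ σ' hσ' P P' hl hl' he
    have hg := (M.mem_GS.1 hσ).1
    have hg' := (M.mem_GS.1 hσ').1
    have hi := fun i => congrFun he i
    simp only [Prod.mk.injEq, Fin.mk.injEq] at hi
    have hlen : ∀ i, (P.wd i).length = (P'.wd i).length := by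
      intro i
      have := (hi i).2.2.1
      have a := hl i
      have b := hl' i
      omega
    refine ⟨⟨funext fun i => (hi i).1, funext fun i => (hi i).2.1, fun i => ?_, ?_⟩,
      fun i => (hi i).2.2.2.2.1⟩
    · rw [M.signs (P.run i), M.signs (P'.run i), hlen i, (hi i).2.2.2.1]
    · intro i k' i' l hk hl''
      have := IntRel.inj (P.coin_int hg hl i i') (P'.coin_int hg' hl' i i')
        (congrFun (hi i).2.2.2.2.2 i')
      have e := congrFun (congrFun this k') l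
      simp only [LG.Pieces.coin, eq_iff_iff] at e
      constructor
      · intro h; exact (e.1 ⟨hk, hl'', h⟩).2.2
      · intro h; exact (e.2 ⟨hlen i ▸ hk, hlen i' ▸ hl'', h⟩).2.2

end Crest.Agent.ZD
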