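import Crest.Agent.ZD.CoreA
import Crest.Agent.ZD.Shape

set_option autoImplicit false
set_option maxHeartbeats 400000

namespace Crest.Agent.ZD

open FreeGroup (invRev IsReduced)
open Finset (univ)

namespace LG.Pieces
variable {S : Type} {Γ : LG S} {U : Set Γ.V} {x₀ : Γ.V} {ι : Type} (P : Γ.Pieces U x₀ ι)

/-- vertex number `t` of piece `i` -/
def vt (i : ι) (t : ℕ) : Γ.V := (Γ.run (P.st i) ((P.wd i).take t)).getD (P.st i)

lemma vt_spec (i : ι) (t : ℕ) : Γ.run (P.st i) ((P.wd i).take t) = some (P.vt i t) := by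
  obtain ⟨z, hz, -⟩ := Γ.run_take (P.run i) t
  simp [vt, hz]

lemma vt_zero (i : ι) : P.vt i 0 = P.st i := by simp [vt]

lemma vt_len (i : ι) : P.vt i (P.wd i).length = P.en i := by simp [vt, P.run i]

lemma vt_drop (i : ι) (t : ℕ) : Γ.run (P.vt i t) ((P.wd i).drop t) = some (P.en i) := by
  obtain ⟨z, hz, h⟩ := Γ.run_take (P.run i) t
  rw [P.vt_spec] at hz
  rwa [Option.some.inj hz]

lemma vt_step (i : ι) {t : ℕ} (h : t < (P.wd i).length) :
    Γ.nxt (P.vt i t) (P.wd i)[t] = some (P.vt i (t + 1)) := by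
  have := P.vt_spec i (t + 1)
  rwa [← List.take_append_getElem h, Γ.run_append, P.vt_spec, Option.bind_some,
    Γ.run_singleton] at this

lemma len_pos (i : ι) : 0 < (P.wd i).length := List.length_pos_iff.2 (P.ne i)

lemma coin_iff {i j : ι} {t l : ℕ} : P.coin i j t l ↔
    t ≤ (P.wd i).length ∧ l ≤ (P.wd j).length ∧ P.vt i t = P.vt j l := by
  simp [coin, vt_spec]

/-- positions -/
abbrev Pos : Type := Σ i : ι, Fin (P.wd i).length

/-- the letter at a position -/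
def lt (a : P.Pos) : S × Bool := (P.wd a.1)[a.2.1]

/-- the successor of a position -/
def nx (a : P.Pos) : Option P.Pos :=
  if h : a.2.1 + 1 < (P.wd a.1).length then some ⟨a.1, ⟨a.2.1 + 1, h⟩⟩
  else (P.sc a.1).map fun k => ⟨k, ⟨0, P.len_pos k⟩⟩

lemma pos_ext {a b : P.Pos} (h1 : a.1 = b.1) (h2 : a.2.1 = b.2.1) : a = b := by
  obtain ⟨i, t, ht⟩ := a
  obtain ⟨j, l, hl⟩ := b
  simp only at h1 h2
  subst h1 h2
  rfl

lemma nx_iff {a b : P.Pos} : P.nx a = some b ↔ (b.1 = a.1 ∧ b.2.1 = a.2.1 + 1) ∨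
    (a.2.1 + 1 = (P.wd a.1).length ∧ P.sc a.1 = some b.1 ∧ b.2.1 = 0) := by
  unfold nx
  split_ifs with h
  · constructor
    · intro e
      obtain rfl := Option.some.inj e
      exact Or.inl ⟨rfl, rfl⟩
    · rintro (e | e)
      · exact congrArg some (P.pos_ext e.1.symm e.2.symm)
      · omega
  · constructor
    · intro e
      obtain ⟨k, hk, rfl⟩ := Option.map_eq_some_iff.1 e
      exact Or.inr ⟨by have := a.2.2; omega, hk, rfl⟩
    · rintro (e | e)
      · obtain ⟨j, l, hl⟩ := b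
        simp only at e
        obtain ⟨rfl, rfl⟩ := e
        exact absurd hl h
      · rw [e.2.1]
        exact congrArg some (P.pos_ext rfl e.2.2.symm)

lemma nx_vt {a b : P.Pos} (h : P.nx a = some b) : P.vt b.1 b.2 = P.vt a.1 (a.2 + 1) := by
  rcases P.nx_iff.1 h with e | e
  · rw [e.2, e.1]
  · rw [e.2.2, e.1, vt_zero, vt_len, (P.sc_st _ _ e.2.1).1]

lemma nx_red {a b : P.Pos} (h : P.nx a = some b) (e : (P.lt a).1 = (P.lt b).1) :
    (P.lt a).2 = (P.lt b).2 := by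
  obtain ⟨i, t, ht⟩ := a
  obtain ⟨j, l, hl⟩ := b
  rcases P.nx_iff.1 h with e' | e'
  · simp only at e'
    obtain ⟨rfl, rfl⟩ := e'
    exact (List.isChain_iff_getElem.1 (P.red j) t hl) e
  · simp only at e'
    obtain ⟨e1, e2, rfl⟩ := e'
    have := List.IsChain.rel_getLast_head_of_append (P.sc_st _ _ e2).2 (P.ne i) (P.ne j)
    rw [List.getLast_eq_getElem, List.head_eq_getElem] at this
    have e3 : (P.wd i).length - 1 = t := by omega
    simp only [e3] at this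
    exact this e

lemma nx_inj {a a' b : P.Pos} (h : P.nx a = some b) (h' : P.nx a' = some b) : a = a' := by
  rcases P.nx_iff.1 h with e | e <;> rcases P.nx_iff.1 h' with e' | e'
  · exact P.pos_ext (e.1.symm.trans e'.1) (by omega)
  · omega
  · omega
  · have := P.sc_inj _ _ _ e.2.1 e'.2.1
    refine P.pos_ext this ?_
    have h1 := e.1
    have h2 := e'.1
    have h3 : (P.wd a.1).length = (P.wd a'.1).length := by rw [this]
    omega

lemma no_pred {b : P.Pos} (h : ∀ a, P.nx a ≠ some b) : b.2.1 = 0 ∧ ∀ i, P.sc i ≠ some b.1 := by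
  have h0 : b.2.1 = 0 := by
    by_contra hh
    exact h ⟨b.1, ⟨b.2.1 - 1, by have := b.2.2; omega⟩⟩ (P.nx_iff.2 (Or.inl ⟨rfl, by simp; omega⟩))
  refine ⟨h0, fun i hi => ?_⟩
  have := P.len_pos i
  exact h ⟨i, ⟨(P.wd i).length - 1, by omega⟩⟩ (P.nx_iff.2 (Or.inr ⟨by simp; omega, hi, h0⟩))

/-- glued positions -/
def lk (a a' : P.Pos) : Prop := P.mu a.1 = some a'.1 ∧ a.2.1 + a'.2.1 + 1 = (P.wd a.1).length

lemma lk_lt {a a' : P.Pos} (h : P.lk a a') : P.lt a' = ((P.lt a).1, !(P.lt a).2) := by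
  obtain ⟨i, t, ht⟩ := a
  obtain ⟨j, l, hl⟩ := a'
  obtain ⟨h1, h2⟩ := h
  simp only at h1 h2
  have e := (P.mu_wd _ _ h1).1
  simp only [lt]
  have : ∀ w (hw : l < w.length), w = invRev (P.wd i) → w[l] = ((P.wd i)[t].1, !(P.wd i)[t].2) := by
    rintro w hw rfl
    simp only [invRev, List.getElem_reverse, List.getElem_map, List.length_map]
    have : (P.wd i).length - 1 - l = t := by omega
    simp only [this]
  exact this _ hl e

lemma mu_len {i j : ι} (h : P.mu i = some j) : (P.wd j).length = (P.wd i).length := by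
  rw [(P.mu_wd _ _ h).1, FreeGroup.invRev_length]

lemma mu_vt_ne {i j : ι} (h : P.mu i = some j) {t l : ℕ} (e : t + l = (P.wd i).length) :
    P.vt j l ≠ P.vt i t := by
  intro he
  have h1 := Γ.run_invRev (P.vt_drop i t)
  have h2 := P.vt_spec j l
  have h3 : (P.wd j).take l = invRev ((P.wd i).drop t) := by
    rw [(P.mu_wd _ _ h).1]
    conv_lhs => rw [← List.take_append_drop t (P.wd i), FreeGroup.invRev_append]
    rw [List.take_left']
    simp; omega
  rw [h3, he] at h2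
  exact (P.mu_wd _ _ h).2 (Γ.run_left_inj h2 h1)

/-- the partner corner -/
def pt (a : P.Pos) : P.Pos :=
  match P.mu a.1 with
  | some j => ⟨j, ⟨(P.wd j).length - 2 - a.2.1, by have := P.len_pos j; omega⟩⟩
  | none => a

lemma pt_eq {a : P.Pos} {j : ι} (h : P.mu a.1 = some j) :
    (P.pt a).1 = j ∧ (P.pt a).2.1 = (P.wd a.1).length - 2 - a.2.1 := by
  have e : P.pt a = ⟨j, ⟨(P.wd j).length - 2 - a.2.1, by have := P.len_pos j; omega⟩⟩ := by
    simp only [pt, h]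
  rw [e]
  exact ⟨rfl, by simp [P.mu_len h]⟩

section girth
variable {g : ℕ} (hg : Γ.Girth g) (hl : ∀ i, 2 * (P.wd i).length < g)
include hg hl

lemma vt_inj {i : ι} {t l : ℕ} (ht : t ≤ (P.wd i).length) (hl' : l ≤ (P.wd i).length)
    (h : P.vt i t = P.vt i l) : t = l := by
  rcases (P.coin_int hg hl i i).2 t t t l le_rfl (P.coin_iff.2 ⟨ht, ht, rfl⟩)
    (P.coin_iff.2 ⟨ht, hl', h⟩) with e | e <;> omega

omit hg hl in
open Classical in
/-- irregular vertices -/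
noncomputable def Irr [Fintype ι] : Finset Γ.V :=
  (univ.image fun q : ι × ι => P.vt q.1 (sInf {t | ∃ l, P.coin q.1 q.2 t l})) ∪
    (univ.image fun q : ι × ι => P.vt q.1 (sSup {t | ∃ l, P.coin q.1 q.2 t l}))

omit hg hl in
lemma Irr_card [Fintype ι] : P.Irr.card ≤ 2 * Fintype.card ι ^ 2 := by
  classical
  refine (Finset.card_union_le _ _).trans ?_
  have h1 := Finset.card_image_le (s := (univ : Finset (ι × ι)))
    (f := fun q : ι × ι => P.vt q.1 (sInf {t | ∃ l, P.coin q.1 q.2 t l}))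
  have h2 := Finset.card_image_le (s := (univ : Finset (ι × ι)))
    (f := fun q : ι × ι => P.vt q.1 (sSup {t | ∃ l, P.coin q.1 q.2 t l}))
  rw [Finset.card_univ, Fintype.card_prod] at h1 h2
  nlinarith

lemma reg_nb [Fintype ι] {i j : ι} {t l : ℕ} (h : P.coin i j t l) (hr : P.vt i t ∉ P.Irr) :
    1 ≤ t ∧ 1 ≤ l ∧ ((P.coin i j (t - 1) (l - 1) ∧ P.coin i j (t + 1) (l + 1)) ∨
      (P.coin i j (t - 1) (l + 1) ∧ P.coin i j (t + 1) (l - 1))) := by
  classical
  set T := {t | ∃ l, P.coin i j t l} with hT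
  have hne : T.Nonempty := ⟨t, l, h⟩
  have hbd : BddAbove T := ⟨(P.wd i).length, fun s ⟨_, hs⟩ => hs.1⟩
  obtain ⟨l₀, h₀⟩ := Nat.sInf_mem hne
  obtain ⟨l₁, h₁⟩ := Nat.sSup_mem hne hbd
  have a0 : sInf T ≤ t := Nat.sInf_le ⟨l, h⟩
  have a1 : t ≤ sSup T := le_csSup hbd ⟨l, h⟩
  have b0 : sInf T ≠ t := fun e => hr (Finset.mem_union_left _
    (Finset.mem_image.2 ⟨(i, j), Finset.mem_univ _, by rw [← e]⟩))
  have b1 : sSup T ≠ t := fun e => hr (Finset.mem_union_right _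
    (Finset.mem_image.2 ⟨(i, j), Finset.mem_univ _, by rw [← e]⟩))
  have hI := P.coin_int hg hl i j
  have huniq : ∀ k l l', P.coin i j k l → P.coin i j k l' → l = l' := by
    intro k l l' a b
    rcases hI.2 k l k l' le_rfl a b with c | c <;> omega
  set t₀ := sInf T
  set t₁ := sSup T
  rcases hI.2 _ _ _ _ (a0.trans a1) h₀ h₁ with ⟨e, c⟩ | ⟨e, c⟩
  · have c0 := c (t - t₀) (by omega)
    have c1 := c (t - t₀ - 1) (by omega)
    have c2 := c (t - t₀ + 1) (by omega)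
    rw [show t₀ + (t - t₀) = t by omega] at c0
    have := huniq _ _ _ h c0
    rw [show t₀ + (t - t₀ - 1) = t - 1 by omega, show l₀ + (t - t₀ - 1) = l - 1 by omega] at c1
    rw [show t₀ + (t - t₀ + 1) = t + 1 by omega, show l₀ + (t - t₀ + 1) = l + 1 by omega] at c2
    exact ⟨by omega, by omega, Or.inl ⟨c1, c2⟩⟩
  · have c0 := c (t - t₀) (by omega)
    have c1 := c (t - t₀ - 1) (by omega)
    have c2 := c (t - t₀ + 1) (by omega)
    rw [show t₀ + (t - t₀) = t by omega] at c0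
    have := huniq _ _ _ h c0
    rw [show t₀ + (t - t₀ - 1) = t - 1 by omega, show l₀ - (t - t₀ - 1) = l + 1 by omega] at c1
    rw [show t₀ + (t - t₀ + 1) = t + 1 by omega, show l₀ - (t - t₀ + 1) = l - 1 by omega] at c2
    exact ⟨by omega, by omega, Or.inr ⟨c1, c2⟩⟩

lemma reg_self [Fintype ι] {i : ι} {t : ℕ} (h : t ≤ (P.wd i).length) (hr : P.vt i t ∉ P.Irr) :
    1 ≤ t ∧ t + 1 ≤ (P.wd i).length := by
  obtain ⟨a, -, b | b⟩ := P.reg_nb hg hl (P.coin_iff.2 ⟨h, h, rfl⟩) hr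
  · exact ⟨a, b.2.1⟩
  · exact ⟨a, b.2.1⟩

omit hg hl in
/-- the pieces visiting a vertex -/
def Vis (v : Γ.V) : Set ι := {j | ∃ l, l ≤ (P.wd j).length ∧ P.vt j l = v}

lemma vis_sub [Fintype ι] {i : ι} {t s : ℕ} (h : t ≤ (P.wd i).length) (hr : P.vt i t ∉ P.Irr)
    (hs : s = t + 1 ∨ t = s + 1) : P.Vis (P.vt i t) ⊆ P.Vis (P.vt i s) := by
  rintro j ⟨l, h1, h2⟩
  obtain ⟨a, -, b⟩ := P.reg_nb hg hl (P.coin_iff.2 ⟨h, h1, h2.symm⟩) hr
  rcases hs with rfl | rfl <;> rcases b with b | b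
  · exact ⟨_, b.2.2.1, (P.coin_iff.1 b.2).2.2.symm⟩
  · exact ⟨_, b.2.2.1, (P.coin_iff.1 b.2).2.2.symm⟩
  · exact ⟨_, b.1.2.1, (P.coin_iff.1 b.1).2.2.symm⟩
  · exact ⟨_, b.1.2.1, (P.coin_iff.1 b.1).2.2.symm⟩

end girth

end LG.Pieces

end Crest.Agent.ZD
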