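import Mathlib

set_option autoImplicit false

namespace Crest.Agent.ZD

open FreeGroup (mk of invRev IsReduced IsCyclicallyReduced mul_mk inv_mk one_eq_mk invRev_cons
  invRev_append invRev_invRev)
open Finset (univ)

/-! ### Labelled graphs immersed in the rose -/

/-- A labelled graph immersed in the rose on `S` (a partial, reversible automaton). -/
structure LG (S : Type) where
  V : Type
  nxt : V → S × Bool → Option V
  symm : ∀ x y d, nxt x d = some y → nxt y (d.1, !d.2) = some x

/-- end point of the walk starting at `x` that reads a word -/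
def LG.run {S : Type} (Γ : LG S) : Γ.V → List (S × Bool) → Option Γ.V
  | x, [] => some x
  | x, d :: w => (Γ.nxt x d).bind fun y => Γ.run y w

/-- no nonempty reduced closed walk of length `< g` -/
def LG.Girth {S : Type} (Γ : LG S) (g : ℕ) : Prop :=
  ∀ x u, Γ.run x u = some x → IsReduced u → u.length < g → u = []

section run
variable {S : Type} (Γ : LG S)

@[simp] lemma LG.run_nil (x : Γ.V) : Γ.run x [] = some x := rfl

lemma LG.run_cons (x : Γ.V) (d : S × Bool) (w : List (S × Bool)) :
    Γ.run x (d :: w) = (Γ.nxt x d).bind fun y => Γ.run y w := rfl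

lemma LG.run_cons_eq_some {x z : Γ.V} {d : S × Bool} {w : List (S × Bool)} :
    Γ.run x (d :: w) = some z ↔ ∃ y, Γ.nxt x d = some y ∧ Γ.run y w = some z := by
  rw [LG.run_cons, Option.bind_eq_some_iff]

@[simp] lemma LG.run_singleton (x : Γ.V) (d : S × Bool) : Γ.run x [d] = Γ.nxt x d := by
  rw [LG.run_cons]; cases Γ.nxt x d <;> rfl

lemma LG.run_append (x : Γ.V) (u w : List (S × Bool)) :
    Γ.run x (u ++ w) = (Γ.run x u).bind fun y => Γ.run y w := by
  induction u generalizing x with
  | nil => rfl
  | cons d u ih =>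
    rw [List.cons_append, LG.run_cons, LG.run_cons]
    cases Γ.nxt x d with
    | none => rfl
    | some y => simp [ih]

lemma LG.run_append_eq_some {x z : Γ.V} {u w : List (S × Bool)} :
    Γ.run x (u ++ w) = some z ↔ ∃ y, Γ.run x u = some y ∧ Γ.run y w = some z := by
  rw [LG.run_append, Option.bind_eq_some_iff]

lemma LG.run_invRev {x y : Γ.V} {u : List (S × Bool)} (h : Γ.run x u = some y) :
    Γ.run y (invRev u) = some x := by
  induction u generalizing x with
  | nil => simp at h; subst h; rfl
  | cons d u ih =>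
    obtain ⟨z, h1, h2⟩ := Γ.run_cons_eq_some.mp h
    rw [invRev_cons, Γ.run_append_eq_some]
    refine ⟨z, ih h2, ?_⟩
    have := Γ.symm _ _ _ h1
    simpa [invRev] using this

/-- walks are determined by their end point and label -/
lemma LG.run_left_inj {x x' y : Γ.V} {u : List (S × Bool)} (h : Γ.run x u = some y)
    (h' : Γ.run x' u = some y) : x = x' := by
  have h1 := Γ.run_invRev h
  rw [Γ.run_invRev h'] at h1
  exact (Option.some.inj h1).symm

lemma LG.Girth.mono {g g' : ℕ} (h : Γ.Girth g) (hg : g' ≤ g) : Γ.Girth g' :=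
  fun x u h1 h2 h3 => h x u h1 h2 (h3.trans_le hg)

end run

/-- A system of reduced walks ("pieces"), concatenated along the partial injection `sc` and glued
in pairs along the partial involution `mu`. -/
structure LG.Pieces {S : Type} (Γ : LG S) (U : Set Γ.V) (x₀ : Γ.V) (ι : Type) where
  st : ι → Γ.V
  en : ι → Γ.V
  wd : ι → List (S × Bool)
  sc : ι → Option ι
  mu : ι → Option ι
  run : ∀ i, Γ.run (st i) (wd i) = some (en i)
  ne : ∀ i, wd i ≠ []
  red : ∀ i, IsReduced (wd i)
  sc_inj : ∀ i j k, sc i = some k → sc j = some k → i = j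
  sc_st : ∀ i k, sc i = some k → st k = en i ∧ IsReduced (wd i ++ wd k)
  sc_none : ∀ i, sc i = none → en i ∈ U
  pred_none : ∀ k, (∀ i, sc i ≠ some k) → st k = x₀
  mu_symm : ∀ i j, mu i = some j → mu j = some i
  mu_ne : ∀ i, mu i ≠ some i
  mu_wd : ∀ i j, mu i = some j → wd j = invRev (wd i) ∧ st j ≠ en i

/-- total length -/
def LG.Pieces.len {S : Type} {Γ : LG S} {U : Set Γ.V} {x₀ : Γ.V} {ι : Type} [Fintype ι]
    (P : Γ.Pieces U x₀ ι) : ℕ := ∑ i, (P.wd i).length

/-- total length of the unglued pieces -/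
def LG.Pieces.bdry {S : Type} {Γ : LG S} {U : Set Γ.V} {x₀ : Γ.V} {ι : Type} [Fintype ι]
    (P : Γ.Pieces U x₀ ι) : ℕ := ∑ i, if (P.mu i).isNone then (P.wd i).length else 0

/-- local isoperimetric property -/
def LG.Iso {S : Type} (Γ : LG S) (U : Set Γ.V) (x₀ : Γ.V) (g J Cc : ℕ) : Prop :=
  ∀ (ι : Type) [Fintype ι] (P : Γ.Pieces U x₀ ι), Fintype.card ι ≤ J →
    (∀ i, 2 * (P.wd i).length < g) → g ≤ P.len → P.len ≤ Cc * P.bdry

/-- The graphs produced by the probabilistic construction. -/
structure Good (S : Type) (C₀ Cc J : ℕ) where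
  Γ : LG S
  fin : Finite Γ.V
  U : Set Γ.V
  x₀ : Γ.V
  g : ℕ
  x₀_mem : x₀ ∈ U
  J_le : J ≤ g
  girth : Γ.Girth g
  conn : ∀ u v, (∃ w, Γ.run u w = some v) →
    ∃ w : List (S × Bool), w.length ≤ C₀ * g ∧ Γ.run u w = some v
  iso : Γ.Iso U x₀ g J Cc

/-! ### Fillings -/

/-- product of the conjugates of the faces -/
def fprod {S Φ : Type} (wd : Φ → List (S × Bool)) (l : List (FreeGroup S × Φ)) : FreeGroup S :=
  (l.map fun p => p.1 * mk (wd p.2) * p.1⁻¹).prod

/-- sum of the translated chains of the faces -/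
def fchain {S Φ A : Type} [AddCommGroup A] (ρ : Representation ℤ (FreeGroup S) A) (ch : Φ → A)
    (l : List (FreeGroup S × Φ)) : A :=
  (l.map fun p => ρ p.1 (ch p.2)).sum

/-- total perimeter -/
def fper {S Φ : Type} (wd : Φ → List (S × Bool)) (l : List (FreeGroup S × Φ)) : ℕ :=
  (l.map fun p => (wd p.2).length).sum

/-- the 2-chain (in the cone complex over the Cayley graph of `G`) of the walk reading `u` from `x`,
when `x` is placed at `h : G` -/
noncomputable def wch {S G : Type} [Group G] (π : FreeGroup S →* G) (Γ : LG S) :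
    G → Γ.V → List (S × Bool) → (G × Γ.V × S →₀ ℤ)
  | _, _, [] => 0
  | h, x, d :: w =>
    match Γ.nxt x d with
    | none => 0
    | some y =>
      (if d.2 then Finsupp.single (h, x, d.1) 1
        else - Finsupp.single (h * π (mk [d]), y, d.1) 1) + wch π Γ (h * π (mk [d])) y w

/-- translation action on 2-chains -/
noncomputable def wrep {S G : Type} [Group G] (π : FreeGroup S →* G) (Γ : LG S) :
    Representation ℤ (FreeGroup S) (G × Γ.V × S →₀ ℤ) where
  toFun g := Finsupp.lmapDomain ℤ ℤ fun q => (π g * q.1, q.2)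
  map_one' := by
    apply LinearMap.ext; intro f
    simp only [map_one, one_mul, Finsupp.lmapDomain_apply, Module.End.one_apply]
    exact Finsupp.mapDomain_id
  map_mul' g h := by
    apply LinearMap.ext; intro f
    simp only [Finsupp.lmapDomain_apply, Module.End.mul_apply, map_mul]
    rw [← Finsupp.mapDomain_comp]
    congr 1
    funext q; simp [mul_assoc]

/-- closed walks -/
def LG.Cyc {S : Type} (Γ : LG S) : Type := {q : Γ.V × List (S × Bool) // Γ.run q.1 q.2 = some q.1}

/-- word of a closed walk -/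
def LG.cw {S : Type} (Γ : LG S) (q : Γ.Cyc) : List (S × Bool) := q.1.2

/-- chain of a closed walk -/
noncomputable def LG.cch {S G : Type} [Group G] (Γ : LG S) (π : FreeGroup S →* G) (q : Γ.Cyc) :
    G × Γ.V × S →₀ ℤ := wch π Γ 1 q.1.1 q.1.2

section wch
variable {S G : Type} [Group G] (π : FreeGroup S →* G) (Γ : LG S)

@[simp] lemma wch_nil (h : G) (x : Γ.V) : wch π Γ h x [] = 0 := by simp [wch]

lemma wch_cons {h : G} {x y : Γ.V} {d : S × Bool} (w : List (S × Bool))
    (hy : Γ.nxt x d = some y) :
    wch π Γ h x (d :: w) = (if d.2 then Finsupp.single (h, x, d.1) 1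
        else - Finsupp.single (h * π (mk [d]), y, d.1) 1) + wch π Γ (h * π (mk [d])) y w := by
  simp only [wch, hy]

lemma wch_append {h : G} {x y : Γ.V} {u : List (S × Bool)} (w : List (S × Bool))
    (hy : Γ.run x u = some y) :
    wch π Γ h x (u ++ w) = wch π Γ h x u + wch π Γ (h * π (mk u)) y w := by
  induction u generalizing h x with
  | nil =>
    simp only [LG.run_nil, Option.some.injEq] at hy
    subst hy
    simp [← one_eq_mk]
  | cons d u ih =>
    obtain ⟨z, h1, h2⟩ := Γ.run_cons_eq_some.mp hy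
    rw [List.cons_append, wch_cons π Γ _ h1, wch_cons π Γ _ h1, ih h2, add_assoc, mul_assoc,
      ← map_mul, mul_mk, List.singleton_append]

lemma wch_invRev {h : G} {x y : Γ.V} {u : List (S × Bool)} (hy : Γ.run x u = some y) :
    wch π Γ (h * π (mk u)) y (invRev u) = - wch π Γ h x u := by
  induction u generalizing h x with
  | nil => simp
  | cons d u ih =>
    obtain ⟨z, h1, h2⟩ := Γ.run_cons_eq_some.mp hy
    have e1 : h * π (mk (d :: u)) = h * π (mk [d]) * π (mk u) := by
      rw [mul_assoc, ← map_mul, mul_mk, List.singleton_append]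
    have e2 : h * π (mk [d]) * π (mk u) * π (mk (invRev u)) = h * π (mk [d]) := by
      rw [← inv_mk, map_inv, mul_inv_cancel_right]
    have e3 : invRev [d] = [(d.1, !d.2)] := by simp [invRev]
    have e4 : h * π (mk [d]) * π (mk [(d.1, !d.2)]) = h := by
      rw [← e3, ← inv_mk, map_inv, mul_inv_cancel_right]
    rw [invRev_cons, wch_append π Γ _ (Γ.run_invRev h2), e1, ih h2, e2, e3,
      wch_cons π Γ _ (Γ.symm _ _ _ h1), wch_cons π Γ _ h1, e4]
    obtain ⟨s, b⟩ := d
    cases b <;> simp

lemma wrep_wch (g : FreeGroup S) (h : G) (x : Γ.V) (u : List (S × Bool)) :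
    wrep π Γ g (wch π Γ h x u) = wch π Γ (π g * h) x u := by
  induction u generalizing h x with
  | nil => simp
  | cons d u ih =>
    cases hy : Γ.nxt x d with
    | none => simp [wch, hy]
    | some y =>
      rw [wch_cons π Γ _ hy, wch_cons π Γ _ hy, map_add, ih, mul_assoc]
      congr 1
      split_ifs
      · simp [wrep, Finsupp.mapDomain_single]
      · rw [map_neg]; simp [wrep, Finsupp.mapDomain_single]

lemma wrep_of_ker {g : FreeGroup S} (hg : π g = 1) (a : G × Γ.V × S →₀ ℤ) :
    wrep π Γ g a = a := by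
  simp only [wrep, MonoidHom.coe_mk, OneHom.coe_mk, hg, one_mul, Finsupp.lmapDomain_apply]
  exact Finsupp.mapDomain_id

end wch

/-! ### Algebraic van Kampen diagrams -/

/-- substitution of words for letters -/
def sub {α β : Type} (σ : α → List (β × Bool)) (w : List (α × Bool)) : List (β × Bool) :=
  w.flatMap fun d => if d.2 then σ d.1 else invRev (σ d.1)

/-- the induced homomorphism -/
def subH {α β : Type} (σ : α → List (β × Bool)) : FreeGroup α →* FreeGroup β :=
  FreeGroup.lift fun e => mk (σ e)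

section sub
variable {α β γ : Type} (σ : α → List (β × Bool))

@[simp] lemma sub_nil : sub σ [] = [] := rfl

lemma sub_cons (d : α × Bool) (w : List (α × Bool)) :
    sub σ (d :: w) = (if d.2 then σ d.1 else invRev (σ d.1)) ++ sub σ w := by
  simp [sub]

@[simp] lemma sub_append (u w : List (α × Bool)) : sub σ (u ++ w) = sub σ u ++ sub σ w := by
  simp [sub]

@[simp] lemma subH_of (e : α) : subH σ (of e) = mk (σ e) := by simp [subH]

lemma subH_mk (w : List (α × Bool)) : subH σ (mk w) = mk (sub σ w) := by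
  induction w with
  | nil => simp [← one_eq_mk]
  | cons d w ih =>
    rw [← List.singleton_append, ← mul_mk, map_mul, ih, sub_append, ← mul_mk]
    congr 1
    obtain ⟨e, b⟩ := d
    cases b
    · have : (mk [(e, false)] : FreeGroup α) = (of e)⁻¹ := by simp [of, inv_mk, invRev]
      rw [this, map_inv, subH_of, inv_mk]; simp [sub]
    · have : (mk [(e, true)] : FreeGroup α) = of e := rfl
      rw [this, subH_of]; simp [sub]

lemma sub_invRev (w : List (α × Bool)) : sub σ (invRev w) = invRev (sub σ w) := by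
  induction w with
  | nil => simp
  | cons d w ih =>
    rw [invRev_cons, sub_append, ih, sub_cons, invRev_append]
    congr 1
    obtain ⟨e, b⟩ := d
    cases b
    · rw [show invRev [(e, false)] = [(e, true)] from rfl]; simp [sub]
    · rw [show invRev [(e, true)] = [(e, false)] from rfl]; simp [sub]

lemma sub_sub (τ : β → List (γ × Bool)) (w : List (α × Bool)) :
    sub τ (sub σ w) = sub (fun e => sub τ (σ e)) w := by
  induction w with
  | nil => simp
  | cons d w ih =>
    rw [sub_cons, sub_append, ih, sub_cons]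
    congr 1
    split_ifs
    · rfl
    · exact sub_invRev τ _

end sub

/-- `w` is a path starting at `x` in the graph whose edge `e` goes from `st e` to `st e * e`,
vertices being taken modulo the normal subgroup `N` -/
def IsPath (N : Subgroup (FreeGroup ℕ)) (st : ℕ → FreeGroup ℕ) :
    FreeGroup ℕ → List (ℕ × Bool) → Prop
  | _, [] => True
  | x, d :: w => (if d.2 then x else x * mk [d])⁻¹ * st d.1 ∈ N ∧ IsPath N st (x * mk [d]) w

/-- number of occurrences of the letter `e` or its inverse -/
def cnt (e : ℕ) (w : List (ℕ × Bool)) : ℕ := (w.map Prod.fst).count e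

/-- the normal subgroup generated by the abstract faces -/
def faceN {Φ : Type} (fs : List (FreeGroup ℕ × List (ℕ × Bool) × Φ)) : Subgroup (FreeGroup ℕ) :=
  Subgroup.normalClosure {x | ∃ f ∈ fs, x = mk f.2.1}

/-- An algebraic van Kampen diagram: abstract edges are natural numbers, each used at most twice,
and labelled by words. -/
structure Diag {S Φ : Type} (wd : Φ → List (S × Bool)) where
  ω : List (ℕ × Bool)
  fs : List (FreeGroup ℕ × List (ℕ × Bool) × Φ)
  lab : ℕ → List (S × Bool)
  st : ℕ → FreeGroup ℕ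
  planar : mk ω = (fs.map fun f => f.1 * mk f.2.1 * f.1⁻¹).prod
  labf : ∀ f ∈ fs, sub lab f.2.1 = wd f.2.2
  quad : ∀ e, cnt e (ω ++ fs.flatMap fun f => f.2.1) ≤ 2
  pathω : IsPath (faceN fs) st 1 ω
  pathf : ∀ f ∈ fs, IsPath (faceN fs) st f.1 f.2.1

/-- all occurrences of letters -/
def Diag.used {S Φ : Type} {wd : Φ → List (S × Bool)} (D : Diag wd) : List (ℕ × Bool) :=
  D.ω ++ D.fs.flatMap fun f => f.2.1

/-- the filling described by a diagram -/
def Diag.fill {S Φ : Type} {wd : Φ → List (S × Bool)} (D : Diag wd) : List (FreeGroup S × Φ) :=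
  D.fs.map fun f => (subH D.lab f.1, f.2.2)

lemma Diag.fprod_fill {S Φ : Type} {wd : Φ → List (S × Bool)} (D : Diag wd) :
    fprod wd D.fill = FreeGroup.mk (sub D.lab D.ω) := by
  rw [← subH_mk, D.planar, map_list_prod, fprod, Diag.fill, List.map_map, List.map_map]
  congr 1
  apply List.map_congr_left
  intro f hf
  simp [subH_mk, D.labf f hf]

/-! ### Ordered simplicial complexes with a group action -/

/-- A 2-dimensional ordered simplicial complex with a free cocompact action of `G`, which is
combinatorially simply connected and has vanishing second cohomology. -/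
structure OSC (G : Type) [Group G] where
  V : Type
  act : MulAction G V
  E : V → V → Prop
  T : V → V → V → Prop
  asymm : ∀ a b, E a b → ¬ E b a
  T_E : ∀ a b c, T a b c → E a b ∧ E b c ∧ E a c
  E_smul : ∀ (g : G) a b, E a b → E (g • a) (g • b)
  T_smul : ∀ (g : G) a b c, T a b c → T (g • a) (g • b) (g • c)
  free : ∀ (g : G) (v : V), g • v = v → g = 1
  lf : ∀ v, {w | E v w ∨ E w v}.Finite
  cofin : ∃ s : Set V, s.Finite ∧ ∀ v, ∃ g : G, g • v ∈ s
  o : V
  conn : ∀ v, Relation.EqvGen E o v
  sc : ∀ (H : Type) [Group H] (p : V → V → H), (∀ a b c, T a b c → p a b * p b c = p a c) →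
    ∃ s : V → H, ∀ a b, E a b → p a b = (s a)⁻¹ * s b
  cob : ∀ (A : Type) [AddCommGroup A] (c : V → V → V → A), ∃ u : V → V → A,
    ∀ a b d, T a b d → u a b + u b d - u a d = c a b d

instance {G : Type} [Group G] (K : OSC G) : MulAction G K.V := K.act

/-- a simplex of dimension 2, 1 or 0, listed with repetitions -/
def OSC.Face {G : Type} [Group G] (K : OSC G) (a b c : K.V) : Prop :=
  K.T a b c ∨ (K.E a b ∧ c = b) ∨ (b = a ∧ c = a)

open Classical in
/-- the vertex `a` in barycentric coordinates -/
noncomputable def OSC.vtx {G : Type} [Group G] (K : OSC G) (a : K.V) : K.V → ℝ :=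
  fun v => if v = a then 1 else 0

/-- geometric realisation, with the topology of pointwise convergence of barycentric coordinates -/
def OSC.Sp {G : Type} [Group G] (K : OSC G) : Set (K.V → ℝ) :=
  {y | ∃ a b c, K.Face a b c ∧ y ∈ convexHull ℝ {K.vtx a, K.vtx b, K.vtx c}}

/-! ### The random model -/

/-- Vertex sets with their stars and colours: `X` (stars of size `k`, e.g. lines of a projective
plane) and `Z` (small blocks).  Edges will only join vertices of the same colour. -/
structure Model (Pt : Type) [Fintype Pt] [DecidableEq Pt] (k Np R : ℕ) where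
  X : Type
  Z : Type
  finX : Fintype X
  finZ : Fintype Z
  decX : DecidableEq X
  decZ : DecidableEq Z
  lx : X → Finset Pt
  bz : Z → Finset Pt
  cx : X → Fin 4
  cz : Z → Fin 4
  cardXZ : ∀ p c, (univ.filter fun x => p ∈ lx x ∧ cx x = c).card =
    (univ.filter fun z => p ∈ bz z ∧ cz z = c).card
  card_lo : ∀ p c, R ≤ (univ.filter fun x => p ∈ lx x ∧ cx x = c).card
  card_hi : ∀ p c, (univ.filter fun x => p ∈ lx x ∧ cx x = c).card ≤ R + k
  pairX : ∀ p q c, p ≠ q →
    k * (univ.filter fun x => p ∈ lx x ∧ q ∈ lx x ∧ cx x = c).card ≤ R + k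
  lx_card : ∀ x, (lx x).card = k
  bz_lo : ∀ z, 2 ≤ (bz z).card
  bz_hi : ∀ z, (bz z).card ≤ 4
  Ps : Finset (Pt × Pt)
  Ps_card : Ps.card ≤ Np
  Ps_mem : ∀ z p q, p ∈ bz z → q ∈ bz z → p ≠ q → (p, q) ∈ Ps

namespace Model
variable {Pt : Type} [Fintype Pt] [DecidableEq Pt] {k Np R : ℕ} (M : Model Pt k Np R)

instance : Fintype M.X := M.finX
instance : Fintype M.Z := M.finZ
instance : DecidableEq M.X := M.decX
instance : DecidableEq M.Z := M.decZ

/-- configurations: one matching for each point -/
abbrev Conf : Type := ∀ p : Pt, {x : M.X // p ∈ M.lx x} ≃ {z : M.Z // p ∈ M.bz z}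

/-- the step function of a configuration -/
def nxt (σ : M.Conf) : M.X ⊕ M.Z → Pt × Bool → Option (M.X ⊕ M.Z)
  | Sum.inl x, (p, true) => if h : p ∈ M.lx x then some (Sum.inr (σ p ⟨x, h⟩).1) else none
  | Sum.inr z, (p, false) => if h : p ∈ M.bz z then some (Sum.inl ((σ p).symm ⟨z, h⟩).1) else none
  | Sum.inl _, (_, false) => none
  | Sum.inr _, (_, true) => none

/-- the labelled graph of a configuration -/
@[reducible] def graph (σ : M.Conf) : LG Pt where
  V := M.X ⊕ M.Z
  nxt := M.nxt σ
  symm := by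
    rintro (x | z) y ⟨p, b⟩ h <;> cases b <;> simp only [nxt] at h
    · cases h
    · split_ifs at h with hp
      obtain rfl := Option.some.inj h
      simp [nxt, (σ p ⟨x, hp⟩).2]
    · split_ifs at h with hp
      obtain rfl := Option.some.inj h
      simp [nxt, ((σ p).symm ⟨z, hp⟩).2]
    · cases h

/-- the configuration contains the edge `x → z` with label `p` -/
def Has (σ : M.Conf) (e : Pt × M.X × M.Z) : Prop :=
  M.nxt σ (Sum.inl e.2.1) (e.1, true) = some (Sum.inr e.2.2)

/-- the colour of a vertex -/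
def col : M.X ⊕ M.Z → Fin 4 := Sum.elim M.cx M.cz

/-- the configuration respects the colours -/
def Col (σ : M.Conf) : Prop := ∀ p (x : {x : M.X // p ∈ M.lx x}), M.cz (σ p x).1 = M.cx x.1

open Classical in
/-- colour-preserving configurations of girth at least `g` -/
noncomputable def GS (g : ℕ) : Finset M.Conf :=
  univ.filter fun σ => (M.graph σ).Girth g ∧ M.Col σ

/-- the marked vertices -/
def UX : Set (M.X ⊕ M.Z) := Set.range Sum.inl

end Model

/-- bound for the number of vertices near a given edge -/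
def nearB (Pt : Type) [Fintype Pt] (g : ℕ) : ℕ := (2 * Fintype.card Pt + 1) ^ (g + 2)

/-- A finite bipartite pattern with pinned vertices and label constraints. -/
structure Pat where
  PX : Type
  PZ : Type
  Ed : Type
  finX : Fintype PX
  finZ : Fintype PZ
  finE : Fintype Ed
  ex : Ed → PX
  ez : Ed → PZ
  inj : ∀ e e', ex e = ex e' → ez e = ez e' → e = e'
  ex_surj : Function.Surjective ex
  ez_surj : Function.Surjective ez
  deg_le : ∀ z, Set.ncard {e | ez e = z} ≤ 4
  root : Set PX
  link : Ed → Ed → Prop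
  rank : PZ → ℕ
  con : Set PZ
  con_link : ∀ e, ez e ∈ con → ∃ e', link e e' ∧ rank (ez e') < rank (ez e)
  px : PX → Fin 4
  pz : PZ → Fin 4

namespace Pat
variable (Q : Pat)

/-- number of unpinned `X`-vertices -/
noncomputable def nX : ℕ := Set.ncard {x : Q.PX | x ∉ Q.root}
/-- number of `Z`-vertices -/
noncomputable def nZ : ℕ := Nat.card Q.PZ
/-- number of edges -/
noncomputable def nE : ℕ := Nat.card Q.Ed
/-- number of unconstrained `Z`-vertices -/
noncomputable def nF : ℕ := Set.ncard {z : Q.PZ | z ∉ Q.con}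
/-- number of `Z`-vertices of degree other than two -/
noncomputable def nB : ℕ := Set.ncard {z : Q.PZ | Set.ncard {e | Q.ez e = z} ≠ 2}
/-- number of unpinned `X`-vertices of degree at most one -/
noncomputable def nL : ℕ := Set.ncard {x : Q.PX | x ∉ Q.root ∧ Set.ncard {e | Q.ex e = x} ≤ 1}

/-- the pattern occurs in the configuration `σ` -/
def Occurs {Pt : Type} [Fintype Pt] [DecidableEq Pt] {k Np R : ℕ} (M : Model Pt k Np R)
    (x₀ : M.X) (σ : M.Conf) : Prop :=
  ∃ (fx : Q.PX → M.X) (fz : Q.PZ → M.Z) (la : Q.Ed → Pt), Function.Injective fx ∧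
    Function.Injective fz ∧ (∀ e, M.Has σ (la e, fx (Q.ex e), fz (Q.ez e))) ∧
    (∀ x ∈ Q.root, fx x = x₀) ∧ (∀ e e', Q.link e e' → la e = la e') ∧
    (∀ x, M.cx (fx x) = Q.px x) ∧ ∀ z, M.cz (fz z) = Q.pz z

end Pat

/-- two systems of pieces have the same combinatorial shape -/
def SameShape {S : Type} {Γ Γ' : LG S} {U : Set Γ.V} {x₀ : Γ.V} {U' : Set Γ'.V} {x₀' : Γ'.V}
    {ι : Type} (P : Γ.Pieces U x₀ ι) (P' : Γ'.Pieces U' x₀' ι) : Prop :=
  P.sc = P'.sc ∧ P.mu = P'.mu ∧ (∀ i, (P.wd i).map Prod.snd = (P'.wd i).map Prod.snd) ∧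
    ∀ i k j l, k ≤ (P.wd i).length → l ≤ (P.wd j).length →
      (Γ.run (P.st i) ((P.wd i).take k) = Γ.run (P.st j) ((P.wd j).take l) ↔
        Γ'.run (P'.st i) ((P'.wd i).take k) = Γ'.run (P'.st j) ((P'.wd j).take l))

end Crest.Agent.ZD
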