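import Crest.Agent.ZD.DiagA

set_option autoImplicit false

namespace Crest.Agent.ZD

open FreeGroup (mk of invRev IsReduced IsCyclicallyReduced mul_mk inv_mk one_eq_mk invRev_cons
  invRev_append invRev_invRev)
open Finset (univ)

lemma sum_map_one_add {α : Type} (w : List α) (F : α → ℕ) (c : ℕ) :
    (w.map fun d => 1 + c * F d).sum = w.length + c * (w.map F).sum := by
  induction w with
  | nil => simp
  | cons a w ih => simp only [List.map_cons, List.sum_cons, ih, List.length_cons]; ring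

lemma max_cancel {S : Type} [DecidableEq S] (Y : List (S × Bool)) : ∀ X : List (S × Bool),
    ∃ X₁ C Y₁ : List (S × Bool), X = X₁ ++ C ∧ Y = invRev C ++ Y₁ ∧
      ∀ x ∈ X₁.getLast?, ∀ y ∈ Y₁.head?, x.1 = y.1 → x.2 = y.2 := by
  induction Y with
  | nil => exact fun X => ⟨X, [], [], by simp, by simp, by simp⟩
  | cons y Y ih =>
    intro X
    rcases List.eq_nil_or_concat' X with rfl | ⟨X', x, rfl⟩
    · exact ⟨[], [], y :: Y, by simp, by simp, by simp⟩
    by_cases h : x.1 = y.1 → x.2 = y.2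
    · exact ⟨X' ++ [x], [], y :: Y, by simp, by simp, by simpa using h⟩
    · obtain ⟨X₁, C, Y₁, h1, h2, h3⟩ := ih X'
      refine ⟨X₁, C ++ [x], Y₁, by simp [h1], ?_, h3⟩
      rw [invRev_append, invRev_singleton', h2]
      obtain ⟨x1, x2⟩ := x
      obtain ⟨y1, y2⟩ := y
      push Not at h
      obtain ⟨h4, h5⟩ := h
      simp only at h4 h5
      subst h4
      cases x2 <;> cases y2 <;> simp_all

lemma exists_chunks {α : Type} (h : ℕ) (hh : 0 < h) : ∀ (n : ℕ) (w : List α), w.length ≤ n →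
    ∃ c : List (List α), c.flatten = w ∧ (∀ x ∈ c, x ≠ [] ∧ x.length ≤ h) ∧
      h * c.length ≤ h + w.length := by
  intro n
  induction n with
  | zero => intro w hw; exact ⟨[], by simpa using (List.length_eq_zero_iff.mp (by omega)).symm,
      by simp, by simp⟩
  | succ n ih =>
    intro w hw
    by_cases h0 : w = []
    · exact ⟨[], by simp [h0], by simp, by simp⟩
    by_cases h1 : w.length ≤ h
    · exact ⟨[w], by simp, by simp [h0, h1], by simp⟩
    obtain ⟨c, c1, c2, c3⟩ := ih (w.drop h) (by simp; omega)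
    refine ⟨w.take h :: c, by simp [c1], ?_, ?_⟩
    · intro x hx
      rcases List.mem_cons.mp hx with rfl | hx
      · refine ⟨?_, by simp⟩
        intro h2
        have := congrArg List.length h2
        simp only [List.length_take, List.length_nil] at this
        omega
      · exact c2 x hx
    · simp only [List.length_cons, List.length_drop] at c3 ⊢
      rw [mul_add]; omega

section
variable {S Φ : Type} {wd : Φ → List (S × Bool)}

lemma sub_single_ne (D : Diag wd) (hne : D.NE) {d : ℕ × Bool} (hd : d ∈ D.used) :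
    sub D.lab [d] ≠ [] := by
  intro h
  have := length_sub_single D.lab d
  rw [h] at this
  exact hne d hd (List.length_eq_zero_iff.mp this.symm)

lemma sub_length_one {σ : ℕ → List (ℕ × Bool)} {y : ℕ × Bool} (h : (σ y.1).length = 1) :
    ∃ y', sub σ [y] = [y'] :=
  List.length_eq_one_iff.mp (by rw [length_sub_single, h])

lemma split_letter (D : Diag wd) (hne : D.NE) {d : ℕ × Bool} {X₁ X₂ : List (S × Bool)}
    (hX : sub D.lab [d] = X₁ ++ X₂) (h1 : X₁ ≠ []) (h2 : X₂ ≠ []) :
    ∃ (D' : Diag wd) (σ : ℕ → List (ℕ × Bool)) (e₁ e₂ : ℕ × Bool), D'.fill = D.fill ∧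
      D'.ω = sub σ D.ω ∧ (∀ e, sub D'.lab (σ e) = D.lab e) ∧ D'.NE ∧ sub σ [d] = [e₁, e₂] ∧
      sub D'.lab [e₁] = X₁ ∧ sub D'.lab [e₂] = X₂ ∧ (∀ x, x ≠ d.1 → (σ x).length = 1) ∧
      D'.used.length ≤ D.used.length + 2 := by
  let c : ℕ → List (List (S × Bool)) := fun x =>
    if x = d.1 then (if d.2 then [X₁, X₂] else [invRev X₂, invRev X₁]) else [D.lab x]
  obtain ⟨D', σ, a1, a2, a3, a4, a5, a6⟩ := D.refine c (fun e => by
    by_cases h : e = d.1
    · subst h
      obtain ⟨x, b⟩ := d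
      cases b
      · rw [sub_false] at hX
        simp [c, ← invRev_append, ← hX]
      · rw [sub_true] at hX
        simp [c, hX]
    · simp [c, h])
  have hlen : ∀ x, (σ x).length = (c x).length := fun x => by rw [← a5 x, List.length_map]
  have hNE : D'.NE := by
    intro y hy
    rw [a3] at hy
    obtain ⟨z, hz, y', hy', e⟩ := mem_sub hy
    have : D'.lab y.1 ∈ c z.1 := by
      rw [← a5, ← e]
      exact List.mem_map.mpr ⟨y', hy', rfl⟩
    simp only [c] at this
    split_ifs at this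
    · simp only [List.mem_cons, List.not_mem_nil, or_false] at this
      rcases this with h | h <;> simp [h, h1, h2]
    · simp only [List.mem_cons, List.not_mem_nil, or_false] at this
      rcases this with h | h <;> simp [h, h1, h2, invRev]
    · rw [List.mem_singleton.mp this]
      exact hne z hz
  have hT : D'.used.length ≤ D.used.length + 2 := by
    rw [a3, length_sub]
    have hq : cnt d.1 D.used ≤ 2 := D.quad d.1
    have := sum_map_one_add D.used (fun y => if y.1 = d.1 then 1 else 0) 1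
    rw [← cnt_eq_sum] at this
    refine le_trans (List.sum_le_sum (g := fun y => 1 + 1 * if y.1 = d.1 then 1 else 0)
      fun y _ => ?_) (by omega)
    rw [hlen]
    simp only [c]
    split_ifs <;> simp
  have h2' : (σ d.1).length = 2 := by
    rw [hlen]; simp only [c, if_true]; split_ifs <;> rfl
  obtain ⟨f₁, f₂, hf⟩ := List.length_eq_two.mp h2'
  have p1 := a6 d.1 f₁ (by simp [hf])
  have p2 := a6 d.1 f₂ (by simp [hf])
  have hm := a5 d.1
  rw [hf] at hm
  obtain ⟨n₁, b₁⟩ := f₁
  obtain ⟨n₂, b₂⟩ := f₂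
  simp only at p1 p2
  subst p1 p2
  have hoth : ∀ x, x ≠ d.1 → (σ x).length = 1 := fun x hx => by rw [hlen]; simp [c, hx]
  obtain ⟨x, b⟩ := d
  cases b
  · simp only [c, if_true, Bool.false_eq_true, if_false, List.map_cons, List.map_nil,
      List.cons.injEq, and_true] at hm
    refine ⟨D', σ, (n₂, false), (n₁, false), a1, a2, a4, hNE, ?_, ?_, ?_, hoth, hT⟩
    · rw [sub_false, hf]; simp [invRev]
    · rw [sub_false, hm.2, invRev_invRev]
    · rw [sub_false, hm.1, invRev_invRev]
  · simp only [c, if_true, List.map_cons, List.map_nil, List.cons.injEq, and_true] at hm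
    refine ⟨D', σ, (n₁, true), (n₂, true), a1, a2, a4, hNE, ?_, ?_, ?_, hoth, hT⟩
    · rw [sub_true, hf]
    · rw [sub_true, hm.1]
    · rw [sub_true, hm.2]

lemma prep_left (D : Diag wd) (hne : D.NE) {d d' : ℕ × Bool} {X₁ C : List (S × Bool)}
    (hX : sub D.lab [d] = X₁ ++ C) (hC : C ≠ []) (h : X₁ ≠ [] → d'.1 ≠ d.1) :
    ∃ (D' : Diag wd) (σ : ℕ → List (ℕ × Bool)) (r : List (ℕ × Bool)) (e e' : ℕ × Bool),
      D'.fill = D.fill ∧ D'.ω = sub σ D.ω ∧ (∀ e, sub D'.lab (σ e) = D.lab e) ∧ D'.NE ∧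
      sub σ [d] = r ++ [e] ∧ sub σ [d'] = [e'] ∧ sub D'.lab r = X₁ ∧ sub D'.lab [e] = C ∧
      (X₁ = [] → D'.used.length = D.used.length) ∧ D'.used.length ≤ D.used.length + 2 := by
  by_cases h1 : X₁ = []
  · subst h1
    exact ⟨D, fun x => [(x, true)], [], d, d', rfl, (sub_id _).symm, fun e => sub_true _ _, hne,
      sub_id _, sub_id _, rfl, hX, fun _ => rfl, by omega⟩
  · obtain ⟨D', σ, e₁, e₂, a1, a2, a3, a4, a5, a6, a7, a8, a9⟩ := split_letter D hne hX h1 hC
    obtain ⟨e', he'⟩ := sub_length_one (a8 _ (h h1))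
    exact ⟨D', σ, [e₁], e₂, e', a1, a2, a3, a4, a5, he', a6, a7, fun h => absurd h h1, a9⟩

lemma prep_right (D : Diag wd) (hne : D.NE) {d d' : ℕ × Bool} {Y₁ C : List (S × Bool)}
    (hX : sub D.lab [d'] = C ++ Y₁) (hC : C ≠ []) (h : Y₁ ≠ [] → d.1 ≠ d'.1) :
    ∃ (D' : Diag wd) (σ : ℕ → List (ℕ × Bool)) (r : List (ℕ × Bool)) (e e' : ℕ × Bool),
      D'.fill = D.fill ∧ D'.ω = sub σ D.ω ∧ (∀ e, sub D'.lab (σ e) = D.lab e) ∧ D'.NE ∧
      sub σ [d'] = e' :: r ∧ sub σ [d] = [e] ∧ sub D'.lab r = Y₁ ∧ sub D'.lab [e'] = C ∧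
      (Y₁ = [] → D'.used.length = D.used.length) ∧ D'.used.length ≤ D.used.length + 2 := by
  by_cases h1 : Y₁ = []
  · subst h1
    exact ⟨D, fun x => [(x, true)], [], d, d', rfl, (sub_id _).symm, fun e => sub_true _ _, hne,
      sub_id _, sub_id _, rfl, by simpa using hX, fun _ => rfl, by omega⟩
  · obtain ⟨D', σ, e₁, e₂, a1, a2, a3, a4, a5, a6, a7, a8, a9⟩ := split_letter D hne hX hC h1
    obtain ⟨e', he'⟩ := sub_length_one (a8 _ (h h1))
    exact ⟨D', σ, [e₂], e', e₁, a1, a2, a3, a4, a5, he', a7, a6, fun h => absurd h h1, a9⟩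

lemma comp_lab {l₀ l₁ l₂ : ℕ → List (S × Bool)} {σ τ : ℕ → List (ℕ × Bool)}
    (h1 : ∀ e, sub l₁ (σ e) = l₀ e) (h2 : ∀ e, sub l₂ (τ e) = l₁ e) (e : ℕ) :
    sub l₂ (sub τ (σ e)) = l₀ e := by rw [sub_sub_of h2, h1]

lemma merge_two [DecidableEq S] : ∀ (n : ℕ) (D : Diag wd) (a b rest : List (ℕ × Bool)),
    (sub D.lab a).length ≤ n → D.ω = a ++ b ++ rest → D.NE → IsReduced (sub D.lab a) →
    IsReduced (sub D.lab b) →
    ∃ (D' : Diag wd) (a' : List (ℕ × Bool)) (σ : ℕ → List (ℕ × Bool)), D'.fill = D.fill ∧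
      D'.ω = a' ++ sub σ rest ∧ (∀ e, sub D'.lab (σ e) = D.lab e) ∧ D'.NE ∧
      IsReduced (sub D'.lab a') ∧ D'.used.length ≤ D.used.length + 2 := by
  intro n
  induction n with
  | zero =>
    intro D a b rest hn hω hne ha hb
    refine ⟨D, a ++ b, fun x => [(x, true)], rfl, by rw [sub_id, hω], fun e => sub_true _ _, hne,
      ?_, by omega⟩
    rw [sub_append, List.length_eq_zero_iff.mp (Nat.le_zero.mp hn)]
    exact hb
  | succ n ih =>
    intro D a b rest hn hω hne ha hb
    by_cases hr : IsReduced (sub D.lab (a ++ b))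
    · exact ⟨D, a ++ b, fun x => [(x, true)], rfl, by rw [sub_id, hω], fun e => sub_true _ _, hne,
        hr, by omega⟩
    rcases List.eq_nil_or_concat' a with rfl | ⟨a₀, d, rfl⟩
    · exact absurd hb hr
    rcases b with _ | ⟨d', b₀⟩
    · rw [List.append_nil] at hr; exact absurd ha hr
    have hω' : D.ω = a₀ ++ [d, d'] ++ (b₀ ++ rest) := by simp [hω]
    have hXne := sub_single_ne D hne (d := d) (D.mem_used_ω (by simp [hω]))
    have hYne := sub_single_ne D hne (d := d') (D.mem_used_ω (by simp [hω]))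
    obtain ⟨X₁, C, Y₁, hX, hY, hjn⟩ := max_cancel (sub D.lab [d']) (sub D.lab [d])
    rw [sub_append, hX] at ha hn
    rw [sub_cons', hY] at hb
    have red2 : X₁ ≠ [] → Y₁ ≠ [] → IsReduced (sub D.lab a₀ ++ X₁ ++ (Y₁ ++ sub D.lab b₀)) := by
      intro h1 h2
      unfold FreeGroup.IsReduced
      rw [List.isChain_append]
      refine ⟨ha.infix ⟨[], C, by simp⟩, hb.infix ⟨invRev C, [], by simp⟩, ?_⟩
      rw [List.getLast?_append_of_ne_nil _ h1, List.head?_append_of_ne_nil _ h2]
      exact hjn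
    have hC : C ≠ [] := by
      rintro rfl
      simp only [List.append_nil, FreeGroup.invRev_empty, List.nil_append] at hX hY
      apply hr
      rw [sub_append, sub_append, sub_cons' _ d', hX, hY]
      exact red2 (hX ▸ hXne) (hY ▸ hYne)
    obtain ⟨D₁, σ₁, r, e, e', a1, a2, a3, a4, a5, a6, a7, a8, a9, a10⟩ :=
      prep_left D hne (d' := d') hX hC (fun h1 h2 => by
        have h3 := D.adj hω' h2
        rw [h3, ← invRev_singleton', sub_invRev, hX, invRev_append, List.append_cancel_left_eq]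
          at hY
        obtain ⟨X', x, rfl⟩ := (List.eq_nil_or_concat' X₁).resolve_left h1
        have := hjn x (by simp) (x.1, !x.2) (by rw [← hY]; simp [invRev]) rfl
        simp at this)
    have hω₁ : D₁.ω = sub σ₁ a₀ ++ r ++ [e, e'] ++ (sub σ₁ b₀ ++ sub σ₁ rest) := by
      rw [a2, hω', sub_append, sub_append, sub_cons' _ d, a5, a6]; simp
    have hY₁ : sub D₁.lab [e'] = invRev C ++ Y₁ := by rw [← a6, sub_sub_of a3, hY]
    obtain ⟨D₂, σ₂, s, f, f', b1, b2, b3, b4, b5, b6, b7, b8, b9, b10⟩ :=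
      prep_right D₁ a4 (d := e) hY₁ (by simpa [invRev] using hC) (fun h1 h2 => by
        have h3 := D₁.adj hω₁ h2.symm
        rw [h3, ← invRev_singleton', sub_invRev, a8] at hY₁
        simp [h1] at hY₁)
    have hω₂ : D₂.ω = sub σ₂ (sub σ₁ a₀ ++ r) ++ [f, f'] ++
        (s ++ sub σ₂ (sub σ₁ b₀) ++ sub σ₂ (sub σ₁ rest)) := by
      rw [b2, hω₁, sub_append, sub_append, sub_cons' _ e, b5, b6]; simp
    obtain ⟨D₃, σ₃, c1, c2, c3, c4, c5⟩ := D₂.fold b4 hω₂ (by
      rw [b8, ← b6, sub_sub_of b3, a8])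
    have hA : sub D₃.lab (sub σ₃ (sub σ₂ (sub σ₁ a₀ ++ r))) = sub D.lab a₀ ++ X₁ := by
      rw [sub_sub_of c3, sub_sub_of b3, sub_append, sub_sub_of a3, a7]
    have hB : sub D₃.lab (sub σ₃ (s ++ sub σ₂ (sub σ₁ b₀))) = Y₁ ++ sub D.lab b₀ := by
      rw [sub_sub_of c3, sub_append, sub_sub_of b3, sub_sub_of a3, b7]
    have hω₃ : D₃.ω = sub σ₃ (sub σ₂ (sub σ₁ a₀ ++ r)) ++ sub σ₃ (s ++ sub σ₂ (sub σ₁ b₀)) ++
        sub (fun x => sub σ₃ (sub σ₂ (σ₁ x))) rest := by
      rw [c2, ← sub_sub, ← sub_sub]; simp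
    have hlab : ∀ x, sub D₃.lab (sub σ₃ (sub σ₂ (σ₁ x))) = D.lab x := fun x => by
      rw [sub_sub_of c3, sub_sub_of b3, a3]
    by_cases h12 : X₁ ≠ [] ∧ Y₁ ≠ []
    · refine ⟨D₃, _, _, by rw [c1, b1, a1], hω₃, hlab, c4, ?_, by omega⟩
      rw [sub_append, hA, hB]
      exact red2 h12.1 h12.2
    · have hT : D₃.used.length ≤ D.used.length := by
        by_cases h1 : X₁ = []
        · have := a9 h1; omega
        · have := b9 (by tauto); omega
      obtain ⟨D₄, a', σ₄, d1, d2, d3, d4, d5, d6⟩ := ih D₃ _ _ _ (by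
        rw [hA]
        have := List.length_pos_iff.mpr hC
        simp only [List.length_append] at hn ⊢
        omega) hω₃ c4 (by rw [hA]; exact ha.infix ⟨[], C, by simp⟩)
        (by rw [hB]; exact hb.infix ⟨invRev C, [], by simp⟩)
      refine ⟨D₄, a', fun x => sub σ₄ (sub σ₃ (sub σ₂ (σ₁ x))), by rw [d1, c1, b1, a1], ?_,
        fun x => by rw [sub_sub_of d3, hlab], d4, d5, by omega⟩
      rw [d2, sub_sub]

lemma sub_flatten {α β : Type} (σ : α → List (β × Bool)) (bs : List (List (α × Bool))) :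
    sub σ bs.flatten = (bs.map (sub σ)).flatten := by
  induction bs with
  | nil => rfl
  | cons b bs ih => simp [ih]

lemma merge_all [DecidableEq S] : ∀ (k : ℕ) (D : Diag wd) (a : List (ℕ × Bool))
    (bs : List (List (ℕ × Bool))), bs.length = k → D.ω = a ++ bs.flatten → D.NE →
    IsReduced (sub D.lab a) → (∀ b ∈ bs, IsReduced (sub D.lab b)) →
    ∃ D' : Diag wd, D'.fill = D.fill ∧ D'.NE ∧ IsReduced (sub D'.lab D'.ω) ∧
      D'.used.length ≤ D.used.length + 2 * k := by
  intro k
  induction k with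
  | zero =>
    intro D a bs hk hω hne ha _
    rw [List.length_eq_zero_iff.mp hk, List.flatten_nil, List.append_nil] at hω
    exact ⟨D, rfl, hne, hω ▸ ha, by omega⟩
  | succ k ih =>
    intro D a bs hk hω hne ha hb
    rcases bs with _ | ⟨b, bs⟩
    · simp at hk
    obtain ⟨D₁, a', σ, a1, a2, a3, a4, a5, a6⟩ := merge_two _ D a b bs.flatten le_rfl
      (by simp [hω]) hne ha (hb b (by simp))
    obtain ⟨D₂, b1, b2, b3, b4⟩ := ih D₁ a' (bs.map (sub σ)) (by simpa using hk)
      (by rw [a2, sub_flatten]) a4 a5 (fun c hc => by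
        obtain ⟨c₀, h0, rfl⟩ := List.mem_map.mp hc
        rw [sub_sub_of a3]
        exact hb c₀ (by simp [h0]))
    exact ⟨D₂, b1.trans a1, b2, b3, by omega⟩

lemma isReduced_invRev {w : List (S × Bool)} [DecidableEq S] (h : IsReduced w) :
    IsReduced (invRev w) := by
  rw [FreeGroup.isReduced_iff_reduce_eq] at h ⊢
  rw [FreeGroup.reduce_invRev, h]

lemma init_diag [DecidableEq S] (l : List (FreeGroup S × Φ)) (hred : ∀ p ∈ l, IsReduced (wd p.2)) :
    ∃ (D : Diag wd) (bs : List (List (ℕ × Bool))), D.fill = l ∧ D.ω = bs.flatten ∧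
      bs.length = 3 * l.length ∧ (∀ b ∈ bs, IsReduced (sub D.lab b)) ∧
      D.used.length = 4 * l.length := by
  induction l with
  | nil =>
    exact ⟨⟨[], [], fun _ => [], fun _ => 1, by simp [← one_eq_mk], by simp, by simp, trivial,
      by simp⟩, [], rfl, rfl, rfl, by simp, rfl⟩
  | cons p l ih =>
    obtain ⟨D, bs, h1, h2, h3, h4, h5⟩ := ih fun q hq => hred q (by simp [hq])
    let σ : ℕ → List (ℕ × Bool) := fun x => [(x + 2, true)]
    let lab' : ℕ → List (S × Bool) := fun n =>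
      if n = 0 then p.1.toWord else if n = 1 then wd p.2 else D.lab (n - 2)
    let st' : ℕ → FreeGroup ℕ := fun n =>
      if n = 0 then 1 else if n = 1 then of 0 else subH σ (D.st (n - 2))
    have hlab : ∀ e, sub lab' (σ e) = D.lab e := fun e => by simp [σ, lab', sub_true]
    have hcnt : ∀ n w, cnt n (sub σ w) = if n < 2 then 0 else cnt (n - 2) w := by
      intro n w
      induction w with
      | nil => simp
      | cons x w ih =>
        have h0 : cnt n (sub σ [x]) = if x.1 + 2 = n then 1 else 0 := by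
          rw [cnt_sub]; simp [σ, cnt_cons]
        rw [sub_cons', cnt_append, cnt_cons, h0, ih]
        split_ifs <;> omega
    obtain ⟨D₁, a1, a2, a3, a4, a5⟩ := D.subst σ lab' st' (sub σ D.ω) hlab (fun d _ => by
      refine ⟨?_, trivial⟩
      simp [σ, st']) rfl id (fun n => by
        rw [← sub_append, hcnt]
        split_ifs
        · omega
        · exact D.quad _)
    rw [← sub_append] at a5
    change D₁.used = sub σ D.used at a5
    let f₀ : FreeGroup ℕ × List (ℕ × Bool) × Φ := (of 0, [(1, true)], p.2)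
    have hle : faceN D₁.fs ≤ faceN (f₀ :: D₁.fs) :=
      Subgroup.normalClosure_mono fun x ⟨f, hf, e⟩ => ⟨f, by simp [hf], e⟩
    have hf₀ : (mk [(1, true)] : FreeGroup ℕ) ∈ faceN (f₀ :: D₁.fs) :=
      mem_faceN (f := f₀) (by simp)
    have e0 : (mk [(0, true), (1, true), (0, false)] : FreeGroup ℕ) =
        of 0 * mk [(1, true)] * (of 0)⁻¹ := by
      simp [of, inv_mk, invRev]
    have e1 : (mk [(0, false)] : FreeGroup ℕ) = (of 0)⁻¹ := by simp [of, inv_mk, invRev]
    have e2 : (mk [(0, true)] : FreeGroup ℕ) = of 0 := rfl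
    have hconj : of 0 * mk [(1, true)] * (of 0)⁻¹ ∈ faceN (f₀ :: D₁.fs) :=
      (inferInstance : (faceN (f₀ :: D₁.fs)).Normal).conj_mem _ hf₀ _
    let D₂ : Diag wd := ⟨[(0, true), (1, true), (0, false)] ++ D₁.ω, f₀ :: D₁.fs, D₁.lab, D₁.st,
      by rw [← mul_mk, e0, D₁.planar]; simp [f₀],
      by
        intro f hf
        rcases List.mem_cons.mp hf with rfl | hf
        · simp [f₀, sub_true, a2, lab']
        · exact D₁.labf f hf,
      by
        intro n
        have q1 := D₁.quad n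
        have q2 : cnt n D₁.used = _ := a5 ▸ hcnt n D.used
        simp only [Diag.used, List.flatMap_cons, cnt_append, cnt_cons, cnt_nil, f₀] at q1 q2 ⊢
        split_ifs at q2 ⊢ <;> omega,
      by
        refine IsPath.append ⟨by simp [a3, st'], by simp [a3, st', e2], ?_, trivial⟩ ?_
        · simp only [Bool.false_eq_true, if_false, a3, st', if_true, mul_one, one_mul, e1, e2]
          exact (faceN _).inv_mem hconj
        · refine (D₁.pathω.mono hle).congr ?_
          rw [e0, one_mul, mul_one]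
          exact (faceN _).inv_mem hconj,
      by
        intro f hf
        rcases List.mem_cons.mp hf with rfl | hf
        · exact ⟨by simp [a3, st', f₀], trivial⟩
        · exact (D₁.pathf f hf).mono hle⟩
    refine ⟨D₂, [(0, true)] :: [(1, true)] :: [(0, false)] :: bs.map (sub σ), ?_, ?_, ?_, ?_, ?_⟩
    · change (subH D₁.lab (of 0), p.2) :: D₁.fill = _
      rw [a4, h1]
      simp [a2, lab', FreeGroup.mk_toWord]
    · change _ ++ D₁.ω = _
      rw [a1, h2, sub_flatten]
      simp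
    · simp [h3]; omega
    · intro b hb
      change IsReduced (sub D₁.lab b)
      rw [a2]
      simp only [List.mem_cons, List.mem_map] at hb
      rcases hb with rfl | rfl | rfl | ⟨b₀, hb₀, rfl⟩
      · simpa [sub_true, lab'] using FreeGroup.isReduced_toWord
      · simpa [sub_true, lab'] using hred p (by simp)
      · simpa [sub_false, lab'] using isReduced_invRev FreeGroup.isReduced_toWord
      · rw [sub_sub_of hlab]; exact h4 b₀ hb₀
    · have : D₁.used.length = D.used.length := by rw [a5, length_sub]; simp [σ]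
      simp only [Diag.used, D₂, f₀, List.length_append, List.flatMap_cons, List.length_cons,
        List.length_nil] at this h5 ⊢
      omega

end

theorem exists_diag {S Φ : Type} [DecidableEq S] (wd : Φ → List (S × Bool))
    (l : List (FreeGroup S × Φ)) (hred : ∀ p ∈ l, IsReduced (wd p.2)) (h : ℕ) (hh : 0 < h) :
    ∃ D : Diag wd, D.fill = l ∧ sub D.lab D.ω = (fprod wd l).toWord ∧
      (∀ d ∈ D.used, D.lab d.1 ≠ [] ∧ (D.lab d.1).length ≤ h) ∧
      h * D.used.length ≤ 10 * h * l.length + (sub D.lab D.used).length := by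
  obtain ⟨D₀, bs, a1, a2, a3, a4, a5⟩ := init_diag l hred
  obtain ⟨D₁, σ₁, b1, b2, b3, b4, b5, -⟩ := D₀.refine
    (fun e => if D₀.lab e = [] then [] else [D₀.lab e]) (fun e => by split_ifs with h <;> simp [h])
  have hNE : D₁.NE := by
    intro y hy
    rw [b3] at hy
    obtain ⟨z, hz, y', hy', e⟩ := mem_sub hy
    have : D₁.lab y.1 ∈ (σ₁ z.1).map fun d => D₁.lab d.1 := by
      rw [← e]; exact List.mem_map.mpr ⟨y', hy', rfl⟩
    rw [b5] at this
    split_ifs at this with h0
    · simp at this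
    · rw [List.mem_singleton.mp this]; exact h0
  have hT₁ : D₁.used.length ≤ D₀.used.length := by
    rw [b3, length_sub]
    refine le_trans (List.sum_le_sum (g := fun _ => 1) fun y _ => ?_) (by simp)
    rw [← List.length_map (f := fun d => D₁.lab d.1), b5]
    split_ifs <;> simp
  obtain ⟨D₂, c1, c2, c3, c4⟩ := merge_all _ D₁ [] (bs.map (sub σ₁)) rfl
    (by rw [b2, a2, sub_flatten]; rfl) hNE (by simp) (fun c hc => by
      obtain ⟨c₀, h0, rfl⟩ := List.mem_map.mp hc
      rw [sub_sub_of b4]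
      exact a4 c₀ h0)
  choose c hc1 hc2 hc3 using fun e => exists_chunks h hh _ (D₂.lab e) le_rfl
  obtain ⟨D₃, σ₃, d1, d2, d3, d4, d5, -⟩ := D₂.refine c hc1
  have hf : D₃.fill = l := by rw [d1, c1, b1, a1]
  refine ⟨D₃, hf, ?_, ?_, ?_⟩
  · rw [← hf, D₃.fprod_fill, FreeGroup.toWord_mk, d2, sub_sub_of d4, c3.reduce_eq]
  · intro y hy
    rw [d3] at hy
    obtain ⟨z, hz, y', hy', e⟩ := mem_sub hy
    apply hc2 z.1
    rw [← d5, ← e]
    exact List.mem_map.mpr ⟨y', hy', rfl⟩
  · rw [d3, sub_sub_of d4, length_sub, length_sub, ← List.sum_map_mul_left]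
    have e1 : (D₂.used.map fun d => h + (D₂.lab d.1).length).sum =
        h * D₂.used.length + (D₂.used.map fun d => (D₂.lab d.1).length).sum := by
      rw [List.sum_map_add]; simp [mul_comm]
    refine le_trans (List.sum_le_sum (g := fun d => h + (D₂.lab d.1).length) fun y _ => ?_) ?_
    · rw [← List.length_map (f := fun d => D₃.lab d.1), d5]
      exact hc3 _
    · rw [e1]
      rw [List.length_map, a3] at c4
      have : D₂.used.length ≤ 10 * l.length := by omega
      nlinarith

end Crest.Agent.ZD
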