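import Crest.Agent.ZD.LocC

set_option autoImplicit false

namespace Crest.Agent.ZD

open FreeGroup (mk of invRev IsReduced IsCyclicallyReduced mul_mk inv_mk one_eq_mk invRev_cons
  invRev_append invRev_invRev)
open Finset (univ)

lemma sub_cons' {α β : Type} (σ : α → List (β × Bool)) (d : α × Bool) (w : List (α × Bool)) :
    sub σ (d :: w) = sub σ [d] ++ sub σ w := by rw [← sub_append]; rfl

lemma sub_true {α β : Type} (σ : α → List (β × Bool)) (e : α) : sub σ [(e, true)] = σ e := by
  simp [sub]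

lemma sub_false {α β : Type} (σ : α → List (β × Bool)) (e : α) :
    sub σ [(e, false)] = invRev (σ e) := by simp [sub]

lemma sub_id (w : List (ℕ × Bool)) : sub (fun x => [(x, true)]) w = w := sub_eq_self fun _ _ => rfl

lemma sub_flatMap {α β γ : Type} (σ : α → List (β × Bool)) (L : List γ)
    (F : γ → List (α × Bool)) : sub σ (L.flatMap F) = L.flatMap fun a => sub σ (F a) := by
  induction L with
  | nil => rfl
  | cons a L ih => simp [ih]

lemma mem_sub {α β : Type} {σ : α → List (β × Bool)} {w : List (α × Bool)} {c : β × Bool}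
    (h : c ∈ sub σ w) : ∃ d ∈ w, ∃ c' ∈ σ d.1, c'.1 = c.1 := by
  obtain ⟨d, hd, hc⟩ := List.mem_flatMap.mp h
  refine ⟨d, hd, ?_⟩
  split_ifs at hc
  · exact ⟨c, hc, rfl⟩
  · simp only [invRev, List.mem_reverse, List.mem_map] at hc
    obtain ⟨c', h1, rfl⟩ := hc
    exact ⟨c', h1, rfl⟩

lemma cnt_invRev (e : ℕ) (w : List (ℕ × Bool)) : cnt e (invRev w) = cnt e w := by
  simp [cnt, invRev, List.map_reverse, Function.comp_def]

lemma cnt_sub (e : ℕ) (σ : ℕ → List (ℕ × Bool)) (w : List (ℕ × Bool)) :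
    cnt e (sub σ w) = (w.map fun d => cnt e (σ d.1)).sum := by
  induction w with
  | nil => rfl
  | cons d w ih =>
    rw [sub_cons, cnt_append, ih, List.map_cons, List.sum_cons]
    split_ifs <;> simp [cnt_invRev]

section path
variable {N N' : Subgroup (FreeGroup ℕ)} {st st' : ℕ → FreeGroup ℕ} {x y : FreeGroup ℕ}

lemma cong_mul [hN : N.Normal] (h : x⁻¹ * y ∈ N) (m : FreeGroup ℕ) : (x * m)⁻¹ * (y * m) ∈ N := by
  have := hN.conj_mem _ h m⁻¹
  simpa [mul_assoc] using this

lemma cong_symm (h : x⁻¹ * y ∈ N) : y⁻¹ * x ∈ N := by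
  simpa using N.inv_mem h

lemma cong_trans {z : FreeGroup ℕ} (h : x⁻¹ * y ∈ N) (h' : y⁻¹ * z ∈ N) : x⁻¹ * z ∈ N := by
  simpa [mul_assoc] using N.mul_mem h h'

lemma IsPath.congr [N.Normal] {w : List (ℕ × Bool)} (h : y⁻¹ * x ∈ N) (hp : IsPath N st x w) :
    IsPath N st y w := by
  induction w generalizing x y with
  | nil => trivial
  | cons d w ih =>
    refine ⟨?_, ih (cong_mul h _) hp.2⟩
    have := hp.1
    split_ifs at this ⊢
    · exact cong_trans h this
    · exact cong_trans (cong_mul h _) this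

lemma IsPath.mono {w : List (ℕ × Bool)} (h : N ≤ N') (hp : IsPath N st x w) :
    IsPath N' st x w := by
  induction w generalizing x with
  | nil => trivial
  | cons d w ih => exact ⟨h hp.1, ih hp.2⟩

lemma IsPath.append {a w : List (ℕ × Bool)} (h1 : IsPath N st x a)
    (h2 : IsPath N st (x * mk a) w) : IsPath N st x (a ++ w) := by
  induction a generalizing x with
  | nil => simpa [← one_eq_mk] using h2
  | cons d a ih =>
    refine ⟨h1.1, ih h1.2 ?_⟩
    rwa [mul_assoc, mul_mk, List.singleton_append]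

lemma IsPath.append_left {a w : List (ℕ × Bool)} (h : IsPath N st x (a ++ w)) :
    IsPath N st x a := by
  induction a generalizing x with
  | nil => trivial
  | cons d a ih => exact ⟨h.1, ih h.2⟩

lemma IsPath.inv {w : List (ℕ × Bool)} (h : IsPath N st x w) :
    IsPath N st (x * mk w) (invRev w) := by
  induction w generalizing x with
  | nil => trivial
  | cons d w ih =>
    rw [invRev_cons]
    have e : x * mk (d :: w) = x * mk [d] * mk w := by
      rw [mul_assoc, mul_mk, List.singleton_append]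
    rw [e]
    refine (ih h.2).append ?_
    rw [← inv_mk, mul_inv_cancel_right, invRev_singleton']
    refine ⟨?_, trivial⟩
    have := h.1
    rw [mk_inv_letter, mul_inv_cancel_right]
    cases hd : d.2 <;> simpa [hd] using this

lemma IsPath.sub [N'.Normal] {σ : ℕ → List (ℕ × Bool)} {w : List (ℕ × Bool)}
    (hN : ∀ z ∈ N, subH σ z ∈ N') (hσ : ∀ d ∈ w, IsPath N' st' (subH σ (st d.1)) (σ d.1))
    (h : IsPath N st x w) : IsPath N' st' (subH σ x) (ZD.sub σ w) := by
  induction w generalizing x with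
  | nil => trivial
  | cons d w ih =>
    rw [sub_cons']
    have h1 := hN _ h.1
    have h2 := ih (fun c hc => hσ c (by simp [hc])) h.2
    have h3 := hσ d (by simp)
    rw [map_mul, subH_mk] at h2
    refine IsPath.append ?_ h2
    obtain ⟨e, b⟩ := d
    cases b
    · simp only [Bool.false_eq_true, if_false, map_mul, map_inv, subH_mk, sub_false] at h1 ⊢
      refine h3.inv.congr ?_
      have := cong_mul h1 (mk (σ e))
      rwa [← inv_mk, inv_mul_cancel_right] at this
    · simp only [if_true, map_mul, map_inv, sub_true] at h1 ⊢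
      exact h3.congr h1

end path

instance {Φ : Type} (fs : List (FreeGroup ℕ × List (ℕ × Bool) × Φ)) : (faceN fs).Normal :=
  Subgroup.normalClosure_normal

lemma mem_faceN {Φ : Type} {fs : List (FreeGroup ℕ × List (ℕ × Bool) × Φ)}
    {f : FreeGroup ℕ × List (ℕ × Bool) × Φ} (hf : f ∈ fs) : mk f.2.1 ∈ faceN fs :=
  Subgroup.subset_normalClosure ⟨f, hf, rfl⟩

lemma faceN_le {Φ H : Type} [Group H] {fs : List (FreeGroup ℕ × List (ℕ × Bool) × Φ)}
    (ψ : FreeGroup ℕ →* H) (K : Subgroup H) [K.Normal] (h : ∀ f ∈ fs, ψ (mk f.2.1) ∈ K) :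
    ∀ z ∈ faceN fs, ψ z ∈ K := by
  have : faceN fs ≤ K.comap ψ := by
    apply Subgroup.normalClosure_le_normal
    rintro _ ⟨f, hf, rfl⟩
    exact h f hf
  exact this

section subst
variable {S Φ : Type} {wd : Φ → List (S × Bool)}

/-- the faces after a substitution -/
def subF (σ : ℕ → List (ℕ × Bool)) (fs : List (FreeGroup ℕ × List (ℕ × Bool) × Φ)) :
    List (FreeGroup ℕ × List (ℕ × Bool) × Φ) := fs.map fun f => (subH σ f.1, sub σ f.2.1, f.2.2)

lemma subF_faceN (σ : ℕ → List (ℕ × Bool)) (fs : List (FreeGroup ℕ × List (ℕ × Bool) × Φ)) :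
    ∀ z ∈ faceN fs, subH σ z ∈ faceN (subF σ fs) := by
  apply faceN_le
  intro f hf
  rw [subH_mk]
  exact mem_faceN (f := (subH σ f.1, sub σ f.2.1, f.2.2)) (List.mem_map.mpr ⟨f, hf, rfl⟩)

lemma Diag.mem_used_ω (D : Diag wd) {d : ℕ × Bool} (h : d ∈ D.ω) : d ∈ D.used :=
  List.mem_append_left _ h

lemma Diag.mem_used_f (D : Diag wd) {d : ℕ × Bool} {f : FreeGroup ℕ × List (ℕ × Bool) × Φ}
    (hf : f ∈ D.fs) (h : d ∈ f.2.1) : d ∈ D.used :=
  List.mem_append_right _ (List.mem_flatMap.mpr ⟨f, hf, h⟩)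

lemma subH_subH {lab lab' : ℕ → List (S × Bool)} {σ : ℕ → List (ℕ × Bool)}
    (hlab : ∀ e, sub lab' (σ e) = lab e) (x : FreeGroup ℕ) : subH lab' (subH σ x) = subH lab x := by
  have : (subH lab').comp (subH σ) = subH lab := by
    apply FreeGroup.ext_hom
    intro e
    simp [subH_mk, hlab]
  exact DFunLike.congr_fun this x

lemma sub_sub_of {lab lab' : ℕ → List (S × Bool)} {σ : ℕ → List (ℕ × Bool)}
    (hlab : ∀ e, sub lab' (σ e) = lab e) (w : List (ℕ × Bool)) :
    sub lab' (sub σ w) = sub lab w := by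
  rw [sub_sub]; simp only [hlab]

lemma Diag.subst (D : Diag wd) (σ : ℕ → List (ℕ × Bool)) (lab' : ℕ → List (S × Bool))
    (st' : ℕ → FreeGroup ℕ) (ω' : List (ℕ × Bool)) (hlab : ∀ e, sub lab' (σ e) = D.lab e)
    (hst : ∀ d ∈ D.used, IsPath (faceN (subF σ D.fs)) st' (subH σ (D.st d.1)) (σ d.1))
    (hω : FreeGroup.mk ω' = FreeGroup.mk (sub σ D.ω))
    (hp : IsPath (faceN (subF σ D.fs)) st' 1 (sub σ D.ω) → IsPath (faceN (subF σ D.fs)) st' 1 ω')
    (hq : ∀ e, cnt e (ω' ++ sub σ (D.fs.flatMap fun f => f.2.1)) ≤ 2) :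
    ∃ D' : Diag wd, D'.ω = ω' ∧ D'.lab = lab' ∧ D'.st = st' ∧ D'.fill = D.fill ∧
      D'.used = ω' ++ sub σ (D.fs.flatMap fun f => f.2.1) := by
  have hfl : (subF σ D.fs).flatMap (fun f => f.2.1) = sub σ (D.fs.flatMap fun f => f.2.1) := by
    rw [sub_flatMap, subF, List.flatMap_map]
  refine ⟨⟨ω', subF σ D.fs, lab', st', ?_, ?_, ?_, ?_, ?_⟩, rfl, rfl, rfl, ?_, ?_⟩
  · rw [hω, ← subH_mk, D.planar, map_list_prod, subF, List.map_map, List.map_map]
    congr 1
    apply List.map_congr_left
    intro f _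
    simp [subH_mk]
  · intro f hf
    obtain ⟨f₀, h0, rfl⟩ := List.mem_map.mp hf
    simp only
    rw [sub_sub_of hlab, D.labf f₀ h0]
  · rw [hfl]; exact hq
  · apply hp
    have := D.pathω.sub (subF_faceN σ D.fs) fun d hd => hst d (D.mem_used_ω hd)
    rwa [map_one] at this
  · intro f hf
    obtain ⟨f₀, h0, rfl⟩ := List.mem_map.mp hf
    exact (D.pathf f₀ h0).sub (subF_faceN σ D.fs) fun d hd => hst d (D.mem_used_f h0 hd)
  · simp only [Diag.fill, subF, List.map_map]
    apply List.map_congr_left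
    intro f _
    simp [subH_subH hlab]
  · simp only [Diag.used, hfl]

lemma isPath_pos {N : Subgroup (FreeGroup ℕ)} {st : ℕ → FreeGroup ℕ} {x : FreeGroup ℕ}
    {w : List (ℕ × Bool)} (h1 : ∀ d ∈ w, d.2 = true)
    (h2 : ∀ k (hk : k < w.length), st w[k].1 = x * mk (w.take k)) : IsPath N st x w := by
  induction w generalizing x with
  | nil => trivial
  | cons d w ih =>
    refine ⟨?_, ih (fun c hc => h1 c (by simp [hc])) fun k hk => ?_⟩
    · have := h2 0 (by simp)
      simp only [List.getElem_cons_zero, List.take_zero, ← one_eq_mk, mul_one] at this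
      simp [h1 d (by simp), this]
    · have := h2 (k + 1) (by simpa using hk)
      simp only [List.getElem_cons_succ, List.take_succ_cons] at this
      rw [this, mul_assoc, mul_mk, List.singleton_append]

lemma sub_pos {α β : Type} (σ : α → List (β × Bool)) {w : List (α × Bool)}
    (h1 : ∀ d ∈ w, d.2 = true) : sub σ w = (w.map fun d => σ d.1).flatten := by
  induction w with
  | nil => rfl
  | cons d w ih =>
    rw [sub_cons, ih fun c hc => h1 c (by simp [hc]), h1 d (by simp)]
    simp

lemma Diag.refine (D : Diag wd) (c : ℕ → List (List (S × Bool)))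
    (hc : ∀ e, (c e).flatten = D.lab e) :
    ∃ (D' : Diag wd) (σ : ℕ → List (ℕ × Bool)), D'.fill = D.fill ∧ D'.ω = sub σ D.ω ∧
      D'.used = sub σ D.used ∧ (∀ e, sub D'.lab (σ e) = D.lab e) ∧
      (∀ e, (σ e).map (fun d => D'.lab d.1) = c e) ∧ ∀ e, ∀ d ∈ σ e, d.2 = true := by
  let σ : ℕ → List (ℕ × Bool) := fun e =>
    (List.range (c e).length).map fun j => (Nat.pair e j, true)
  let lab' : ℕ → List (S × Bool) := fun n => (c n.unpair.1).getD n.unpair.2 []
  let st' : ℕ → FreeGroup ℕ := fun n =>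
    subH σ (D.st n.unpair.1) * FreeGroup.mk ((σ n.unpair.1).take n.unpair.2)
  have hpos : ∀ e, ∀ d ∈ σ e, d.2 = true := by
    intro e d hd
    obtain ⟨j, _, rfl⟩ := List.mem_map.mp hd
    rfl
  have hmap : ∀ e, (σ e).map (fun d => lab' d.1) = c e := by
    intro e
    apply List.ext_getElem
    · simp [σ]
    · intro k h1 h2
      simp [σ, lab', List.getD_eq_getElem?_getD, List.getElem?_eq_getElem h2]
  have hlab : ∀ e, sub lab' (σ e) = D.lab e := by
    intro e
    rw [sub_pos _ (hpos e), hmap, hc]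
  have hcnt : ∀ n e, cnt n (σ e) ≤ if e = n.unpair.1 then 1 else 0 := by
    intro n e
    split_ifs with h
    · apply List.nodup_iff_count_le_one.mp
      simp only [σ, List.map_map]
      apply List.Nodup.map _ List.nodup_range
      intro a b hab
      exact (Nat.pair_eq_pair.mp hab).2
    · rw [Nat.le_zero, cnt_eq_zero]
      intro d hd
      obtain ⟨j, _, rfl⟩ := List.mem_map.mp hd
      rintro rfl
      simp at h
  obtain ⟨D', h1, h2, h3, h4, h5⟩ := D.subst σ lab' st' (sub σ D.ω) hlab (fun d _ => by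
    apply isPath_pos (hpos _)
    intro k hk
    simp [σ, st']) rfl id (fun n => by
      rw [← sub_append, cnt_sub]
      refine le_trans ?_ (D.quad n.unpair.1)
      rw [cnt_eq_sum]
      exact List.sum_le_sum fun d _ => hcnt n d.1)
  refine ⟨D', σ, h4, h1, by rw [h5, Diag.used, sub_append], ?_, ?_, hpos⟩
  · rw [h2]; exact hlab
  · rw [h2]; exact hmap

/-- all used letters have nonempty labels -/
def Diag.NE (D : Diag wd) : Prop := ∀ d ∈ D.used, D.lab d.1 ≠ []

lemma Diag.adj (D : Diag wd) {u z : List (ℕ × Bool)} {d d' : ℕ × Bool}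
    (hω : D.ω = u ++ [d, d'] ++ z) (h : d'.1 = d.1) : d' = (d.1, !d.2) := by
  have hq := D.quad d.1
  have hs := D.sgn_eq d.1
  rw [hω] at hq hs
  simp only [cnt_append, cnt_cons, h, if_true, cnt_nil] at hq
  rw [sgn_eq_zero (w := List.flatMap _ _) (by omega)] at hs
  have e : sgn d.1 (u ++ [d, d'] ++ z) = sgn d.1 u + sgn d.1 [d, d'] + sgn d.1 z := by
    simp [sgn, add_assoc]
  rw [e, sgn_eq_zero (w := u) (by omega), sgn_eq_zero (w := z) (by omega)] at hs
  refine Prod.ext h ?_
  cases h4 : d.2 <;> cases h5 : d'.2 <;> simp_all [sgn]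

lemma Diag.fold (D : Diag wd) (hne : D.NE) {u z : List (ℕ × Bool)} {d d' : ℕ × Bool}
    (hω : D.ω = u ++ [d, d'] ++ z) (hl : sub D.lab [d'] = invRev (sub D.lab [d])) :
    ∃ (D' : Diag wd) (σ : ℕ → List (ℕ × Bool)), D'.fill = D.fill ∧ D'.ω = sub σ u ++ sub σ z ∧
      (∀ e, sub D'.lab (σ e) = D.lab e) ∧ D'.NE ∧ D'.used.length + 2 = D.used.length := by
  let c : ℕ × Bool := (d.1, if d'.2 then !d.2 else d.2)
  let σ : ℕ → List (ℕ × Bool) := fun x => if x = d'.1 then [c] else [(x, true)]
  have hd' : sub σ [d'] = [(d.1, !d.2)] := by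
    obtain ⟨e', b'⟩ := d'
    cases b' <;> simp [sub, σ, c, invRev]
  have hd : sub σ [d] = [d] := by
    apply sub_eq_self
    intro x hx
    rw [List.mem_singleton] at hx
    subst hx
    by_cases h : x.1 = d'.1
    · have := D.adj hω h.symm
      simp only [σ, c, h, if_true]
      rw [this]
      cases x.2 <;> simp
    · simp [σ, h]
  have hlab : ∀ e, sub D.lab (σ e) = D.lab e := by
    intro e
    by_cases h : e = d'.1
    · subst h
      obtain ⟨e', b'⟩ := d'
      obtain ⟨e, b⟩ := d
      cases b' <;> cases b <;>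
        simp only [sub_true, sub_false, invRev_invRev, FreeGroup.invRev_injective.eq_iff] at hl <;>
        simp [σ, c, sub_true, sub_false, ← hl]
    · simp [σ, h, sub_true]
  have hlen : ∀ w, (sub σ w).length = w.length := by
    intro w
    rw [length_sub]
    have : ∀ x, (σ x).length = 1 := by intro x; simp only [σ]; split_ifs <;> rfl
    simp [this]
  have hsub : sub σ D.ω = sub σ u ++ [d, (d.1, !d.2)] ++ sub σ z := by
    rw [hω, sub_append, sub_append, sub_cons' σ d, hd, hd']; rfl
  have hmk : (FreeGroup.mk [d, (d.1, !d.2)] : FreeGroup ℕ) = 1 := by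
    rw [← List.singleton_append, ← mul_mk, mk_inv_letter, mul_inv_cancel]
  obtain ⟨D', h1, h2, h3, h4, h5⟩ := D.subst σ D.lab (fun x => subH σ (D.st x))
    (sub σ u ++ sub σ z) hlab (fun x _ => by
      by_cases h : x.1 = d'.1
      · have p1 := D.pathω
        rw [hω, List.append_assoc] at p1
        have q1 := subF_faceN σ D.fs _ p1.append_right.1
        have q2 := subF_faceN σ D.fs _ p1.append_right.2.1
        have e1 : subH σ (FreeGroup.mk [d]) = FreeGroup.mk [d] := by rw [subH_mk, hd]
        have e2 : subH σ (FreeGroup.mk [d']) = (FreeGroup.mk [d])⁻¹ := by rw [subH_mk, hd', mk_inv_letter]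
        simp only [σ, h, if_true]
        refine ⟨?_, trivial⟩
        have e3 := mk_inv_letter d
        obtain ⟨e', b'⟩ := d'
        obtain ⟨e, b⟩ := d
        cases b' <;> cases b <;>
          simp only [c, Bool.false_eq_true, if_false, if_true, map_mul, map_inv, e1, e2,
            Bool.not_true, Bool.not_false, mul_inv_cancel_right, e3] at q1 q2 e3 ⊢
        · exact cong_trans (cong_symm (cong_mul q2 _)) q1
        · exact cong_trans (cong_symm q2) q1
        · exact cong_trans (cong_symm q2) q1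
        · have := cong_mul q2 (FreeGroup.mk [(e, true)])⁻¹
          rw [mul_inv_cancel_right] at this
          exact cong_trans (cong_symm this) q1
      · simp only [σ, h, if_false]
        exact ⟨by simp, trivial⟩)
    (by rw [hsub, ← mul_mk, ← mul_mk, ← mul_mk, hmk, mul_one])
    (fun hp => by
      rw [hsub] at hp
      refine hp.append_left.append_left.append ?_
      have := hp.append_right
      rwa [← mul_mk, hmk, mul_one] at this)
    (fun n => by
      have q1 := D.quad n
      have q2 := D.quad d'.1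
      rw [hω] at q1 q2
      have hc : ∀ w, cnt n (sub σ w) ≤ (if n = d'.1 ∧ n ≠ d.1 then 0 else cnt n w) +
          if n = d.1 ∧ d'.1 ≠ d.1 then cnt d'.1 w else 0 := by
        intro w
        induction w with
        | nil => simp
        | cons x w ih =>
          have h0 : cnt n (sub σ [x]) = if (if x.1 = d'.1 then d.1 else x.1) = n then 1 else 0 := by
            rw [cnt_sub]
            by_cases h : x.1 = d'.1 <;> simp [σ, c, h, cnt_cons]
          rw [sub_cons', cnt_append, cnt_cons, cnt_cons, h0]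
          split_ifs at ih ⊢ <;> omega
      have a1 := hc u
      have a2 := hc z
      have a3 := hc (D.fs.flatMap fun f => f.2.1)
      simp only [cnt_append, cnt_cons, cnt_nil] at q1 q2 ⊢
      split_ifs at a1 a2 a3 q1 q2 <;> omega)
  refine ⟨D', σ, h4, h1, by rw [h2]; exact hlab, ?_, ?_⟩
  · intro x hx
    rw [h5, ← sub_append, ← sub_append] at hx
    obtain ⟨y, hy, c', hc', e⟩ := mem_sub hx
    rw [h2, ← e]
    simp only [σ] at hc'
    split_ifs at hc' with h
    · rw [List.mem_singleton.mp hc']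
      exact hne d (D.mem_used_ω (by simp [hω]))
    · rw [List.mem_singleton.mp hc']
      apply hne y
      simp only [Diag.used, hω, List.mem_append] at hy ⊢
      tauto
  · rw [h5, Diag.used, hω]
    simp only [List.length_append, hlen, List.length_cons, List.length_nil]
    omega

end subst

end Crest.Agent.ZD
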