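import Crest.Agent.ZD.Defs

set_option autoImplicit false

namespace Crest.Agent.ZD.Gl

open FreeGroup (mk of invRev IsReduced IsCyclicallyReduced mul_mk inv_mk one_eq_mk invRev_cons
  invRev_append invRev_invRev)
open Finset (univ range)

section geo
variable {Q : Type} [Group Q] (q : FreeGroup ℕ →* Q) (s : ℕ → Q) (U : Set ℕ)

/-- source of a dart -/
def src (d : ℕ × Bool) : Q := if d.2 then s d.1 else s d.1 * q (of d.1)

/-- paths -/
def Pth : Q → List (ℕ × Bool) → Prop
  | _, [] => True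
  | x, d :: w => src q s d = x ∧ Pth (x * q (mk [d])) w

/-- vertices along a word -/
def vx (x : Q) (w : List (ℕ × Bool)) (j : ℕ) : Q := x * q (mk (w.take j))

lemma mk_false (e : ℕ) : (mk [(e, false)] : FreeGroup ℕ) = (of e)⁻¹ := by
  simp [of, inv_mk, invRev]

lemma mk_true (e : ℕ) : (mk [(e, true)] : FreeGroup ℕ) = of e := rfl

lemma mk_cons' (d : ℕ × Bool) (w : List (ℕ × Bool)) :
    (mk (d :: w) : FreeGroup ℕ) = mk [d] * mk w := by
  rw [mul_mk, List.singleton_append]

variable {q s}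

lemma Pth_append {x : Q} {u w : List (ℕ × Bool)} :
    Pth q s x (u ++ w) ↔ Pth q s x u ∧ Pth q s (x * q (mk u)) w := by
  induction u generalizing x with
  | nil => simp [Pth, ← one_eq_mk]
  | cons d u ih =>
    simp only [List.cons_append, Pth, ih, and_assoc]
    rw [mk_cons' d u, map_mul, mul_assoc]

lemma Pth.invRev {x : Q} {w : List (ℕ × Bool)} (h : Pth q s x w) :
    Pth q s (x * q (mk w)) (invRev w) := by
  induction w generalizing x with
  | nil => simp [Pth]
  | cons d w ih =>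
    rw [invRev_cons, Pth_append]
    have e1 : x * q (mk (d :: w)) = x * q (mk [d]) * q (mk w) := by
      rw [mk_cons' d w, map_mul, mul_assoc]
    rw [e1]
    refine ⟨ih h.2, ?_⟩
    rw [← inv_mk, map_inv, mul_inv_cancel_right]
    have h1 := h.1
    obtain ⟨e, b⟩ := d
    cases b
    · rw [show FreeGroup.invRev [(e, false)] = [(e, true)] from rfl]
      refine ⟨?_, trivial⟩
      rw [← h1, mk_false]
      simp [src]
    · rw [show FreeGroup.invRev [(e, true)] = [(e, false)] from rfl]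
      refine ⟨?_, trivial⟩
      rw [← h1, mk_true]
      simp [src]

@[simp] lemma vx_zero (x : Q) (w : List (ℕ × Bool)) : vx q x w 0 = x := by
  simp [vx, ← one_eq_mk]

lemma vx_length (x : Q) (w : List (ℕ × Bool)) : vx q x w w.length = x * q (mk w) := by
  simp [vx]

lemma vx_cons (x : Q) (d : ℕ × Bool) (w : List (ℕ × Bool)) (j : ℕ) :
    vx q x (d :: w) (j + 1) = vx q (x * q (mk [d])) w j := by
  simp only [vx, List.take_succ_cons]
  rw [mk_cons' d, map_mul, mul_assoc]

lemma vx_drop (x : Q) (w : List (ℕ × Bool)) (i j : ℕ) :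
    vx q (vx q x w i) (w.drop i) j = vx q x w (i + j) := by
  simp only [vx]
  rw [mul_assoc, ← map_mul, mul_mk, List.take_add]

lemma vx_take (x : Q) (w : List (ℕ × Bool)) {m j : ℕ} (h : j ≤ m) :
    vx q x (w.take m) j = vx q x w j := by
  simp only [vx, List.take_take, min_eq_left h]

lemma Pth.take {x : Q} {w : List (ℕ × Bool)} (h : Pth q s x w) (i : ℕ) :
    Pth q s x (w.take i) := by
  rw [← List.take_append_drop i w, Pth_append] at h
  exact h.1

lemma Pth.drop {x : Q} {w : List (ℕ × Bool)} (h : Pth q s x w) (i : ℕ) :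
    Pth q s (vx q x w i) (w.drop i) := by
  rw [← List.take_append_drop i w, Pth_append] at h
  exact h.2

lemma Pth.get {x : Q} {w : List (ℕ × Bool)} (h : Pth q s x w) (j : ℕ) (hj : j < w.length) :
    src q s w[j] = vx q x w j ∧ vx q x w j * q (mk [w[j]]) = vx q x w (j + 1) := by
  constructor
  · have := h.drop j
    rw [List.drop_eq_getElem_cons hj] at this
    exact this.1
  · simp only [vx]
    rw [mul_assoc, ← map_mul, mul_mk, List.take_succ_eq_append_getElem hj]

variable (q s)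

/-- the cocycle attached to an antisymmetric function -/
def th (g : Q → Q → ℤ) : FreeGroup ℕ →* Multiplicative ℤ :=
  FreeGroup.lift fun e => Multiplicative.ofAdd (g (s e) (s e * q (of e)))

variable {q s}

lemma th_single {g : Q → Q → ℤ} (hg : ∀ a b, g b a = - g a b) (d : ℕ × Bool) :
    th q s g (mk [d]) = Multiplicative.ofAdd (g (src q s d) (src q s d * q (mk [d]))) := by
  obtain ⟨e, b⟩ := d
  cases b
  · rw [mk_false, map_inv, map_inv]
    simp only [th, FreeGroup.lift_apply_of, src, Bool.false_eq_true, if_false,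
      mul_inv_cancel_right]
    rw [hg (s e) _, ofAdd_neg]
  · rw [mk_true]
    simp [th, src]

lemma th_path {g : Q → Q → ℤ} (hg : ∀ a b, g b a = - g a b) {x : Q} {w : List (ℕ × Bool)}
    (h : Pth q s x w) : th q s g (mk w) =
      Multiplicative.ofAdd (∑ j ∈ range w.length, g (vx q x w j) (vx q x w (j + 1))) := by
  induction w generalizing x with
  | nil => simp [← one_eq_mk]
  | cons d w ih =>
    rw [mk_cons' d w, map_mul, ih h.2, th_single hg, List.length_cons, Finset.sum_range_succ',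
      ← ofAdd_add, add_comm, h.1]
    simp only [vx_cons, vx_zero]

variable (q s)

/-- reachability in at most `n` steps along letters of `U` -/
def Rch (n : ℕ) (x y : Q) : Prop :=
  ∃ w : List (ℕ × Bool), (∀ d ∈ w, d.1 ∈ U) ∧ w.length ≤ n ∧ Pth q s x w ∧ x * q (mk w) = y

variable {q s U}

lemma Rch.refl (n : ℕ) (x : Q) : Rch q s U n x x :=
  ⟨[], by simp, by simp, trivial, by simp [← one_eq_mk]⟩

lemma Rch.mono {n m : ℕ} {x y : Q} (h : Rch q s U n x y) (hn : n ≤ m) : Rch q s U m x y := by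
  obtain ⟨w, h1, h2, h3, h4⟩ := h
  exact ⟨w, h1, h2.trans hn, h3, h4⟩

lemma Rch.trans {n m : ℕ} {x y z : Q} (h : Rch q s U n x y) (h' : Rch q s U m y z) :
    Rch q s U (n + m) x z := by
  obtain ⟨w, h1, h2, h3, rfl⟩ := h
  obtain ⟨w', h1', h2', h3', rfl⟩ := h'
  refine ⟨w ++ w', ?_, by simp; omega, Pth_append.mpr ⟨h3, h3'⟩, ?_⟩
  · intro d hd
    rcases List.mem_append.mp hd with h | h
    exacts [h1 d h, h1' d h]
  · rw [← mul_mk, map_mul, mul_assoc]

lemma Rch.symm {n : ℕ} {x y : Q} (h : Rch q s U n x y) : Rch q s U n y x := by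
  obtain ⟨w, h1, h2, h3, rfl⟩ := h
  refine ⟨invRev w, ?_, by simpa using h2, h3.invRev, ?_⟩
  · intro d hd
    simp only [FreeGroup.invRev, List.mem_reverse, List.mem_map] at hd
    obtain ⟨c, hc, rfl⟩ := hd
    exact h1 c hc
  · rw [← inv_mk, map_inv, mul_inv_cancel_right]

lemma Pth.rch {x : Q} {w : List (ℕ × Bool)} (h : Pth q s x w) (hU : ∀ d ∈ w, d.1 ∈ U)
    {i j : ℕ} (hij : i ≤ j) : Rch q s U (j - i) (vx q x w i) (vx q x w j) := by
  refine ⟨(w.drop i).take (j - i), fun d hd => hU d (List.mem_of_mem_drop (List.mem_of_mem_take hd)),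
    by simp, (h.drop i).take _, ?_⟩
  have := vx_drop (q := q) x w i (j - i)
  rw [Nat.add_sub_cancel' hij] at this
  exact this

variable (q s U)

/-- distance to a set, capped at `m` -/
noncomputable def cd (T : Set Q) (m : ℕ) (x : Q) : ℕ :=
  sInf {n | n = m ∨ ∃ t ∈ T, Rch q s U n t x}

variable {q s U}

lemma cd_zero {T : Set Q} {m : ℕ} {x : Q} (h : x ∈ T) : cd q s U T m x = 0 :=
  Nat.eq_zero_of_le_zero (Nat.sInf_le (Or.inr ⟨x, h, Rch.refl 0 x⟩))

lemma cd_spec (T : Set Q) (m : ℕ) (x : Q) :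
    cd q s U T m x = m ∨ ∃ t ∈ T, Rch q s U (cd q s U T m x) t x :=
  Nat.sInf_mem (s := {n | n = m ∨ ∃ t ∈ T, Rch q s U n t x}) ⟨m, Or.inl rfl⟩

lemma cd_le (T : Set Q) (m : ℕ) (x : Q) : cd q s U T m x ≤ m := Nat.sInf_le (Or.inl rfl)

lemma cd_eq {T : Set Q} {m : ℕ} {x : Q} (h : ∀ t ∈ T, ∀ n < m, ¬ Rch q s U n t x) :
    cd q s U T m x = m := by
  rcases cd_spec (q := q) (s := s) (U := U) T m x with h1 | ⟨t, ht, h1⟩
  · exact h1
  · by_contra hne
    exact h t ht _ (lt_of_le_of_ne (cd_le T m x) hne) h1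

lemma cd_lip {T : Set Q} {m n : ℕ} {x y : Q} (h : Rch q s U n x y) :
    cd q s U T m y ≤ cd q s U T m x + n := by
  rcases cd_spec (q := q) (s := s) (U := U) T m x with h1 | ⟨t, ht, h1⟩
  · rw [h1]; exact (cd_le T m y).trans (Nat.le_add_right _ _)
  · exact Nat.sInf_le (Or.inr ⟨t, ht, h1.trans h⟩)

lemma cd_abs {T : Set Q} {m n : ℕ} {x y : Q} (h : Rch q s U n x y) :
    |(cd q s U T m y : ℤ) - cd q s U T m x| ≤ n := by
  have h1 := cd_lip (T := T) (m := m) h
  have h2 := cd_lip (T := T) (m := m) h.symm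
  rw [abs_le]; constructor <;> omega

/-- the area form of two 1-Lipschitz functions on a closed path -/
lemma area_le (f₁ f₂ : Q → ℤ) (h₁ : ∀ n x y, Rch q s U n x y → |f₁ y - f₁ x| ≤ n)
    (h₂ : ∀ n x y, Rch q s U n x y → |f₂ y - f₂ x| ≤ n) {x : Q} {w : List (ℕ × Bool)}
    (h : Pth q s x w) (hU : ∀ d ∈ w, d.1 ∈ U) (hc : q (mk w) = 1) {ℓ : ℕ} (hℓ : w.length ≤ ℓ) :
    Multiplicative.toAdd (th q s (fun a b => (f₁ a + f₁ b) * (f₂ b - f₂ a)) (mk w)) ≤
      2 * ℓ ^ 2 := by
  rw [th_path (fun a b => by ring) h, toAdd_ofAdd]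
  have e1 : ∑ j ∈ range w.length, (f₂ (vx q x w (j + 1)) - f₂ (vx q x w j)) = 0 := by
    rw [Finset.sum_range_sub (fun j => f₂ (vx q x w j)), vx_length, hc]; simp
  have e2 : ∑ j ∈ range w.length, (f₁ (vx q x w j) + f₁ (vx q x w (j + 1))) *
      (f₂ (vx q x w (j + 1)) - f₂ (vx q x w j)) =
      ∑ j ∈ range w.length, ((f₁ (vx q x w j) - f₁ x) + (f₁ (vx q x w (j + 1)) - f₁ x)) *
      (f₂ (vx q x w (j + 1)) - f₂ (vx q x w j)) +
      2 * f₁ x * ∑ j ∈ range w.length, (f₂ (vx q x w (j + 1)) - f₂ (vx q x w j)) := by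
    rw [Finset.mul_sum, ← Finset.sum_add_distrib]
    apply Finset.sum_congr rfl
    intro j _; ring
  rw [e2, e1, mul_zero, add_zero]
  have e3 : ∀ j ∈ range w.length, ((f₁ (vx q x w j) - f₁ x) + (f₁ (vx q x w (j + 1)) - f₁ x)) *
      (f₂ (vx q x w (j + 1)) - f₂ (vx q x w j)) ≤ 2 * (ℓ : ℤ) := by
    intro j hj
    rw [Finset.mem_range] at hj
    have a1 := h₁ _ _ _ (h.rch hU (Nat.zero_le j))
    have a2 := h₁ _ _ _ (h.rch hU (Nat.zero_le (j + 1)))
    have a3 := h₂ _ _ _ (h.rch hU (Nat.le_succ j))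
    simp only [vx_zero, Nat.sub_zero] at a1 a2
    have b1 : |f₁ (vx q x w j) - f₁ x| ≤ ℓ := a1.trans (by exact_mod_cast (by omega : j ≤ ℓ))
    have b2 : |f₁ (vx q x w (j + 1)) - f₁ x| ≤ ℓ :=
      a2.trans (by exact_mod_cast (by omega : j + 1 ≤ ℓ))
    have b3 : |f₂ (vx q x w (j + 1)) - f₂ (vx q x w j)| ≤ 1 := by simpa using a3
    refine (le_abs_self _).trans ?_
    rw [abs_mul]
    have b4 := abs_add_le (f₁ (vx q x w j) - f₁ x) (f₁ (vx q x w (j + 1)) - f₁ x)
    nlinarith [abs_nonneg (f₁ (vx q x w j) - f₁ x + (f₁ (vx q x w (j + 1)) - f₁ x)),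
      abs_nonneg (f₂ (vx q x w (j + 1)) - f₂ (vx q x w j))]
  refine (Finset.sum_le_sum e3).trans ?_
  simp only [Finset.sum_const, Finset.card_range, nsmul_eq_mul]
  have : (w.length : ℤ) ≤ ℓ := by exact_mod_cast hℓ
  nlinarith [Int.natCast_nonneg ℓ]

/-- geodesics: level cocycles -/
lemma geod_theta {x : Q} {β : List (ℕ × Bool)} (h : Pth q s x β) (hU : ∀ d ∈ β, d.1 ∈ U)
    (hgeo : ∀ n < β.length, ¬ Rch q s U n x (x * q (mk β))) (j : ℕ) (hj : j < β.length) :
    ∃ θ : FreeGroup ℕ →* Multiplicative ℤ,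
      (∀ y w, Pth q s y w → q (mk w) = 1 → θ (mk w) = 1) ∧ θ (of β[j].1) ≠ 1 ∧
        ∀ k (hk : k < β.length), k ≠ j → θ (of β[k].1) = 1 := by
  classical
  let f : Q → ℤ := fun v => if Rch q s U j x v then 0 else 1
  have hf : ∀ k ≤ β.length, f (vx q x β k) = if k ≤ j then 0 else 1 := by
    intro k hk
    simp only [f]
    by_cases hkj : k ≤ j
    · have := (h.rch hU (Nat.zero_le k)).mono (show k - 0 ≤ j by omega)
      rw [vx_zero] at this
      rw [if_pos this, if_pos hkj]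
    · rw [if_neg hkj, if_neg]
      intro hr
      have := hr.trans (h.rch hU hk)
      rw [vx_length] at this
      exact hgeo _ (by omega) this
  have hanti : ∀ a b, f a - f b = - (f b - f a) := fun a b => by ring
  have hθ : ∀ k (hk : k < β.length), th q s (fun a b => f b - f a) (mk [β[k]]) =
      Multiplicative.ofAdd (f (vx q x β (k + 1)) - f (vx q x β k)) := by
    intro k hk
    rw [th_single hanti, (h.get k hk).1, (h.get k hk).2]
  have hof : ∀ d : ℕ × Bool, th q s (fun a b => f b - f a) (of d.1) = 1 ↔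
      th q s (fun a b => f b - f a) (mk [d]) = 1 := by
    rintro ⟨e, b⟩
    cases b
    · rw [mk_false, map_inv, inv_eq_one]
    · rw [mk_true]
  refine ⟨th q s fun a b => f b - f a, ?_, ?_, ?_⟩
  · intro y w hw hc
    rw [th_path hanti hw, Finset.sum_range_sub (fun j => f (vx q y w j)), vx_length, hc]
    simp
  · rw [Ne, hof, hθ j hj, hf _ hj, hf _ hj.le]
    simp
  · intro k hk hkj
    rw [hof, hθ k hk, hf _ hk, hf _ hk.le]
    by_cases h1 : k ≤ j
    · rw [if_pos h1, if_pos (by omega)]; simp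
    · rw [if_neg h1, if_neg (by omega)]; simp

/-- choice of the cutting arc, and the Besicovitch inequality -/
theorem arc_choice {ω : List (ℕ × Bool)} (hω : Pth q s 1 ω) (hU : ∀ d ∈ ω, d.1 ∈ U)
    (hc : q (mk ω) = 1) (d₂ : ℕ) (hΛ : 8 * d₂ ≤ ω.length) (hd₂ : 1 ≤ d₂) :
    ∃ u α v β : List (ℕ × Bool), ω = u ++ α ++ v ∧ q (mk β) = q (mk α) ∧
      (β.map Prod.fst).Nodup ∧ (∀ d ∈ β, d.1 ∈ U) ∧
      (∀ e ∈ β.map Prod.fst, ∃ θ : FreeGroup ℕ →* Multiplicative ℤ,
        (∀ y w, Pth q s y w → q (mk w) = 1 → θ (mk w) = 1) ∧ θ (of e) ≠ 1 ∧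
          ∀ e' ∈ β.map Prod.fst, e' ≠ e → θ (of e') = 1) ∧
      8 * d₂ ≤ α.length ∧ 2 * β.length ≤ α.length ∧
      (24 * d₂ ≤ α.length → ∃ θ : FreeGroup ℕ →* Multiplicative ℤ,
        θ (mk α) * (θ (mk β))⁻¹ = Multiplicative.ofAdd (2 * ((α.length / 12 : ℕ) : ℤ) * d₂) ∧
        ∀ y w (ℓ : ℕ), Pth q s y w → (∀ d ∈ w, d.1 ∈ U) → q (mk w) = 1 → w.length ≤ ℓ →
          Multiplicative.toAdd (θ (mk w)) ≤ 2 * ℓ ^ 2) := by
  classical
  set P : ℕ → Q := vx q 1 ω with hP
  have hex : ∃ m, 8 * d₂ ≤ m ∧ ∃ i n, i + m ≤ ω.length ∧ 4 * n ≤ m + 8 * d₂ ∧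
      Rch q s U n (P i) (P (i + m)) := by
    refine ⟨ω.length, hΛ, 0, 0, by omega, by omega, ?_⟩
    rw [hP, zero_add, vx_zero, vx_length, hc, mul_one]
    exact Rch.refl 0 1
  obtain ⟨hm1, i, n₀, hi, hn₀, hr₀⟩ := Nat.find_spec hex
  have hmin : ∀ i' m' n, 8 * d₂ ≤ m' → m' < Nat.find hex → i' + m' ≤ ω.length →
      Rch q s U n (P i') (P (i' + m')) → m' + 8 * d₂ < 4 * n := by
    intro i' m' n h1 h2 h3 h4
    by_contra h5
    exact Nat.find_min hex h2 ⟨h1, i', n, h3, by omega, h4⟩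
  generalize Nat.find hex = m at hm1 hi hn₀ hr₀ hmin
  have hex2 : ∃ n, Rch q s U n (P i) (P (i + m)) := ⟨n₀, hr₀⟩
  obtain ⟨β, hβU, hβl, hβp, hβe⟩ := Nat.find_spec hex2
  have ht : Nat.find hex2 ≤ n₀ := Nat.find_min' hex2 hr₀
  have hgeo : ∀ n < β.length, ¬ Rch q s U n (P i) (P i * q (mk β)) := by
    intro n hn hr
    rw [hβe] at hr
    exact Nat.find_min hex2 (by omega) hr
  have hβ4 : 4 * β.length ≤ m + 8 * d₂ := by omega
  set α := (ω.drop i).take m with hα
  have hαl : α.length = m := by simp [hα]; omega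
  have hαp : Pth q s (P i) α := (hω.drop i).take m
  have hαv : ∀ j ≤ m, vx q (P i) α j = P (i + j) := by
    intro j hj
    rw [hα, vx_take _ _ hj, hP, vx_drop]
  have hαe : P i * q (mk α) = P (i + m) := by
    rw [← vx_length, hαl, hαv m le_rfl]
  have hth := fun j hj => geod_theta hβp hβU hgeo j hj
  refine ⟨ω.take i, α, (ω.drop i).drop m, β, ?_, ?_, ?_, hβU, ?_, by omega, by omega, ?_⟩
  · rw [hα, List.append_assoc, List.take_append_drop, List.take_append_drop]
  · exact mul_left_cancel (hβe.trans hαe.symm)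
  · rw [List.nodup_iff_injective_get]
    intro a b hab
    by_contra hne
    have ha : (a : ℕ) < β.length := by simpa using a.2
    have hb : (b : ℕ) < β.length := by simpa using b.2
    obtain ⟨θ, -, h2, h3⟩ := hth a ha
    have h4 := h3 b hb (fun h => hne (Fin.ext h.symm))
    simp only [List.get_eq_getElem, List.getElem_map] at hab
    rw [hab] at h2
    exact h2 h4
  · intro e he
    obtain ⟨d, hd, rfl⟩ := List.mem_map.mp he
    obtain ⟨j, hj, rfl⟩ := List.getElem_of_mem hd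
    obtain ⟨θ, h1, h2, h3⟩ := hth j hj
    refine ⟨θ, h1, h2, fun e' he' hne => ?_⟩
    obtain ⟨d', hd', rfl⟩ := List.mem_map.mp he'
    obtain ⟨k, hk, rfl⟩ := List.getElem_of_mem hd'
    exact h3 k hk (fun h => hne (by subst h; rfl))
  · rw [hαl]
    intro hbig
    let T₁ : Set Q := {y | ∃ a ≤ m / 3, y = P (i + a)}
    let T₂ : Set Q := {y | ∃ a, m / 3 ≤ a ∧ a ≤ m - m / 3 ∧ y = P (i + a)}
    let f₁ : Q → ℤ := fun y => cd q s U T₁ (m / 12) y
    let f₂ : Q → ℤ := fun y => cd q s U T₂ d₂ y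
    have hωr : ∀ a b, a ≤ b → Rch q s U (b - a) (P a) (P b) := fun a b hab => hω.rch hU hab
    have f1a : ∀ a ≤ m / 3, f₁ (P (i + a)) = 0 := by
      intro a ha
      simp only [f₁]
      rw [cd_zero (show P (i + a) ∈ T₁ from ⟨a, ha, rfl⟩)]; rfl
    have f1b : ∀ b, m - m / 3 ≤ b → b ≤ m → f₁ (P (i + b)) = (m / 12 : ℕ) := by
      intro b hb1 hb2
      simp only [f₁]
      rw [cd_eq]
      rintro _ ⟨a, ha, rfl⟩ n hn hr
      by_cases hab : b - a < m
      · have := hmin (i + a) (b - a) n (by omega) hab (by omega)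
          (by rwa [show i + a + (b - a) = i + b by omega])
        omega
      · have ha0 : a = 0 := by omega
        have hb0 : b = m := by omega
        subst ha0
        rw [hb0] at hr
        have h1 := hr.trans (hωr (i + (m - 1)) (i + m) (by omega)).symm
        have := hmin (i + 0) (m - 1) _ (by omega) (by omega) (by omega) h1
        omega
    have f2a : ∀ a, m / 3 ≤ a → a ≤ m - m / 3 → f₂ (P (i + a)) = 0 := by
      intro a ha1 ha2
      simp only [f₂]
      rw [cd_zero (show P (i + a) ∈ T₂ from ⟨a, ha1, ha2, rfl⟩)]; rfl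
    have f2b : ∀ j ≤ β.length, f₂ (vx q (P i) β j) = d₂ := by
      intro j hj
      simp only [f₂]
      rw [cd_eq]
      rintro _ ⟨a, ha1, ha2, rfl⟩ n hn hr
      have r1 := hβp.rch hβU (Nat.zero_le j)
      have r2 := hβp.rch hβU hj
      rw [vx_zero] at r1
      rw [vx_length, hβe] at r2
      have h1 := hmin i a _ (by omega) (by omega) (by omega) (r1.trans hr.symm)
      have h2 := hmin (i + a) (m - a) _ (by omega) (by omega) (by omega)
        (by rw [show i + a + (m - a) = i + m by omega]; exact hr.trans r2)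
      omega
    have hanti : ∀ a b, (f₁ b + f₁ a) * (f₂ a - f₂ b) = - ((f₁ a + f₁ b) * (f₂ b - f₂ a)) :=
      fun a b => by ring
    refine ⟨th q s fun a b => (f₁ a + f₁ b) * (f₂ b - f₂ a), ?_, ?_⟩
    · rw [th_path hanti hαp, th_path hanti hβp, hαl]
      have e1 : ∑ j ∈ range β.length, (f₁ (vx q (P i) β j) + f₁ (vx q (P i) β (j + 1))) *
          (f₂ (vx q (P i) β (j + 1)) - f₂ (vx q (P i) β j)) = 0 := by
        apply Finset.sum_eq_zero
        intro j hj
        rw [Finset.mem_range] at hj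
        rw [f2b _ hj, f2b _ hj.le]; simp
      let F : ℕ → ℤ := fun j => if j ≤ m - m / 3 then 0 else f₂ (P (i + j))
      have e2 : ∑ j ∈ range m, (f₁ (vx q (P i) α j) + f₁ (vx q (P i) α (j + 1))) *
          (f₂ (vx q (P i) α (j + 1)) - f₂ (vx q (P i) α j)) =
          ∑ j ∈ range m, 2 * ((m / 12 : ℕ) : ℤ) * (F (j + 1) - F j) := by
        apply Finset.sum_congr rfl
        intro j hj
        rw [Finset.mem_range] at hj
        rw [hαv _ hj, hαv _ hj.le]
        by_cases c1 : j + 1 ≤ m / 3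
        · rw [f1a _ c1, f1a _ (by omega)]
          simp only [F]
          rw [if_pos (by omega), if_pos (by omega)]; simp
        by_cases c2 : j + 1 ≤ m - m / 3
        · rw [f2a _ (by omega) c2, f2a j (by omega) (by omega)]
          simp only [F]
          rw [if_pos (by omega), if_pos (by omega)]; simp
        · rw [f1b _ (by omega) hj, f1b j (by omega) hj.le]
          have : F j = f₂ (P (i + j)) := by
            simp only [F]
            split_ifs with c3
            · rw [f2a j (by omega) c3]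
            · rfl
          rw [this]
          simp only [F]
          rw [if_neg c2]; ring
      rw [e1, e2, ← Finset.mul_sum, Finset.sum_range_sub F]
      have e3 : F m = d₂ := by
        simp only [F]
        rw [if_neg (by omega), ← hβe, ← vx_length, f2b _ le_rfl]
      have e4 : F 0 = 0 := by simp [F]
      rw [e3, e4]; simp
    · intro y w ℓ h1 h2 h3 h4
      exact area_le f₁ f₂ (fun n x y h => cd_abs h) (fun n x y h => cd_abs h) h1 h2 h3 h4

end geo

end Crest.Agent.ZD.Gl
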