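import Crest.Agent.ZD.Defs

set_option autoImplicit false

namespace Crest.Agent.ZD

open FreeGroup (mk of invRev IsReduced IsCyclicallyReduced mul_mk inv_mk one_eq_mk invRev_cons
  invRev_append invRev_invRev)
open Finset (univ)

section fill
variable {S Φ A : Type} [AddCommGroup A] (wd : Φ → List (S × Bool))
  (ρ : Representation ℤ (FreeGroup S) A) (ch : Φ → A)

@[simp] lemma fprod_nil : fprod wd [] = 1 := rfl
@[simp] lemma fchain_nil : fchain ρ ch ([] : List (FreeGroup S × Φ)) = 0 := rfl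
@[simp] lemma fper_nil : fper wd [] = 0 := rfl

@[simp] lemma fprod_cons (p : FreeGroup S × Φ) (l : List (FreeGroup S × Φ)) :
    fprod wd (p :: l) = p.1 * mk (wd p.2) * p.1⁻¹ * fprod wd l := by simp [fprod]
@[simp] lemma fchain_cons (p : FreeGroup S × Φ) (l : List (FreeGroup S × Φ)) :
    fchain ρ ch (p :: l) = ρ p.1 (ch p.2) + fchain ρ ch l := by simp [fchain]
@[simp] lemma fper_cons (p : FreeGroup S × Φ) (l : List (FreeGroup S × Φ)) :
    fper wd (p :: l) = (wd p.2).length + fper wd l := by simp [fper]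

@[simp] lemma fprod_append (l l' : List (FreeGroup S × Φ)) :
    fprod wd (l ++ l') = fprod wd l * fprod wd l' := by simp [fprod]
@[simp] lemma fchain_append (l l' : List (FreeGroup S × Φ)) :
    fchain ρ ch (l ++ l') = fchain ρ ch l + fchain ρ ch l' := by simp [fchain]
@[simp] lemma fper_append (l l' : List (FreeGroup S × Φ)) :
    fper wd (l ++ l') = fper wd l + fper wd l' := by simp [fper]

lemma fprod_flatMap {ι : Type} (L : List ι) (T : ι → List (FreeGroup S × Φ)) :
    fprod wd (L.flatMap T) = (L.map fun m => fprod wd (T m)).prod := by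
  induction L with
  | nil => simp
  | cons a L ih => simp [ih]

lemma fchain_flatMap {ι : Type} (L : List ι) (T : ι → List (FreeGroup S × Φ)) :
    fchain ρ ch (L.flatMap T) = (L.map fun m => fchain ρ ch (T m)).sum := by
  induction L with
  | nil => simp
  | cons a L ih => simp [ih]

lemma fper_flatMap {ι : Type} (L : List ι) (T : ι → List (FreeGroup S × Φ)) :
    fper wd (L.flatMap T) = (L.map fun m => fper wd (T m)).sum := by
  induction L with
  | nil => simp
  | cons a L ih => simp [ih]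

lemma length_le_fper {g : ℕ} {l : List (FreeGroup S × Φ)} (h : ∀ p ∈ l, g ≤ (wd p.2).length) :
    l.length * g ≤ fper wd l := by
  induction l with
  | nil => simp
  | cons a l ih =>
    have h1 := h a (by simp)
    have h2 := ih fun p hp => h p (by simp [hp])
    simp only [List.length_cons, fper_cons]
    nlinarith

end fill

lemma mk_inv_letter {S : Type} (d : S × Bool) :
    (mk [(d.1, !d.2)] : FreeGroup S) = (mk [d])⁻¹ := by
  rw [inv_mk]; simp [invRev]

lemma invRev_singleton' {S : Type} (d : S × Bool) : invRev [d] = [(d.1, !d.2)] := by simp [invRev]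

/-- faces: closed walks, or walks from the base point to another marked vertex -/
structure OF {S G : Type} [Group G] (Γ : LG S) (U : Set Γ.V) (x₀ : Γ.V)
    (π : FreeGroup S →* G) where
  st : Γ.V
  en : Γ.V
  wd : List (S × Bool)
  run : Γ.run st wd = some en
  ok : en = st ∨ (st = x₀ ∧ en ∈ U)
  ker : π (FreeGroup.mk wd) = 1

section OF
variable {S G : Type} [Group G] {Γ : LG S} {U : Set Γ.V} {x₀ : Γ.V} {π : FreeGroup S →* G}

/-- chain of a face -/
noncomputable def OF.ch (q : OF Γ U x₀ π) : G × Γ.V × S →₀ ℤ := wch π Γ 1 q.st q.wd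

open Classical in
/-- number of open faces -/
noncomputable def nopen (l : List (FreeGroup S × OF Γ U x₀ π)) : ℕ :=
  (l.map fun p => if p.2.en = p.2.st then 0 else 1).sum

@[simp] lemma nopen_nil : nopen ([] : List (FreeGroup S × OF Γ U x₀ π)) = 0 := rfl

open Classical in
@[simp] lemma nopen_cons (p : FreeGroup S × OF Γ U x₀ π) (l : List (FreeGroup S × OF Γ U x₀ π)) :
    nopen (p :: l) = (if p.2.en = p.2.st then 0 else 1) + nopen l := by simp [nopen]

@[simp] lemma nopen_append (l l' : List (FreeGroup S × OF Γ U x₀ π)) :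
    nopen (l ++ l') = nopen l + nopen l' := by simp [nopen]

lemma nopen_flatMap {ι : Type} (L : List ι) (T : ι → List (FreeGroup S × OF Γ U x₀ π)) :
    nopen (L.flatMap T) = (L.map fun m => nopen (T m)).sum := by
  induction L with
  | nil => simp
  | cons a L ih => simp [ih]

lemma wrep_ch (g : FreeGroup S) (q : OF Γ U x₀ π) :
    wrep π Γ g q.ch = wch π Γ (π g) q.st q.wd := by
  rw [OF.ch, wrep_wch, mul_one]

/-- same product, chain and number of open faces -/
def Eqv (l' l : List (FreeGroup S × OF Γ U x₀ π)) : Prop :=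
  fprod OF.wd l' = fprod OF.wd l ∧
    fchain (wrep π Γ) OF.ch l' = fchain (wrep π Γ) OF.ch l ∧ nopen l' = nopen l

/-- minimal fillings -/
def IsMin (l : List (FreeGroup S × OF Γ U x₀ π)) : Prop :=
  ∀ l', Eqv l' l → fper OF.wd l ≤ fper OF.wd l' ∧
    (fper OF.wd l' = fper OF.wd l → l.length ≤ l'.length)

lemma exists_min (l : List (FreeGroup S × OF Γ U x₀ π)) :
    ∃ l', Eqv l' l ∧ IsMin l' ∧ fper OF.wd l' ≤ fper OF.wd l := by
  classical
  have h1 : ∃ n, ∃ l', Eqv l' l ∧ fper OF.wd l' = n := ⟨_, l, ⟨rfl, rfl, rfl⟩, rfl⟩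
  have h2 : ∃ m, ∃ l', Eqv l' l ∧ fper OF.wd l' = Nat.find h1 ∧ l'.length = m := by
    obtain ⟨l', h, h'⟩ := Nat.find_spec h1
    exact ⟨_, l', h, h', rfl⟩
  obtain ⟨l', he, hp, hm⟩ := Nat.find_spec h2
  refine ⟨l', he, fun l'' h'' => ?_, ?_⟩
  · have he' : Eqv l'' l := ⟨h''.1.trans he.1, h''.2.1.trans he.2.1, h''.2.2.trans he.2.2⟩
    refine ⟨?_, fun hq => ?_⟩
    · rw [hp]; exact Nat.find_min' h1 ⟨l'', he', rfl⟩
    · rw [hm]; exact Nat.find_min' h2 ⟨l'', he', hq.trans hp, rfl⟩
  · rw [hp]; exact Nat.find_min' h1 ⟨l, ⟨rfl, rfl, rfl⟩, rfl⟩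

lemma IsMin.repl {l : List (FreeGroup S × OF Γ U x₀ π)} (h : IsMin l)
    {p : FreeGroup S × OF Γ U x₀ π} (hp : p ∈ l) (m : List (FreeGroup S × OF Γ U x₀ π))
    (he : Eqv m [p]) : p.2.wd.length ≤ fper OF.wd m ∧
      (fper OF.wd m = p.2.wd.length → m ≠ []) := by
  obtain ⟨l₁, l₂, rfl⟩ := List.append_of_mem hp
  obtain ⟨e1, e2, e3⟩ := he
  simp only [fprod_cons, fprod_nil, mul_one, fchain_cons, fchain_nil, add_zero, nopen_cons,
    nopen_nil] at e1 e2 e3
  have := h (l₁ ++ m ++ l₂) ⟨by simp [e1, mul_assoc], by simp [e2],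
    by simp [e3]⟩
  simp only [fper_append, fper_cons, List.length_append, List.length_cons] at this
  refine ⟨by omega, fun hq hm => ?_⟩
  subst hm
  have h3 := this.2 (by omega)
  simp at h3

lemma IsMin.split {l : List (FreeGroup S × OF Γ U x₀ π)} (h : IsMin l)
    (hπ : ∀ x u, Γ.run x u = some x → π (mk u) = 1)
    {p : FreeGroup S × OF Γ U x₀ π} (hp : p ∈ l) {u₁ X u₂ u₃ : List (S × Bool)} {b : Γ.V}
    (hw : p.2.wd = u₁ ++ X ++ u₂ ++ invRev X ++ u₃) (hb : Γ.run p.2.st (u₁ ++ X) = some b)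
    (hc : Γ.run b u₂ = some b) : X = [] := by
  obtain ⟨a, ha1, ha2⟩ := Γ.run_append_eq_some.mp hb
  have hX := Γ.run_invRev ha2
  have h3 : Γ.run a u₃ = some p.2.en := by
    have := p.2.run
    rw [hw, Γ.run_append, Γ.run_append, Γ.run_append, hb] at this
    simpa [hc, hX] using this
  have hk := p.2.ker
  have hk2 := hπ _ _ hc
  rw [hw] at hk
  simp only [← mul_mk, ← inv_mk, map_mul, map_inv, hk2, mul_one, mul_inv_cancel_right] at hk
  let q₁ : OF Γ U x₀ π := ⟨b, b, u₂, hc, Or.inl rfl, hk2⟩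
  let q₂ : OF Γ U x₀ π := ⟨p.2.st, p.2.en, u₁ ++ u₃, Γ.run_append_eq_some.mpr ⟨a, ha1, h3⟩,
    p.2.ok, by rw [← mul_mk, map_mul, hk]⟩
  have := h.repl hp [(p.1 * mk (u₁ ++ X), q₁), (p.1, q₂)] ⟨?_, ?_, ?_⟩
  · have h4 := this.1
    simp only [fper_cons, fper_nil, hw, List.length_append, FreeGroup.invRev_length, q₁,
      q₂] at h4
    exact List.length_eq_zero_iff.mp (by omega)
  · simp only [fprod_cons, fprod_nil, hw, ← mul_mk, ← inv_mk, q₁, q₂]
    group
  · simp only [fchain_cons, fchain_nil, wrep_ch, q₁, q₂, hw, add_zero]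
    have e1 : Γ.run p.2.st (u₁ ++ X ++ u₂) = some b := Γ.run_append_eq_some.mpr ⟨b, hb, hc⟩
    have e2 : Γ.run p.2.st (u₁ ++ X ++ u₂ ++ invRev X) = some a :=
      Γ.run_append_eq_some.mpr ⟨b, e1, hX⟩
    rw [wch_append π Γ _ e2, wch_append π Γ _ e1, wch_append π Γ _ hb, wch_append π Γ _ ha1,
      wch_append π Γ _ ha1]
    have e3 : π p.1 * π (mk (u₁ ++ X ++ u₂)) = π p.1 * π (mk u₁) * π (mk X) := by
      simp only [← mul_mk, map_mul, hk2, mul_one, mul_assoc]
    have e4 : π p.1 * π (mk (u₁ ++ X ++ u₂ ++ invRev X)) = π p.1 * π (mk u₁) := by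
      simp only [← mul_mk, ← inv_mk, map_mul, map_inv, hk2, mul_one, mul_inv_cancel_right]
    rw [e3, e4, wch_invRev π Γ ha2, map_mul]
    abel
  · simp [q₁, q₂]

lemma IsMin.reduced {l : List (FreeGroup S × OF Γ U x₀ π)} (h : IsMin l)
    (hπ : ∀ x u, Γ.run x u = some x → π (mk u) = 1)
    {p : FreeGroup S × OF Γ U x₀ π} (hp : p ∈ l) : IsReduced p.2.wd := by
  by_contra hr
  rw [FreeGroup.isReduced_iff_not_step] at hr
  push Not at hr
  obtain ⟨L₂, hs⟩ := hr
  generalize hw : p.2.wd = w at hs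
  cases hs with
  | @not u₁ u₃ x b =>
    have hw' : p.2.wd = u₁ ++ [(x, b)] ++ [] ++ invRev [(x, b)] ++ u₃ := by
      rw [hw]; simp [invRev]
    have hr := p.2.run
    rw [hw', List.append_assoc, List.append_assoc, Γ.run_append_eq_some] at hr
    obtain ⟨c, hc, _⟩ := hr
    have := h.split hπ hp hw' hc rfl
    simp at this

lemma IsMin.ne_nil {l : List (FreeGroup S × OF Γ U x₀ π)} (h : IsMin l)
    {p : FreeGroup S × OF Γ U x₀ π} (hp : p ∈ l) : p.2.wd ≠ [] := by
  intro hw
  have hc : p.2.en = p.2.st := by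
    have := p.2.run
    rw [hw] at this
    exact (Option.some.inj this).symm
  have := (h.repl hp [] ⟨by simp [hw, ← one_eq_mk], by simp [OF.ch, hw], by simp [hc]⟩).2
  simp [hw] at this

lemma IsMin.cyc {l : List (FreeGroup S × OF Γ U x₀ π)} (h : IsMin l)
    (hπ : ∀ x u, Γ.run x u = some x → π (mk u) = 1)
    {p : FreeGroup S × OF Γ U x₀ π} (hp : p ∈ l) (hc : p.2.en = p.2.st) :
    IsReduced (p.2.wd ++ p.2.wd) := by
  have hr := h.reduced hπ hp
  unfold FreeGroup.IsReduced at hr ⊢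
  rw [List.isChain_append]
  refine ⟨hr, hr, fun a ha b hb hab => ?_⟩
  by_contra hne
  obtain ⟨u, hu⟩ : ∃ u, p.2.wd = b :: u := by
    cases hw : p.2.wd with
    | nil => simp [hw] at hb
    | cons c u => simp only [hw, List.head?_cons, Option.mem_def, Option.some.injEq] at hb; exact ⟨u, by rw [hb]⟩
  have hu0 : u ≠ [] := by
    rintro rfl
    simp only [hu, List.getLast?_singleton, Option.mem_def, Option.some.injEq] at ha
    exact hne (by rw [ha])
  obtain ⟨u', a', rfl⟩ := List.eq_nil_or_concat' u |>.resolve_left hu0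
  have haa : a' = a := by
    rw [hu, ← List.cons_append, List.getLast?_concat] at ha
    simpa using ha
  subst haa
  have ha' : invRev [b] = [a'] := by
    obtain ⟨a1, a2⟩ := a'
    obtain ⟨b1, b2⟩ := b
    simp only at hab hne
    subst hab
    cases a2 <;> cases b2 <;> simp_all [invRev]
  have hw : p.2.wd = [] ++ [b] ++ u' ++ invRev [b] ++ [] := by rw [hu, ha']; simp
  have hrun := p.2.run
  rw [hw, List.append_nil, Γ.run_append_eq_some] at hrun
  obtain ⟨c, hc1, hc2⟩ := hrun
  rw [Γ.run_append_eq_some] at hc1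
  obtain ⟨c', hc3, hc4⟩ := hc1
  have h5 := Γ.run_invRev hc2
  rw [invRev_invRev, hc] at h5
  have hcc : c' = c := by
    rw [List.nil_append, h5] at hc3
    exact (Option.some.inj hc3).symm
  subst hcc
  have := h.split hπ hp hw hc3 hc4
  simp at this

end OF

end Crest.Agent.ZD
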