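import Crest.Agent.ZD.GlobA
import Crest.Agent.ZD.LocA
import Crest.Agent.ZD.Diag

set_option autoImplicit false

namespace Crest.Agent.ZD.Gl

open FreeGroup (mk of invRev IsReduced IsCyclicallyReduced mul_mk inv_mk one_eq_mk invRev_cons
  invRev_append invRev_invRev)
open Finset (univ range)

/-- statement of `Diag.cut` -/
def CutStmt : Prop := ∀ {S Φ A : Type} [AddCommGroup A] {wd : Φ → List (S × Bool)}
    (ρ : Representation ℤ (FreeGroup S) A) (ch : Φ → A)
    (_ : ∀ φ a, ρ (FreeGroup.mk (wd φ)) a = a) (D : Diag wd) (u α v β : List (ℕ × Bool))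
    (_ : D.ω = u ++ α ++ v) (_ : (FreeGroup.mk β)⁻¹ * FreeGroup.mk α ∈ faceN D.fs)
    (_ : (β.map Prod.fst).Nodup)
    (_ : ∀ e ∈ β.map Prod.fst, ∃ θ : FreeGroup ℕ →* Multiplicative ℤ,
      (∀ f ∈ D.fs, θ (FreeGroup.mk f.2.1) = 1) ∧ θ (of e) ≠ 1 ∧
        ∀ e' ∈ β.map Prod.fst, e' ≠ e → θ (of e') = 1),
    ∃ l₁ l₂ : List (FreeGroup S × Φ), l₁.length + l₂.length = D.fs.length ∧
      fprod wd l₁ = FreeGroup.mk (sub D.lab (u ++ α ++ invRev β ++ invRev u)) ∧
      fprod wd l₂ = FreeGroup.mk (sub D.lab (u ++ β ++ v)) ∧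
      fchain ρ ch l₁ + fchain ρ ch l₂ = fchain ρ ch D.fill ∧
      ∃ ws : List (List (ℕ × Bool)), (∀ w ∈ ws, ∃ f ∈ D.fs, f.2.1 = w) ∧
        ws.length = l₁.length ∧ ∀ θ : FreeGroup ℕ →* Multiplicative ℤ,
          θ (FreeGroup.mk α) * (θ (FreeGroup.mk β))⁻¹ =
            (ws.map fun w => θ (FreeGroup.mk w)).prod

/-- statement of `Diag.peel_one` -/
def PeelStmt : Prop := ∀ {S Φ A : Type} [DecidableEq S] [AddCommGroup A]
    {wd : Φ → List (S × Bool)}
    (ρ : Representation ℤ (FreeGroup S) A) (ch : Φ → A)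
    (_ : ∀ φ a, ρ (FreeGroup.mk (wd φ)) a = a) (ℓ : ℕ) (_ : ∀ φ, (wd φ).length ≤ ℓ)
    (D : Diag wd) (_ : D.fs ≠ []),
    ∃ (g k : FreeGroup S) (φ : Φ) (l : List (FreeGroup S × Φ)), l.length + 1 = D.fs.length ∧
      fprod wd ((g, φ) :: l) = fprod wd D.fill ∧ fchain ρ ch ((g, φ) :: l) = fchain ρ ch D.fill ∧
      (k * fprod wd l * k⁻¹).norm ≤ (sub D.lab D.ω).length + ℓ

section mins
variable {S Φ A : Type} [AddCommGroup A] (wd : Φ → List (S × Bool))
  (ρ : Representation ℤ (FreeGroup S) A) (ch : Φ → A)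

/-- fillings with the least number of faces -/
def Mn (l : List (FreeGroup S × Φ)) : Prop :=
  ∀ l', fprod wd l' = fprod wd l → fchain ρ ch l' = fchain ρ ch l → l.length ≤ l'.length

/-- conjugate filling -/
def cj (k : FreeGroup S) (l : List (FreeGroup S × Φ)) : List (FreeGroup S × Φ) :=
  l.map fun p => (k * p.1, p.2)

lemma exists_mn (l : List (FreeGroup S × Φ)) :
    ∃ l', fprod wd l' = fprod wd l ∧ fchain ρ ch l' = fchain ρ ch l ∧ Mn wd ρ ch l' := by
  classical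
  have h : ∃ n, ∃ l', fprod wd l' = fprod wd l ∧ fchain ρ ch l' = fchain ρ ch l ∧
    l'.length = n := ⟨_, l, rfl, rfl, rfl⟩
  obtain ⟨l', h1, h2, h3⟩ := Nat.find_spec h
  refine ⟨l', h1, h2, fun l'' h4 h5 => ?_⟩
  rw [h3]
  exact Nat.find_min' h ⟨l'', h4.trans h1, h5.trans h2, rfl⟩

lemma fprod_cj (k : FreeGroup S) (l : List (FreeGroup S × Φ)) :
    fprod wd (cj k l) = k * fprod wd l * k⁻¹ := by
  induction l with
  | nil => simp [cj]
  | cons p l ih =>
    have : cj k (p :: l) = (k * p.1, p.2) :: cj k l := rfl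
    rw [this, fprod_cons, fprod_cons, ih]
    group

lemma fchain_cj (k : FreeGroup S) (l : List (FreeGroup S × Φ)) :
    fchain ρ ch (cj k l) = ρ k (fchain ρ ch l) := by
  induction l with
  | nil => simp [cj]
  | cons p l ih =>
    have : cj k (p :: l) = (k * p.1, p.2) :: cj k l := rfl
    rw [this, fchain_cons, fchain_cons, ih, map_add, map_mul]
    rfl

@[simp] lemma length_cj (k : FreeGroup S) (l : List (FreeGroup S × Φ)) :
    (cj k l).length = l.length := by simp [cj]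

variable {wd ρ ch}

lemma Mn.cj {l : List (FreeGroup S × Φ)} (h : Mn wd ρ ch l) (k : FreeGroup S) :
    Mn wd ρ ch (cj k l) := by
  intro l' h1 h2
  have := h (Gl.cj k⁻¹ l') (by rw [fprod_cj, h1, fprod_cj]; group)
    (by
      rw [fchain_cj, h2, fchain_cj, ← Module.End.mul_apply, ← map_mul, inv_mul_cancel, map_one]
      rfl)
  simpa using this

lemma Mn.of_eqv {l l' : List (FreeGroup S × Φ)} (h : Mn wd ρ ch l)
    (h1 : fprod wd l' = fprod wd l) (h2 : fchain ρ ch l' = fchain ρ ch l)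
    (h3 : l'.length = l.length) : Mn wd ρ ch l' := fun l'' h4 h5 => by
  rw [h3]; exact h l'' (h4.trans h1) (h5.trans h2)

lemma Mn.left {l₁ l₂ : List (FreeGroup S × Φ)} (h : Mn wd ρ ch (l₁ ++ l₂)) : Mn wd ρ ch l₁ := by
  intro l' h1 h2
  have := h (l' ++ l₂) (by simp [h1]) (by simp [h2])
  simpa using this

lemma Mn.right {l₁ l₂ : List (FreeGroup S × Φ)} (h : Mn wd ρ ch (l₁ ++ l₂)) : Mn wd ρ ch l₂ := by
  intro l' h1 h2
  have := h (l₁ ++ l') (by simp [h1]) (by simp [h2])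
  simpa using this

end mins

lemma length_sub_one {S : Type} {lab : ℕ → List (S × Bool)} {w : List (ℕ × Bool)}
    (h : ∀ d ∈ w, (lab d.1).length = 1) : (sub lab w).length = w.length := by
  induction w with
  | nil => rfl
  | cons d w ih =>
    rw [sub_cons, List.length_append, ih fun c hc => h c (by simp [hc]), List.length_cons]
    have := h d (by simp)
    split_ifs
    · omega
    · rw [FreeGroup.invRev_length]; omega

lemma pth_of_isPath {N : Subgroup (FreeGroup ℕ)} [N.Normal] {st : ℕ → FreeGroup ℕ}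
    {x : FreeGroup ℕ} {w : List (ℕ × Bool)} (h : IsPath N st x w) :
    Pth (QuotientGroup.mk' N) (fun e => QuotientGroup.mk' N (st e)) (QuotientGroup.mk' N x) w := by
  induction w generalizing x with
  | nil => trivial
  | cons d w ih =>
    refine ⟨?_, ?_⟩
    · have h1 := QuotientGroup.eq.mpr h.1
      obtain ⟨e, b⟩ := d
      cases b
      · simp only [Bool.false_eq_true, if_false, mk_false] at h1
        simp only [src, Bool.false_eq_true, if_false, QuotientGroup.mk'_apply, ← h1]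
        rw [← QuotientGroup.mk_mul, inv_mul_cancel_right]
      · simp only [if_true] at h1
        simp only [src, if_true, QuotientGroup.mk'_apply, ← h1]
    · rw [← map_mul]; exact ih h.2

lemma toAdd_prod_le (θ : FreeGroup ℕ →* Multiplicative ℤ) (ws : List (List (ℕ × Bool))) (c : ℤ)
    (h : ∀ w ∈ ws, Multiplicative.toAdd (θ (mk w)) ≤ c) :
    Multiplicative.toAdd (ws.map fun w => θ (mk w)).prod ≤ ws.length * c := by
  induction ws with
  | nil => simp
  | cons w ws ih =>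
    have h1 := h w (by simp)
    have h2 := ih fun w' hw' => h w' (by simp [hw'])
    simp only [List.map_cons, List.prod_cons, toAdd_mul, List.length_cons]
    push_cast
    linarith

lemma ar1 {C ℓ n m N : ℕ} (h6 : m * ℓ ≤ 3 * C * N) (h4 : N ≤ n + ℓ) :
    (m + 1) * ℓ ≤ ℓ + 3 * C * (n + ℓ) := by
  have h7 := Nat.mul_le_mul_left (3 * C) h4
  nlinarith

lemma ar2 {C ℓ n a c : ℕ} (h0 : 0 < ℓ) (hpb : a * ℓ ≤ ℓ + 3 * C * (n + ℓ)) (hsm : n < 8 * (c * ℓ)) :
    a ≤ 1 + 3 * C * (8 * c + 1) := by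
  have h1 : a * ℓ ≤ (1 + 3 * C * (8 * c + 1)) * ℓ := by
    have := Nat.mul_le_mul_left (3 * C) (show n + ℓ ≤ 8 * (c * ℓ) + ℓ by omega)
    nlinarith
  exact Nat.le_of_mul_le_mul_right h1 h0

lemma ar3 {C ℓ m s t : ℕ} (h0 : m * ℓ ≤ ℓ + 3 * C * (s + t + ℓ)) (h1 : 8 * (79 * (C + 1) * ℓ) ≤ s)
    (h2 : 2 * t ≤ s) : m * ℓ ≤ 6 * (C + 1) * s := by
  have hℓα : 8 * ℓ ≤ s := by nlinarith
  have h1 := Nat.mul_le_mul_left (3 * C) (show s + t + ℓ ≤ 2 * s by omega)
  nlinarith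

lemma ar4 {C ℓ m s : ℕ} (h0 : 0 < ℓ) (b1 : m * ℓ ≤ 6 * (C + 1) * s)
    (hbig : 24 * (79 * (C + 1) * ℓ) ≤ s)
    (h2 : 2 * (s / 12) * (79 * (C + 1) * ℓ) ≤ m * (2 * ℓ ^ 2)) : False := by
  have h3 : s ≤ 13 * (s / 12) := by
    have : 79 ≤ 79 * (C + 1) * ℓ := by nlinarith
    omega
  have h7 : 0 < s / 12 := by
    have : 79 ≤ 79 * (C + 1) * ℓ := by nlinarith
    omega
  generalize s / 12 = r at h2 h3 h7
  have h4 : r * (79 * (C + 1)) * ℓ ≤ 6 * (C + 1) * s * ℓ := by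
    have := Nat.mul_le_mul_right ℓ b1
    nlinarith
  have h5 : r * (79 * (C + 1)) ≤ 6 * (C + 1) * s := Nat.le_of_mul_le_mul_right h4 h0
  have h6 := Nat.mul_le_mul_left (6 * (C + 1)) h3
  nlinarith

lemma ar5 {C ℓ m s c : ℕ} (h0 : 0 < ℓ) (b1 : m * ℓ ≤ 6 * (C + 1) * s) (h : ¬ 24 * (c * ℓ) ≤ s) :
    m ≤ 144 * (C + 1) * c := by
  have h1 : m * ℓ ≤ 144 * (C + 1) * c * ℓ := by
    have := Nat.mul_le_mul_left (6 * (C + 1)) (show s ≤ 24 * (c * ℓ) by omega)
    nlinarith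
  exact Nat.le_of_mul_le_mul_right h1 h0

lemma ar6 {C ℓ m₁ m₂ u s t v : ℕ} (h4 : m₁ * ℓ ≤ C * (s + t)) (b2 : m₂ * ℓ ≤ 3 * C * (u + t + v))
    (h : 2 * t ≤ s) : (m₁ + m₂) * ℓ ≤ 3 * C * (u + s + v) := by
  have h6 := Nat.mul_le_mul_left C h
  nlinarith

lemma ar7 {C ℓ x N : ℕ} (h : x ≤ 3 * C * N) : x ≤ ℓ + 3 * C * (N + ℓ) := by nlinarith

theorem glob_aux (hcut : CutStmt) (hpeel : PeelStmt) (C K : ℕ)
    (hK1 : 1 + 3 * C * (8 * (79 * (C + 1)) + 1) ≤ K) (hK2 : 144 * (C + 1) * (79 * (C + 1)) ≤ K)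
    {S Φ A : Type} [DecidableEq S] [AddCommGroup A]
    (wd : Φ → List (S × Bool)) (ρ : Representation ℤ (FreeGroup S) A) (ch : Φ → A) (ℓ : ℕ)
    (hℓ0 : 0 < ℓ) (hℓ : ∀ φ, (wd φ).length ≤ ℓ) (hred : ∀ φ, IsReduced (wd φ))
    (htriv : ∀ φ a, ρ (mk (wd φ)) a = a)
    (hloc : ∀ l : List (FreeGroup S × Φ), Mn wd ρ ch l → l.length ≤ K →
      l.length * ℓ ≤ C * (fprod wd l).norm) (a : ℕ) :
    ∀ (n : ℕ) (l : List (FreeGroup S × Φ)), Mn wd ρ ch l → l.length = a → (fprod wd l).norm = n →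
      a * ℓ ≤ 3 * C * n := by
  induction a using Nat.strong_induction_on with
  | _ a iha =>
  intro n
  induction n using Nat.strong_induction_on with
  | _ n ihn =>
  intro l hl hla hln
  have IH : ∀ (l' : List (FreeGroup S × Φ)) (k : FreeGroup S), Mn wd ρ ch l' → l'.length ≤ a →
      (l'.length < a ∨ (k * fprod wd l' * k⁻¹).norm < n) →
      l'.length * ℓ ≤ 3 * C * (k * fprod wd l' * k⁻¹).norm := by
    intro l' k h1 h2 h3
    rcases lt_or_eq_of_le h2 with h4 | h4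
    · exact iha _ h4 _ (cj k l') (h1.cj k) (by simp) (by rw [fprod_cj])
    · rw [h4]
      exact ihn _ (h3.resolve_left (by omega)) (cj k l') (h1.cj k) (by simpa using h4)
        (by rw [fprod_cj])
  rcases Nat.eq_zero_or_pos a with ha0 | ha0
  · simp [ha0]
  obtain ⟨D, hfill, hωl, hlab, -⟩ := exists_diag wd l (fun p _ => hred p.2) 1 one_pos
  have hlab1 : ∀ d ∈ D.used, (D.lab d.1).length = 1 := by
    intro d hd
    have h1 := hlab d hd
    have h2 := List.length_pos_iff.mpr h1.1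
    omega
  have hfsl : D.fs.length = a := by rw [← hla, ← hfill]; simp [Diag.fill]
  have hsubl : (sub D.lab D.ω).length = n := by rw [hωl, ← hln]; rfl
  have hΛ : D.ω.length = n := by
    rw [← hsubl, length_sub_one]
    intro d hd
    exact hlab1 d (by simp [Diag.used, hd])
  -- the peeling bound
  have hpb : a * ℓ ≤ ℓ + 3 * C * (n + ℓ) := by
    obtain ⟨g, k, φ, l', h1, h2, h3, h4⟩ := hpeel ρ ch htriv ℓ hℓ D
      (by rw [← List.length_pos_iff]; omega)
    rw [hfill] at h2 h3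
    have h5 : Mn wd ρ ch ([(g, φ)] ++ l') := hl.of_eqv h2 h3 (by simp; omega)
    have h6 := IH l' k h5.right (by omega) (Or.inl (by omega))
    rw [hsubl] at h4
    have : a = l'.length + 1 := by omega
    rw [this]
    exact ar1 h6 h4
  obtain ⟨c, hc⟩ : ∃ c, c = 79 * (C + 1) := ⟨_, rfl⟩
  rw [← hc] at hK1 hK2
  by_cases hsm : n < 8 * (c * ℓ)
  · have h2 : a ≤ K := (ar2 hℓ0 hpb hsm).trans hK1
    have h3 := hloc l hl (by omega)
    rw [hla, hln] at h3
    exact h3.trans (Nat.mul_le_mul_right n (by omega))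
  have hN : (faceN D.fs).Normal := Subgroup.normalClosure_normal
  have hface : ∀ f ∈ D.fs, QuotientGroup.mk' (faceN D.fs) (mk f.2.1) = 1 := by
    intro f hf
    rw [QuotientGroup.mk'_apply, QuotientGroup.eq_one_iff]
    exact Subgroup.subset_normalClosure ⟨f, hf, rfl⟩
  have hωc : QuotientGroup.mk' (faceN D.fs) (mk D.ω) = 1 := by
    rw [D.planar, map_list_prod, List.map_map]
    apply List.prod_eq_one
    intro x hx
    obtain ⟨f, hf, rfl⟩ := List.mem_map.mp hx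
    simp only [Function.comp, map_mul, map_inv, hface f hf, mul_one, mul_inv_cancel]
  have hωp := pth_of_isPath D.pathω
  rw [map_one] at hωp
  have hcl : 1 ≤ c * ℓ := Nat.mul_pos (by omega) hℓ0
  obtain ⟨u, α, v, β, hω, hαβ, hnd, hβU, hθ, hα1, hα2, hbes⟩ :=
    arc_choice (U := {e | ∃ d ∈ D.used, d.1 = e}) hωp
      (fun d hd => ⟨d, by simp [Diag.used, hd], rfl⟩) hωc (c * ℓ) (by omega) hcl
  obtain ⟨l₁, l₂, e1, e2, e3, e4, ws, hws, hwl, hwθ⟩ := hcut ρ ch htriv D u α v β hω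
    (QuotientGroup.eq.mp hαβ) hnd (by
      intro e he
      obtain ⟨θ, t1, t2, t3⟩ := hθ e he
      exact ⟨θ, fun f hf => t1 _ _ (pth_of_isPath (D.pathf f hf)) (hface f hf), t2, t3⟩)
  have hl12 : Mn wd ρ ch (l₁ ++ l₂) := by
    refine hl.of_eqv ?_ (by rw [fchain_append, e4, hfill]) (by simp; omega)
    rw [fprod_append, e2, e3, ← hfill, D.fprod_fill, hω]
    simp only [sub_append, sub_invRev, ← mul_mk, ← inv_mk]
    group
  have hlu : ∀ d ∈ D.ω, (D.lab d.1).length = 1 := fun d hd => hlab1 d (by simp [Diag.used, hd])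
  have hlβ : ∀ d ∈ β, (D.lab d.1).length = 1 := by
    intro d hd
    obtain ⟨d', h1, h2⟩ := hβU d hd
    rw [← h2]; exact hlab1 d' h1
  have su : (sub D.lab u).length = u.length := length_sub_one fun d hd => hlu d (by simp [hω, hd])
  have sα : (sub D.lab α).length = α.length := length_sub_one fun d hd => hlu d (by simp [hω, hd])
  have sv : (sub D.lab v).length = v.length := length_sub_one fun d hd => hlu d (by simp [hω, hd])
  have sβ : (sub D.lab β).length = β.length := length_sub_one hlβ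
  have hn : u.length + α.length + v.length = n := by rw [← hΛ, hω]; simp [add_assoc]
  have n2 : (1 * fprod wd l₂ * 1⁻¹).norm ≤ u.length + β.length + v.length := by
    rw [one_mul, inv_one, mul_one, e3]
    refine FreeGroup.norm_mk_le.trans ?_
    simp only [sub_append, List.length_append, su, sβ, sv, le_refl]
  have n1 : ((mk (sub D.lab u))⁻¹ * fprod wd l₁ * ((mk (sub D.lab u))⁻¹)⁻¹).norm ≤
      α.length + β.length := by
    have : (mk (sub D.lab u))⁻¹ * fprod wd l₁ * ((mk (sub D.lab u))⁻¹)⁻¹ =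
        mk (sub D.lab α ++ invRev (sub D.lab β)) := by
      rw [e2]
      simp only [sub_append, sub_invRev, ← mul_mk, ← inv_mk]
      group
    rw [this]
    refine FreeGroup.norm_mk_le.trans ?_
    simp only [List.length_append, FreeGroup.invRev_length, sα, sβ, le_refl]
  have b2 : l₂.length * ℓ ≤ 3 * C * (u.length + β.length + v.length) :=
    (IH l₂ 1 hl12.right (by omega) (Or.inr (by omega))).trans (Nat.mul_le_mul_left _ n2)
  have b1 : l₁.length * ℓ ≤ 6 * (C + 1) * α.length := by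
    have h0 : l₁.length * ℓ ≤ ℓ + 3 * C * (α.length + β.length + ℓ) := by
      by_cases h1 : l₁.length < a ∨
        ((mk (sub D.lab u))⁻¹ * fprod wd l₁ * ((mk (sub D.lab u))⁻¹)⁻¹).norm < n
      · exact ar7 ((IH l₁ _ hl12.left (by omega) h1).trans (Nat.mul_le_mul_left _ n1))
      · push Not at h1
        have h2 : l₁.length = a := by omega
        have h3 := Nat.mul_le_mul_left (3 * C) (show n + ℓ ≤ α.length + β.length + ℓ by omega)
        rw [h2]; omega
    exact ar3 h0 (hc ▸ hα1) hα2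
  by_cases hbig : 24 * (c * ℓ) ≤ α.length
  · exfalso
    obtain ⟨θ, t1, t2⟩ := hbes hbig
    have h1 := toAdd_prod_le θ ws (2 * (ℓ : ℤ) ^ 2) (by
      intro w hw
      obtain ⟨f, hf, rfl⟩ := hws w hw
      have hfu : ∀ d ∈ f.2.1, d ∈ D.used := fun d hd => by
        simp only [Diag.used, List.mem_append, List.mem_flatMap]
        exact Or.inr ⟨f, hf, hd⟩
      refine t2 _ _ ℓ (pth_of_isPath (D.pathf f hf)) (fun d hd => ⟨d, hfu d hd, rfl⟩)
        (hface f hf) ?_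
      rw [← length_sub_one fun d hd => hlab1 d (hfu d hd), D.labf f hf]
      exact hℓ _)
    rw [← hwθ θ, t1, toAdd_ofAdd, hwl] at h1
    have h2 : 2 * (α.length / 12) * (c * ℓ) ≤ l₁.length * (2 * ℓ ^ 2) := by exact_mod_cast h1
    exact ar4 hℓ0 b1 (hc ▸ hbig) (hc ▸ h2)
  · have h2 : l₁.length ≤ K := (ar5 hℓ0 b1 hbig).trans hK2
    have h3 := hloc _ (hl12.left.cj (mk (sub D.lab u))⁻¹) (by simpa using h2)
    rw [length_cj, fprod_cj] at h3
    have h4 := h3.trans (Nat.mul_le_mul_left C n1)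
    have h5 : a = l₁.length + l₂.length := by omega
    rw [h5, ← hn]
    exact ar6 h4 b2 hα2

theorem glob_of (hcut : CutStmt) (hpeel : PeelStmt) (C : ℕ) :
    ∃ K : ℕ, ∀ (S Φ A : Type) [DecidableEq S] [AddCommGroup A]
    (wd : Φ → List (S × Bool)) (ρ : Representation ℤ (FreeGroup S) A) (ch : Φ → A) (ℓ : ℕ),
    0 < ℓ → (∀ φ, (wd φ).length ≤ ℓ) → (∀ φ, IsReduced (wd φ)) →
    (∀ φ a, ρ (mk (wd φ)) a = a) →
    (∀ l : List (FreeGroup S × Φ), l.length ≤ K → ∃ l' : List (FreeGroup S × Φ),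
      fprod wd l' = fprod wd l ∧ fchain ρ ch l' = fchain ρ ch l ∧
        l'.length * ℓ ≤ C * (fprod wd l).norm) →
    ∀ l : List (FreeGroup S × Φ), ∃ l' : List (FreeGroup S × Φ),
      fprod wd l' = fprod wd l ∧ fchain ρ ch l' = fchain ρ ch l ∧
        l'.length * ℓ ≤ 3 * C * (fprod wd l).norm := by
  refine ⟨max (1 + 3 * C * (8 * (79 * (C + 1)) + 1)) (144 * (C + 1) * (79 * (C + 1))), ?_⟩
  intro S Φ A _ _ wd ρ ch ℓ h0 h1 h2 h3 h4 l
  obtain ⟨l', e1, e2, hm⟩ := exists_mn wd ρ ch l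
  refine ⟨l', e1, e2, ?_⟩
  rw [← e1]
  refine glob_aux hcut hpeel C _ (le_max_left _ _) (le_max_right _ _) wd ρ ch ℓ h0 h1 h2 h3 ?_
    _ _ l' hm rfl rfl
  intro m hm1 hm2
  obtain ⟨m', f1, f2, f3⟩ := h4 m hm2
  exact (Nat.mul_le_mul_right ℓ (hm1 m' f1 f2)).trans f3

end Crest.Agent.ZD.Gl
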