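import Crest.Agent.ZD.LocA

set_option autoImplicit false

namespace Crest.Agent.ZD

open FreeGroup (mk of invRev IsReduced IsCyclicallyReduced mul_mk inv_mk one_eq_mk invRev_cons
  invRev_append invRev_invRev)
open Finset (univ)

lemma IsPath.append_right {N : Subgroup (FreeGroup ℕ)} {st : ℕ → FreeGroup ℕ} {x : FreeGroup ℕ}
    {a w : List (ℕ × Bool)} (h : IsPath N st x (a ++ w)) : IsPath N st (x * mk a) w := by
  induction a generalizing x with
  | nil => simpa [← one_eq_mk] using h
  | cons d a ih =>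
    have := ih h.2
    rwa [mul_assoc, mul_mk, List.singleton_append] at this

lemma IsPath.pos {N : Subgroup (FreeGroup ℕ)} {st : ℕ → FreeGroup ℕ} {x : FreeGroup ℕ}
    {a w : List (ℕ × Bool)} {d : ℕ × Bool} (h : IsPath N st x (a ++ d :: w)) :
    (if d.2 then x * mk a else x * mk a * mk [d])⁻¹ * st d.1 ∈ N := h.append_right.1

@[simp] lemma cnt_nil (e : ℕ) : cnt e [] = 0 := rfl
@[simp] lemma cnt_append (e : ℕ) (u w : List (ℕ × Bool)) : cnt e (u ++ w) = cnt e u + cnt e w := by
  simp [cnt]
lemma cnt_cons (e : ℕ) (d : ℕ × Bool) (w : List (ℕ × Bool)) :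
    cnt e (d :: w) = (if d.1 = e then 1 else 0) + cnt e w := by
  simp only [cnt, List.map_cons, List.count_cons, beq_iff_eq]; omega

lemma cnt_eq_sum (e : ℕ) (w : List (ℕ × Bool)) :
    cnt e w = (w.map fun d => if d.1 = e then 1 else 0).sum := by
  induction w with
  | nil => rfl
  | cons d w ih => rw [cnt_cons, ih]; simp

lemma cnt_eq_zero {e : ℕ} {w : List (ℕ × Bool)} : cnt e w = 0 ↔ ∀ d ∈ w, d.1 ≠ e := by
  simp only [cnt, List.count_eq_zero, List.mem_map, not_exists, not_and]

/-- signed number of occurrences -/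
def sgn (e : ℕ) (w : List (ℕ × Bool)) : ℤ :=
  (w.map fun d => if d.1 = e then (if d.2 then 1 else -1) else 0).sum

/-- exponent sum homomorphism -/
def sgH (e : ℕ) : FreeGroup ℕ →* Multiplicative ℤ :=
  FreeGroup.lift fun x => Multiplicative.ofAdd (if x = e then 1 else 0)

lemma sgH_mk (e : ℕ) (w : List (ℕ × Bool)) : sgH e (mk w) = Multiplicative.ofAdd (sgn e w) := by
  induction w with
  | nil => simp [← one_eq_mk, sgn]
  | cons d w ih =>
    rw [← List.singleton_append, ← mul_mk, map_mul, ih]
    have : sgn e ([d] ++ w) = (if d.1 = e then (if d.2 then 1 else -1) else 0) + sgn e w := by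
      simp [sgn]
    rw [this, ofAdd_add]
    congr 1
    obtain ⟨x, b⟩ := d
    cases b
    · have : (mk [(x, false)] : FreeGroup ℕ) = (of x)⁻¹ := by simp [of, inv_mk, invRev]
      rw [this, map_inv]
      by_cases h : x = e <;> simp [sgH, h]
    · have : (mk [(x, true)] : FreeGroup ℕ) = of x := rfl
      rw [this]
      by_cases h : x = e <;> simp [sgH, h]

lemma sgn_eq_zero {e : ℕ} {w : List (ℕ × Bool)} (h : cnt e w = 0) : sgn e w = 0 := by
  rw [cnt_eq_zero] at h
  apply List.sum_eq_zero
  intro x hx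
  obtain ⟨d, hd, rfl⟩ := List.mem_map.mp hx
  simp [h d hd]

lemma Diag.sgn_eq {S Φ : Type} {wd : Φ → List (S × Bool)} (D : Diag wd) (e : ℕ) :
    sgn e D.ω = sgn e (D.fs.flatMap fun f => f.2.1) := by
  have h := congrArg (sgH e) D.planar
  rw [sgH_mk, map_list_prod, List.map_map] at h
  apply Multiplicative.ofAdd.injective
  rw [h]
  generalize D.fs = fs
  induction fs with
  | nil => simp [sgn]
  | cons f fs ih =>
    have : sgn e ((f :: fs).flatMap fun f => f.2.1) = sgn e f.2.1 +
      sgn e (fs.flatMap fun f => f.2.1) := by simp [sgn]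
    rw [this, ofAdd_add, ← ih, List.map_cons, List.prod_cons]
    congr 1
    simp [sgH_mk, mul_comm]

lemma sub_eq_self {σ : ℕ → List (ℕ × Bool)} {w : List (ℕ × Bool)}
    (h : ∀ d ∈ w, σ d.1 = [(d.1, true)]) : sub σ w = w := by
  induction w with
  | nil => rfl
  | cons d w ih =>
    rw [sub_cons, ih fun d hd => h d (by simp [hd]), h d (by simp)]
    obtain ⟨x, b⟩ := d
    cases b <;> simp [invRev]

lemma sum_fin_get {α M : Type} [AddCommMonoid M] (L : List α) (F : α → M) :
    ∑ i : Fin L.length, F L[i] = (L.map F).sum := by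
  simp

lemma map_finRange_get {α β : Type} (L : List α) (F : α → β) :
    (List.finRange L.length).map (fun i => F L[i]) = L.map F := by
  apply List.ext_getElem <;> simp

lemma cnt_flatMap {α : Type} (e : ℕ) (L : List α) (F : α → List (ℕ × Bool)) :
    cnt e (L.flatMap F) = ∑ i : Fin L.length, cnt e (F L[i]) := by
  rw [sum_fin_get L fun a => cnt e (F a)]
  induction L with
  | nil => rfl
  | cons a L ih => simp [ih]

lemma sum_two {n : ℕ} {M : Type} [AddCommMonoid M] {i j : Fin n} (hij : i ≠ j) (F : Fin n → M) :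
    ∑ m, F m = F i + F j + ∑ m ∈ (univ.erase i).erase j, F m := by
  rw [← Finset.add_sum_erase _ _ (Finset.mem_univ i),
    ← Finset.add_sum_erase _ _ (Finset.mem_erase.mpr ⟨hij.symm, Finset.mem_univ j⟩), add_assoc]

lemma sum_two_congr {n : ℕ} {M : Type} [AddCommMonoid M] {i j : Fin n} (hij : i ≠ j)
    {F F' : Fin n → M} {c : M} (h1 : F i + F j + c = F' i + F' j)
    (h2 : ∀ m, m ≠ i → m ≠ j → F m = F' m) : ∑ m, F m + c = ∑ m, F' m := by
  rw [sum_two hij F, sum_two hij F', ← h1, add_right_comm]
  congr 1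
  apply Finset.sum_congr rfl
  intro m hm
  simp only [Finset.mem_erase] at hm
  exact h2 m hm.2.1 hm.1

section merge
variable {S G : Type} [Group G] {Γ : LG S} {U : Set Γ.V} {x₀ : Γ.V} {π : FreeGroup S →* G}

lemma Diag.pi_faceN (D : Diag (OF.wd : OF Γ U x₀ π → _)) {x : FreeGroup ℕ}
    (hx : x ∈ faceN D.fs) : π (subH D.lab x) = 1 := by
  have : faceN D.fs ≤ (π.comp (subH D.lab)).ker := by
    apply Subgroup.normalClosure_le_normal
    rintro _ ⟨f, hf, rfl⟩
    simp only [SetLike.mem_coe, MonoidHom.mem_ker, MonoidHom.comp_apply, subH_mk, D.labf f hf]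
    exact f.2.2.ker
  exact this hx

lemma IsMin.no_merge (D : Diag (OF.wd : OF Γ U x₀ π → _)) (h : IsMin D.fill)
    (i j : Fin D.fs.length) (hij : i ≠ j) {a a' p p' : List (ℕ × Bool)} {d : ℕ × Bool}
    (hi : D.fs[i].2.1 = a ++ d :: a') (hj : D.fs[j].2.1 = p ++ (d.1, !d.2) :: p')
    (hcl : D.fs[j].2.2.en = D.fs[j].2.2.st) {b : Γ.V}
    (hb1 : Γ.run D.fs[i].2.2.st (sub D.lab (a ++ [d])) = some b)
    (hb2 : Γ.run D.fs[j].2.2.st (sub D.lab p) = some b) : sub D.lab [d] = [] := by
  classical
  -- counting occurrences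
  have hq := D.quad d.1
  rw [cnt_append, cnt_flatMap, sum_two hij, hi, hj] at hq
  simp only [cnt_append, cnt_cons, if_true] at hq
  have hω : cnt d.1 D.ω = 0 := by omega
  have ha : cnt d.1 a = 0 := by omega
  have ha' : cnt d.1 a' = 0 := by omega
  have hp : cnt d.1 p = 0 := by omega
  have hp' : cnt d.1 p' = 0 := by omega
  have hm : ∀ m : Fin D.fs.length, m ≠ i → m ≠ j → cnt d.1 D.fs[m].2.1 = 0 := by
    intro m h1 h2
    have h0 : ∑ m ∈ (univ.erase i).erase j, cnt d.1 D.fs[m].2.1 = 0 := by omega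
    exact Finset.sum_eq_zero_iff.mp h0 m (by simp [h1, h2])
  let σ : ℕ → List (ℕ × Bool) := fun x =>
    if x = d.1 then (if d.2 then p' ++ p else invRev (p' ++ p)) else [(x, true)]
  have hσ : ∀ w, cnt d.1 w = 0 → sub σ w = w := fun w hw =>
    sub_eq_self fun c hc => by simp [σ, cnt_eq_zero.mp hw c hc]
  have hσd : sub σ [d] = p' ++ p := by
    obtain ⟨x, b⟩ := d
    cases b <;> simp [sub, σ]
  have hσd' : sub σ [(d.1, !d.2)] = invRev (p' ++ p) := by
    rw [← invRev_singleton', sub_invRev, hσd]
  -- the labels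
  set A := sub D.lab a with hA
  set A' := sub D.lab a' with hA'
  set P := sub D.lab p with hP
  set P' := sub D.lab p' with hP'
  set X := sub D.lab [d] with hX
  have hX' : sub D.lab [(d.1, !d.2)] = invRev X := by rw [← invRev_singleton', sub_invRev]
  set qi := D.fs[i].2.2 with hqi
  set qj := D.fs[j].2.2 with hqj
  have hwi : qi.wd = A ++ X ++ A' := by
    have h0 : sub D.lab D.fs[i].2.1 = qi.wd := D.labf _ (List.getElem_mem i.2)
    rw [← h0, hi, ← List.singleton_append, sub_append, sub_append, List.append_assoc]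
  have hwj : qj.wd = P ++ invRev X ++ P' := by
    have h0 : sub D.lab D.fs[j].2.1 = qj.wd := D.labf _ (List.getElem_mem j.2)
    rw [← h0, hj, ← List.singleton_append, sub_append, sub_append, List.append_assoc, hX']
  rw [sub_append, ← hA, ← hX] at hb1
  obtain ⟨b₀, hr1, hr2⟩ := Γ.run_append_eq_some.mp hb1
  have hr3 : Γ.run b A' = some qi.en := by
    have := qi.run
    rw [hwi, Γ.run_append, hb1] at this
    exact this
  have hr4 := Γ.run_invRev hr2
  have hr5 : Γ.run b₀ P' = some qj.st := by
    have := qj.run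
    rw [hwj, Γ.run_append, Γ.run_append, hb2] at this
    simpa [hr4, hcl] using this
  have hkj := qj.ker
  have hki := qi.ker
  rw [hwj] at hkj
  rw [hwi] at hki
  simp only [← mul_mk, ← inv_mk, map_mul, map_inv] at hkj hki
  have hkX : π (mk X) = π (mk P') * π (mk P) := by
    have : π (mk P') = π (mk X) * (π (mk P))⁻¹ := by
      rw [← one_mul (π (mk P')), ← inv_mul_cancel (π (mk P) * (π (mk X))⁻¹), mul_assoc, hkj]
      group
    rw [this]; group
  have hrun : Γ.run qi.st (A ++ P' ++ P ++ A') = some qi.en :=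
    Γ.run_append_eq_some.mpr ⟨b, Γ.run_append_eq_some.mpr ⟨qj.st,
      Γ.run_append_eq_some.mpr ⟨b₀, hr1, hr5⟩, hb2⟩, hr3⟩
  let qm : OF Γ U x₀ π := ⟨qi.st, qi.en, A ++ P' ++ P ++ A', hrun, qi.ok, by
    simp only [← mul_mk, map_mul]
    rw [← hki, hkX]; group⟩
  let Ψ : FreeGroup ℕ →* FreeGroup S := (subH D.lab).comp (subH σ)
  have hΨ : ∀ x, π (Ψ x) = π (subH D.lab x) := by
    have : π.comp Ψ = π.comp (subH D.lab) := by
      apply FreeGroup.ext_hom
      intro x
      simp only [Ψ, MonoidHom.comp_apply, subH_of, subH_mk]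
      by_cases hx : x = d.1
      · subst hx
        obtain ⟨x, c⟩ := d
        cases c
        · have : invRev X = D.lab x := by simp [hX, sub]
          simp only [σ, if_true, Bool.false_eq_true, if_false, sub_invRev, sub_append, ← this,
            ← inv_mk, ← mul_mk, map_inv, map_mul]
          rw [hkX]
        · have : X = D.lab x := by simp [hX, sub]
          simp only [σ, if_true, sub_append, ← this, ← mul_mk, map_mul]
          rw [hkX]
      · simp [σ, hx, sub]
    exact fun x => DFunLike.congr_fun this x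
  let T : Fin D.fs.length → List (FreeGroup S × OF Γ U x₀ π) := fun m =>
    if m = j then [] else if m = i then [(Ψ D.fs[i].1, qm)] else [(Ψ D.fs[m].1, D.fs[m].2.2)]
  have Tj : T j = [] := by simp [T]
  have Ti : T i = [(Ψ D.fs[i].1, qm)] := by simp [T, hij]
  have Tm : ∀ m, m ≠ i → m ≠ j → T m = [(Ψ D.fs[m].1, D.fs[m].2.2)] := by
    intro m h1 h2; simp [T, h1, h2]
  -- positions
  have hpos : π (subH D.lab D.fs[i].1) * π (mk A) * π (mk X) =
      π (subH D.lab D.fs[j].1) * π (mk P) := by
    have h1 := D.pathf _ (List.getElem_mem i.2)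
    have h2 := D.pathf _ (List.getElem_mem j.2)
    change IsPath _ _ D.fs[i].1 D.fs[i].2.1 at h1
    change IsPath _ _ D.fs[j].1 D.fs[j].2.1 at h2
    rw [hi] at h1
    rw [hj] at h2
    have h3 := D.pi_faceN h1.pos
    have h4 := D.pi_faceN h2.pos
    simp only [map_mul, map_inv, inv_mul_eq_one] at h3 h4
    rw [← h4] at h3
    obtain ⟨x, c⟩ := d
    cases c
    · simpa [subH_mk] using h3
    · simp only [if_true, Bool.not_true, Bool.false_eq_true, if_false, map_mul, subH_mk] at h3
      simp only [Bool.not_true] at hX'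
      rw [hX', ← inv_mk, map_inv] at h3
      rw [← hA] at h3
      rw [h3, ← hP]; group
  have hE := h ((List.finRange D.fs.length).flatMap T) ⟨?_, ?_, ?_⟩
  · have h1 := hE.1
    have h2 : fper OF.wd ((List.finRange D.fs.length).flatMap T) + 2 * X.length =
        fper OF.wd D.fill := by
      rw [fper_flatMap, ← Fin.sum_univ_def, fper, Diag.fill, List.map_map, ← sum_fin_get]
      apply sum_two_congr hij
      · simp only [Ti, Tj, fper_cons, fper_nil, qm, Function.comp, ← hqi, ← hqj, hwi, hwj,
          List.length_append, FreeGroup.invRev_length]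
        omega
      · intro m h1 h2
        simp [Tm m h1 h2]
    exact List.length_eq_zero_iff.mp (by omega)
  · have e0 : fprod OF.wd D.fill = Ψ (mk D.ω) := by
      rw [D.fprod_fill]
      simp only [Ψ, MonoidHom.comp_apply, subH_mk, hσ _ hω]
    rw [e0, D.planar, map_list_prod, List.map_map, fprod_flatMap, ← map_finRange_get D.fs]
    congr 1
    apply List.map_congr_left
    intro m _
    simp only [Function.comp, map_mul, map_inv]
    by_cases h2 : m = j
    · subst h2
      have : Ψ (mk D.fs[m].2.1) = 1 := by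
        simp only [Ψ, MonoidHom.comp_apply]
        rw [hj, subH_mk, ← List.singleton_append, sub_append, sub_append, hσ _ hp, hσ _ hp', hσd']
        simp [← mul_mk, ← inv_mk]
      rw [Tj, this]; simp
    by_cases h1 : m = i
    · subst h1
      have : Ψ (mk D.fs[m].2.1) = mk (A ++ P' ++ P ++ A') := by
        simp only [Ψ, MonoidHom.comp_apply]
        rw [hi, subH_mk, ← List.singleton_append, sub_append, sub_append, hσ _ ha, hσ _ ha', hσd,
          subH_mk]
        simp [A, P', P, A']
      rw [Ti, this]; simp [qm]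
    · have : Ψ (mk D.fs[m].2.1) = mk D.fs[m].2.2.wd := by
        simp only [Ψ, MonoidHom.comp_apply]
        rw [subH_mk, hσ _ (hm m h1 h2), subH_mk]
        exact congrArg _ (D.labf _ (List.getElem_mem m.2))
      rw [Tm m h1 h2, this]; simp
  · rw [fchain_flatMap, ← Fin.sum_univ_def, fchain, Diag.fill, List.map_map, ← sum_fin_get,
      ← add_zero (∑ m, _)]
    apply sum_two_congr hij
    · simp only [Ti, Tj, fchain_cons, fchain_nil, Function.comp, wrep_ch, hΨ, add_zero, qm, ← hqi,
        ← hqj, hwi, hwj]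
      have e1 : Γ.run qi.st (A ++ P') = some qj.st := Γ.run_append_eq_some.mpr ⟨b₀, hr1, hr5⟩
      have e2 : Γ.run qi.st (A ++ P' ++ P) = some b := Γ.run_append_eq_some.mpr ⟨_, e1, hb2⟩
      have e3 : Γ.run qj.st (P ++ invRev X) = some b₀ := Γ.run_append_eq_some.mpr ⟨_, hb2, hr4⟩
      rw [wch_append π Γ _ e2, wch_append π Γ _ e1, wch_append π Γ _ hr1, wch_append π Γ _ hb1,
        wch_append π Γ _ hr1, wch_append π Γ _ e3, wch_append π Γ _ hb2]
      set gi := π (subH D.lab D.fs[i].1)
      set gj := π (subH D.lab D.fs[j].1)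
      have f1 : gi * π (mk (A ++ P')) = gj := by
        rw [← mul_mk, map_mul]
        apply mul_right_cancel (b := π (mk P))
        rw [← hpos, hkX]; group
      have f2 : gi * π (mk (A ++ P' ++ P)) = gi * π (mk (A ++ X)) := by
        simp only [← mul_mk, map_mul, hkX, mul_assoc]
      have f3 : gj * π (mk (P ++ invRev X)) = gi * π (mk A) := by
        simp only [← mul_mk, ← inv_mk, map_mul, map_inv]
        rw [← mul_assoc, ← hpos]; group
      rw [f1, f2, f3, ← hpos, wch_invRev π Γ hr2]
      abel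
    · intro m h1 h2
      simp [Tm m h1 h2, wrep_ch, hΨ]
  · rw [nopen_flatMap, ← Fin.sum_univ_def, nopen, Diag.fill, List.map_map, ← sum_fin_get,
      ← add_zero (∑ m, _)]
    apply sum_two_congr hij
    · simp only [Ti, Tj, nopen_cons, nopen_nil, Function.comp, qm, ← hqi, ← hqj, hcl]
      simp
    · intro m h1 h2
      simp [Tm m h1 h2]

end merge

end Crest.Agent.ZD
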