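import Crest.Agent.ZD.LocB

set_option autoImplicit false

namespace Crest.Agent.ZD

open FreeGroup (mk of invRev IsReduced IsCyclicallyReduced mul_mk inv_mk one_eq_mk invRev_cons
  invRev_append invRev_invRev)
open Finset (univ)

lemma length_sub_single {α β : Type} (σ : α → List (β × Bool)) (d : α × Bool) :
    (sub σ [d]).length = (σ d.1).length := by
  obtain ⟨x, b⟩ := d
  cases b <;> simp [sub]

lemma length_sub {α β : Type} (σ : α → List (β × Bool)) (w : List (α × Bool)) :
    (sub σ w).length = (w.map fun d => (σ d.1).length).sum := by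
  induction w with
  | nil => rfl
  | cons d w ih =>
    rw [← List.singleton_append, sub_append, List.length_append, ih, length_sub_single]; simp

lemma sum_toFinset_le {α : Type} [DecidableEq α] (w : List α) (F : α → ℕ) :
    ∑ e ∈ w.toFinset, F e ≤ (w.map F).sum := by
  induction w with
  | nil => simp
  | cons a w ih =>
    rw [List.toFinset_cons, List.map_cons, List.sum_cons]
    by_cases h : a ∈ w.toFinset
    · rw [Finset.insert_eq_of_mem h]; omega
    · rw [Finset.sum_insert h]; omega

section occ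
variable {S Φ : Type} {wd : Φ → List (S × Bool)} (D : Diag wd)

/-- occurrences of letters in the faces -/
abbrev Diag.Occ : Type := Σ i : Fin D.fs.length, Fin D.fs[i].2.1.length

/-- the letter at an occurrence -/
def Diag.ltr (o : D.Occ) : ℕ × Bool := D.fs[o.1].2.1[o.2]

lemma Diag.Occ.ext' {o o' : D.Occ} (h1 : o.1 = o'.1) (h2 : (o.2 : ℕ) = o'.2) : o = o' := by
  obtain ⟨i, k⟩ := o
  obtain ⟨j, l⟩ := o'
  simp only at h1 h2
  subst h1
  rw [Fin.ext h2]

lemma Diag.sum_occ {M : Type} [AddCommMonoid M] (F : ℕ × Bool → M) :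
    ∑ o : D.Occ, F (D.ltr o) = ((D.fs.flatMap fun f => f.2.1).map F).sum := by
  rw [Fintype.sum_sigma]
  have : ∀ i : Fin D.fs.length, ∑ k : Fin D.fs[i].2.1.length, F (D.ltr ⟨i, k⟩) =
      (D.fs[i].2.1.map F).sum := fun i => sum_fin_get _ F
  simp only [this]
  rw [sum_fin_get D.fs fun f => (f.2.1.map F).sum]
  generalize D.fs = L
  induction L with
  | nil => rfl
  | cons a L ih => simp [ih]

lemma Diag.card_occ : Fintype.card D.Occ ≤ D.used.length := by
  have := D.sum_occ fun _ => (1 : ℕ)
  simp only [Finset.sum_const, Finset.card_univ, smul_eq_mul, mul_one, List.map_const',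
    List.sum_replicate] at this
  rw [this, Diag.used, List.length_append]
  omega

lemma Diag.ltr_mem (o : D.Occ) : D.ltr o ∈ D.used := by
  rw [Diag.used, List.mem_append]
  right
  exact List.mem_flatMap.mpr ⟨_, List.getElem_mem o.1.2, List.getElem_mem o.2.2⟩

lemma Diag.split_at (o : D.Occ) :
    D.fs[o.1].2.1 = D.fs[o.1].2.1.take o.2 ++ D.ltr o :: D.fs[o.1].2.1.drop (o.2 + 1) := by
  conv_lhs => rw [← List.take_append_drop o.2 D.fs[o.1].2.1]
  rw [List.drop_eq_getElem_cons o.2.2]
  rfl

lemma Diag.take_succ (o : D.Occ) :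
    D.fs[o.1].2.1.take (o.2 + 1) = D.fs[o.1].2.1.take o.2 ++ [D.ltr o] := by
  rw [List.take_add_one, List.getElem?_eq_getElem o.2.2]
  rfl

lemma Diag.cnt_faces (e : ℕ) : cnt e (D.fs.flatMap fun f => f.2.1) =
    (univ.filter fun o : D.Occ => (D.ltr o).1 = e).card := by
  rw [cnt_eq_sum, ← D.sum_occ, Finset.card_filter]

lemma Diag.sgn_faces (e : ℕ) : sgn e (D.fs.flatMap fun f => f.2.1) =
    ∑ o ∈ univ.filter fun o : D.Occ => (D.ltr o).1 = e, (if (D.ltr o).2 then 1 else -1) := by
  rw [sgn, ← D.sum_occ, Finset.sum_filter]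

lemma Diag.filter_eq_pair {o o' : D.Occ} (hne : o' ≠ o) (h : (D.ltr o').1 = (D.ltr o).1) :
    (univ.filter fun c : D.Occ => (D.ltr c).1 = (D.ltr o).1) = {o, o'} ∧
      cnt (D.ltr o).1 D.ω = 0 := by
  classical
  have hq := D.quad (D.ltr o).1
  rw [cnt_append, D.cnt_faces] at hq
  have hsub : ({o, o'} : Finset D.Occ) ⊆ univ.filter fun c => (D.ltr c).1 = (D.ltr o).1 := by
    intro c hc
    simp only [Finset.mem_insert, Finset.mem_singleton] at hc
    rcases hc with rfl | rfl <;> simp [h]
  have hc : ({o, o'} : Finset D.Occ).card = 2 := Finset.card_pair hne.symm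
  have := Finset.card_le_card hsub
  exact ⟨(Finset.eq_of_subset_of_card_le hsub (by omega)).symm, by omega⟩

lemma Diag.partner_unique {o o' o'' : D.Occ} (hne : o' ≠ o) (h : (D.ltr o').1 = (D.ltr o).1)
    (hne' : o'' ≠ o) (h' : (D.ltr o'').1 = (D.ltr o).1) : o'' = o' := by
  classical
  have h1 := (D.filter_eq_pair hne h).1
  have : o'' ∈ ({o, o'} : Finset D.Occ) := by rw [← h1]; simp [h']
  simpa [hne'] using this

lemma Diag.partner_inv {o o' : D.Occ} (hne : o' ≠ o) (h : (D.ltr o').1 = (D.ltr o).1) :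
    D.ltr o' = ((D.ltr o).1, !(D.ltr o).2) := by
  classical
  obtain ⟨h1, h2⟩ := D.filter_eq_pair hne h
  have h3 := D.sgn_eq (D.ltr o).1
  rw [sgn_eq_zero h2, D.sgn_faces, h1, Finset.sum_pair hne.symm] at h3
  refine Prod.ext h ?_
  cases h4 : (D.ltr o).2 <;> cases h5 : (D.ltr o').2 <;> simp_all

lemma Diag.single_mem {o : D.Occ} (h : ∀ o', o' ≠ o → (D.ltr o').1 ≠ (D.ltr o).1) :
    (D.ltr o).1 ∈ D.ω.map Prod.fst := by
  classical
  have h1 : (univ.filter fun c : D.Occ => (D.ltr c).1 = (D.ltr o).1) = {o} := by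
    ext c
    simp only [Finset.mem_filter, Finset.mem_univ, true_and, Finset.mem_singleton]
    exact ⟨fun hc => by_contra fun hn => h c hn hc, fun hc => by rw [hc]⟩
  have h3 := D.sgn_eq (D.ltr o).1
  rw [D.sgn_faces, h1, Finset.sum_singleton] at h3
  by_contra hn
  rw [sgn_eq_zero (List.count_eq_zero.mpr hn)] at h3
  split_ifs at h3
  omega

open Classical in
/-- the other occurrence of the same letter -/
noncomputable def Diag.mu (o : D.Occ) : Option D.Occ :=
  if h : ∃ o', o' ≠ o ∧ (D.ltr o').1 = (D.ltr o).1 then some h.choose else none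

lemma Diag.mu_eq_some {o o' : D.Occ} :
    D.mu o = some o' ↔ o' ≠ o ∧ (D.ltr o').1 = (D.ltr o).1 := by
  unfold Diag.mu
  split_ifs with h
  · rw [Option.some.injEq]
    refine ⟨fun e => e ▸ h.choose_spec, fun e => ?_⟩
    exact D.partner_unique e.1 e.2 h.choose_spec.1 h.choose_spec.2
  · simp only [false_iff]
    exact fun e => h ⟨o', e⟩

lemma Diag.bdry_le :
    ∑ o : D.Occ, (if (D.mu o).isNone then (sub D.lab [D.ltr o]).length else 0) ≤
      (sub D.lab D.ω).length := by
  classical
  have hno : ∀ o, (D.mu o).isNone → ∀ o', o' ≠ o → (D.ltr o').1 ≠ (D.ltr o).1 := by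
    intro o ho o' h1 h2
    rw [D.mu_eq_some.mpr ⟨h1, h2⟩] at ho
    simp at ho
  rw [← Finset.sum_filter, length_sub]
  simp only [length_sub_single]
  rw [← Finset.sum_image (f := fun e => (D.lab e).length) (g := fun o => (D.ltr o).1)]
  · refine le_trans (Finset.sum_le_sum_of_subset ?_)
      ((sum_toFinset_le (D.ω.map Prod.fst) fun e => (D.lab e).length).trans (by simp; rfl))
    intro e he
    obtain ⟨o, ho, rfl⟩ := Finset.mem_image.mp he
    rw [List.mem_toFinset]
    exact D.single_mem (hno o (Finset.mem_filter.mp ho).2)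
  · intro o ho o' _ h
    by_contra hne
    exact hno o (Finset.mem_filter.mp ho).2 o' (Ne.symm hne) h.symm

lemma Diag.len_eq : ∑ o : D.Occ, (sub D.lab [D.ltr o]).length = fper wd D.fill := by
  simp only [length_sub_single]
  rw [D.sum_occ fun d => (D.lab d.1).length, fper, Diag.fill, List.map_map]
  have := D.labf
  generalize D.fs = L at this
  induction L with
  | nil => rfl
  | cons a L ih =>
    simp only [List.flatMap_cons, List.map_append, List.sum_append, List.map_cons, List.sum_cons,
      Function.comp]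
    rw [ih fun f hf => this f (by simp [hf]), ← this a (by simp), length_sub]

lemma Diag.length_sub_used :
    (sub D.lab D.used).length = (sub D.lab D.ω).length + fper wd D.fill := by
  rw [Diag.used, sub_append, List.length_append, ← D.len_eq]
  simp only [length_sub_single]
  rw [D.sum_occ fun d => (D.lab d.1).length, length_sub D.lab (List.flatMap _ _)]

end occ

end Crest.Agent.ZD
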