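import Crest.Agent.ZD.Diag

set_option autoImplicit false

namespace Crest.Agent.ZD

open FreeGroup (mk of invRev IsReduced IsCyclicallyReduced mul_mk inv_mk one_eq_mk invRev_cons
  invRev_append invRev_invRev)
open Finset (univ)

section key
variable {S G : Type} [Group G] {Γ : LG S} {U : Set Γ.V} {x₀ : Γ.V} {π : FreeGroup S →* G}
  (D : Diag (OF.wd : OF Γ U x₀ π → _))

/-- vertex of `Γ` at a corner of a face -/
noncomputable def Diag.vx (i : Fin D.fs.length) (k : ℕ) : Γ.V :=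
  (Γ.run D.fs[i].2.2.st (sub D.lab (D.fs[i].2.1.take k))).getD x₀

lemma Diag.labf' (i : Fin D.fs.length) : sub D.lab D.fs[i].2.1 = D.fs[i].2.2.wd :=
  D.labf _ (List.getElem_mem i.2)

lemma Diag.fill_mem (i : Fin D.fs.length) : (subH D.lab D.fs[i].1, D.fs[i].2.2) ∈ D.fill :=
  List.mem_map.mpr ⟨_, List.getElem_mem i.2, rfl⟩

lemma Diag.run_vx (i : Fin D.fs.length) (k : ℕ) :
    Γ.run D.fs[i].2.2.st (sub D.lab (D.fs[i].2.1.take k)) = some (D.vx i k) := by
  have h := D.fs[i].2.2.run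
  rw [← D.labf', ← List.take_append_drop k D.fs[i].2.1, sub_append, Γ.run_append_eq_some] at h
  obtain ⟨y, h1, _⟩ := h
  rw [Diag.vx, h1]; rfl

lemma Diag.vx_zero (i : Fin D.fs.length) : D.vx i 0 = D.fs[i].2.2.st := by
  have := D.run_vx i 0
  simpa using this.symm

lemma Diag.vx_len (i : Fin D.fs.length) : D.vx i D.fs[i].2.1.length = D.fs[i].2.2.en := by
  have := D.run_vx i D.fs[i].2.1.length
  rw [List.take_length, D.labf', D.fs[i].2.2.run] at this
  exact (Option.some.inj this).symm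

lemma Diag.run_occ (o : D.Occ) :
    Γ.run (D.vx o.1 o.2) (sub D.lab [D.ltr o]) = some (D.vx o.1 (o.2 + 1)) := by
  have h := D.run_vx o.1 (o.2 + 1)
  rw [D.take_succ, sub_append, Γ.run_append, D.run_vx] at h
  exact h

lemma nopen_eq_sum : nopen D.fill =
    ∑ i : Fin D.fs.length, open Classical in if D.fs[i].2.2.en = D.fs[i].2.2.st then 0 else 1 := by
  rw [nopen, Diag.fill, List.map_map, ← sum_fin_get]
  rfl

lemma IsMin.glue_ne (h : IsMin D.fill) (hπ : ∀ x u, Γ.run x u = some x → π (mk u) = 1)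
    (ho : nopen D.fill ≤ 1) (hlab : ∀ d ∈ D.used, D.lab d.1 ≠ []) {o o' : D.Occ}
    (hmu : D.mu o = some o') : D.vx o'.1 o'.2 ≠ D.vx o.1 (o.2 + 1) := by
  classical
  have hX : ∀ c : D.Occ, sub D.lab [D.ltr c] ≠ [] := by
    intro c hc
    have := length_sub_single D.lab (D.ltr c)
    rw [hc] at this
    exact hlab _ (D.ltr_mem c) (List.length_eq_zero_iff.mp this.symm)
  -- symmetry
  have hsym : ∀ {c c' : D.Occ}, D.mu c = some c' → D.vx c'.1 c'.2 = D.vx c.1 (c.2 + 1) →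
      D.mu c' = some c ∧ D.vx c.1 c.2 = D.vx c'.1 (c'.2 + 1) := by
    intro c c' h1 h2
    obtain ⟨h3, h4⟩ := D.mu_eq_some.mp h1
    refine ⟨D.mu_eq_some.mpr ⟨h3.symm, h4.symm⟩, ?_⟩
    have h5 := D.run_occ c'
    rw [D.partner_inv h3 h4, ← invRev_singleton', sub_invRev, h2,
      Γ.run_invRev (D.run_occ c)] at h5
    exact Option.some.inj h5
  have same : ∀ {c c' : D.Occ}, D.mu c = some c' → D.vx c'.1 c'.2 = D.vx c.1 (c.2 + 1) →
      c'.1 = c.1 → (c.2 : ℕ) < c'.2 → False := by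
    rintro ⟨i, k⟩ ⟨j, l⟩ h1 h2 h3 h4
    simp only at h2 h3 h4
    subst h3
    obtain ⟨h3, h5⟩ := D.mu_eq_some.mp h1
    have h6 := D.partner_inv h3 h5
    have e1 := D.split_at ⟨j, l⟩
    have e2 := D.take_succ ⟨j, k⟩
    simp only at e1 e2
    obtain ⟨b, hb⟩ : ∃ b, D.fs[j].2.1.take l = D.fs[j].2.1.take (k + 1) ++ b :=
      ⟨_, by
        conv_lhs => rw [← List.take_append_drop (k + 1) (D.fs[j].2.1.take l)]
        rw [List.take_take, min_eq_left (by omega)]⟩
    have r1 := D.run_vx j (k + 1)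
    have r2 := D.run_vx j l
    rw [hb, sub_append, Γ.run_append, r1, h2] at r2
    rw [e2, sub_append] at r1
    refine hX ⟨j, k⟩ (h.split hπ (D.fill_mem j) (u₃ := sub D.lab (D.fs[j].2.1.drop (l + 1)))
      ?_ r1 r2)
    simp only
    rw [← D.labf', ← sub_invRev, invRev_singleton', ← h6]
    conv_lhs => rw [e1, hb, e2, sub_append, sub_cons']
    simp only [sub_append, List.append_assoc]
  have diff : ∀ {c c' : D.Occ}, D.mu c = some c' → D.vx c'.1 c'.2 = D.vx c.1 (c.2 + 1) →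
      c.1 ≠ c'.1 → D.fs[c'.1].2.2.en = D.fs[c'.1].2.2.st → False := by
    intro c c' h1 h2 h3 h4
    obtain ⟨h5, h6⟩ := D.mu_eq_some.mp h1
    have e1 := D.split_at c'
    rw [D.partner_inv h5 h6] at e1
    refine hX c (IsMin.no_merge D h c.1 c'.1 h3 (D.split_at c) e1 h4 (b := D.vx c'.1 c'.2) ?_
      (D.run_vx _ _))
    rw [← D.take_succ, h2]
    exact D.run_vx _ _
  intro he
  obtain ⟨hmu', he'⟩ := hsym hmu he
  by_cases h1 : o.1 = o'.1
  · rcases lt_trichotomy (o.2 : ℕ) o'.2 with h2 | h2 | h2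
    · exact same hmu he h1.symm h2
    · exact (D.mu_eq_some.mp hmu).1 (Diag.Occ.ext' D h1 h2).symm
    · exact same hmu' he' h1 h2
  · by_cases h2 : D.fs[o'.1].2.2.en = D.fs[o'.1].2.2.st
    · exact diff hmu he h1 h2
    · refine diff hmu' he' (Ne.symm h1) ?_
      by_contra h3
      rw [nopen_eq_sum, sum_two h1, if_neg h2, if_neg h3] at ho
      omega

open Classical in
/-- successor of an occurrence -/
noncomputable def Diag.sc (o : D.Occ) : Option D.Occ :=
  if h : o.2 + 1 < D.fs[o.1].2.1.length then some ⟨o.1, ⟨o.2 + 1, h⟩⟩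
  else if D.fs[o.1].2.2.en = D.fs[o.1].2.2.st then some ⟨o.1, ⟨0, Nat.zero_lt_of_lt o.2.2⟩⟩
  else none

lemma Diag.sc_eq_some {o c : D.Occ} (h : D.sc o = some c) : c.1 = o.1 ∧
    ((c.2 : ℕ) = o.2 + 1 ∨ ((c.2 : ℕ) = 0 ∧ (o.2 : ℕ) + 1 = D.fs[o.1].2.1.length ∧
      D.fs[o.1].2.2.en = D.fs[o.1].2.2.st)) := by
  unfold Diag.sc at h
  have := o.2.2
  split_ifs at h with h1 h2
  · obtain rfl := Option.some.inj h
    exact ⟨rfl, Or.inl rfl⟩
  · obtain rfl := Option.some.inj h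
    exact ⟨rfl, Or.inr ⟨rfl, by omega, h2⟩⟩

/-- the pieces of a minimal diagram -/
noncomputable def IsMin.pieces (h : IsMin D.fill) (hπ : ∀ x u, Γ.run x u = some x → π (mk u) = 1)
    (ho : nopen D.fill ≤ 1) (hlab : ∀ d ∈ D.used, D.lab d.1 ≠ []) : Γ.Pieces U x₀ D.Occ where
  st o := D.vx o.1 o.2
  en o := D.vx o.1 (o.2 + 1)
  wd o := sub D.lab [D.ltr o]
  sc := D.sc
  mu := D.mu
  run := D.run_occ
  ne c hc := by
    have := length_sub_single D.lab (D.ltr c)
    rw [hc] at this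
    exact hlab _ (D.ltr_mem c) (List.length_eq_zero_iff.mp this.symm)
  red o := by
    have h1 := h.reduced hπ (D.fill_mem o.1)
    simp only at h1
    rw [← D.labf', D.split_at o, ← List.singleton_append, sub_append, sub_append] at h1
    exact h1.infix ⟨_, _, List.append_assoc _ _ _⟩
  sc_inj i j k h1 h2 := by
    obtain ⟨a1, a2⟩ := D.sc_eq_some h1
    obtain ⟨b1, b2⟩ := D.sc_eq_some h2
    have e : i.1 = j.1 := a1.symm.trans b1
    refine Diag.Occ.ext' D e ?_
    have e' : D.fs[i.1].2.1.length = D.fs[j.1].2.1.length := by simp only [e]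
    omega
  sc_st := by
    rintro ⟨i, k⟩ ⟨j, l⟩ h1
    obtain ⟨a1, a2⟩ := D.sc_eq_some h1
    simp only at a1 a2 ⊢
    subst a1
    have e1 := D.split_at ⟨j, l⟩
    have e2 := D.take_succ ⟨j, k⟩
    simp only at e1 e2
    rcases a2 with a2 | ⟨a2, a3, a4⟩
    · refine ⟨by rw [a2], ?_⟩
      have h1 := h.reduced hπ (D.fill_mem j)
      simp only at h1
      rw [← D.labf', e1, a2, e2, sub_append, sub_cons'] at h1
      simp only [sub_append] at h1
      refine h1.infix ⟨sub D.lab (D.fs[j].2.1.take k), sub D.lab (D.fs[j].2.1.drop (k + 1 + 1)), ?_⟩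
      simp only [List.append_assoc]
    · refine ⟨by rw [a2, a3, D.vx_zero, D.vx_len, a4], ?_⟩
      have h1 := h.cyc hπ (D.fill_mem j) a4
      simp only at h1
      rw [a3, List.take_length] at e2
      rw [a2] at e1
      have e3 : D.fs[j].2.2.wd ++ D.fs[j].2.2.wd = sub D.lab (D.fs[j].2.1.take k) ++
          (sub D.lab [D.ltr ⟨j, k⟩] ++ sub D.lab [D.ltr ⟨j, l⟩]) ++
          sub D.lab (D.fs[j].2.1.drop (0 + 1)) := by
        rw [← D.labf']
        conv_lhs => arg 1; rw [e2]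
        conv_lhs => arg 2; rw [e1, ← List.singleton_append]
        simp only [sub_append, List.append_assoc, List.take_zero, List.nil_append]
      exact h1.infix ⟨_, _, e3.symm⟩
  sc_none o h1 := by
    unfold Diag.sc at h1
    have := o.2.2
    split_ifs at h1 with h2 h3
    have e : (o.2 : ℕ) + 1 = D.fs[o.1].2.1.length := by omega
    rw [e, D.vx_len]
    exact (D.fs[o.1].2.2.ok.resolve_left h3).2
  pred_none := by
    rintro ⟨i, k⟩ h1
    simp only
    by_cases h2 : (k : ℕ) = 0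
    · rw [h2, D.vx_zero]
      refine (D.fs[i].2.2.ok.resolve_left fun h3 => ?_).1
      have hk := k.2
      apply h1 ⟨i, ⟨D.fs[i].2.1.length - 1, by omega⟩⟩
      unfold Diag.sc
      rw [dif_neg (by simp only; omega), if_pos h3]
      exact congrArg some (Diag.Occ.ext' D rfl h2.symm)
    · exfalso
      have hk := k.2
      apply h1 ⟨i, ⟨k - 1, by omega⟩⟩
      unfold Diag.sc
      rw [dif_pos (by simp only; omega)]
      exact congrArg some (Diag.Occ.ext' D rfl (by simp only; omega))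
  mu_symm i j h1 := by
    obtain ⟨h3, h4⟩ := D.mu_eq_some.mp h1
    exact D.mu_eq_some.mpr ⟨h3.symm, h4.symm⟩
  mu_ne i h1 := (D.mu_eq_some.mp h1).1 rfl
  mu_wd i j h1 := by
    obtain ⟨h3, h4⟩ := D.mu_eq_some.mp h1
    refine ⟨?_, IsMin.glue_ne D h hπ ho hlab h1⟩
    rw [D.partner_inv h3 h4, ← invRev_singleton', sub_invRev]

end key

section main
variable {S G : Type} [Group G] {Γ : LG S} {U : Set Γ.V} {x₀ : Γ.V} {π : FreeGroup S →* G}

lemma IsMin.girth_le {l : List (FreeGroup S × OF Γ U x₀ π)} (h : IsMin l) {g : ℕ}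
    (hg : Γ.Girth g) (hπ : ∀ x u, Γ.run x u = some x → π (mk u) = 1)
    {p : FreeGroup S × OF Γ U x₀ π} (hp : p ∈ l) (hc : p.2.en = p.2.st) : g ≤ p.2.wd.length := by
  by_contra hlt
  exact h.ne_nil hp (hg p.2.st _ (hc ▸ p.2.run) (h.reduced hπ hp) (by omega))

lemma length_le_of_closed {g : ℕ} {l : List (FreeGroup S × OF Γ U x₀ π)}
    (h : ∀ p ∈ l, p.2.en = p.2.st → g ≤ p.2.wd.length) :
    l.length * g ≤ fper OF.wd l + nopen l * g := by
  induction l with
  | nil => simp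
  | cons a l ih =>
    have h1 := h a (by simp)
    have h2 := ih fun p hp => h p (by simp [hp])
    simp only [List.length_cons, fper_cons, nopen_cons]
    split_ifs with hc
    · have := h1 hc
      nlinarith
    · nlinarith

theorem IsMin.key [DecidableEq S] {g J Cc B : ℕ} (hg : Γ.Girth g) (hiso : Γ.Iso U x₀ g J Cc)
    (hJg : J ≤ g) (hJ : 30 * B + 30 ≤ J) (hπ : ∀ x u, Γ.run x u = some x → π (mk u) = 1)
    {l : List (FreeGroup S × OF Γ U x₀ π)} (h : IsMin l) (ho : nopen l ≤ 1)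
    (hB : fper OF.wd l ≤ B * g) (hL : g ≤ fper OF.wd l) :
    fper OF.wd l ≤ (Cc + 1) * (fprod OF.wd l).norm := by
  classical
  obtain ⟨D, rfl, hω, hlab, hT⟩ := exists_diag OF.wd l (fun p hp => h.reduced hπ hp) ((g - 1) / 2)
    (by omega)
  have hΛ : (fprod OF.wd D.fill).norm = (sub D.lab D.ω).length := by rw [hω]; rfl
  rw [hΛ]
  by_cases hle : fper OF.wd D.fill ≤ (sub D.lab D.ω).length
  · nlinarith
  have hn := length_le_of_closed (g := g) fun p hp hc => h.girth_le hg hπ hp hc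
  have hn' : D.fill.length ≤ B + 1 := by
    apply Nat.le_of_mul_le_mul_right (c := g) _ (by omega)
    nlinarith
  rw [D.length_sub_used] at hT
  have hcard : D.used.length ≤ J := by
    obtain ⟨h', hh'⟩ : ∃ h', h' = (g - 1) / 2 := ⟨_, rfl⟩
    rw [← hh'] at hT
    have h4 : g ≤ 4 * h' := by omega
    apply Nat.le_of_mul_le_mul_left (c := h') _ (by omega)
    nlinarith
  have := hiso D.Occ (IsMin.pieces D h hπ ho fun d hd => (hlab d hd).1) (D.card_occ.trans hcard)
    (fun o => by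
      have h1 := (hlab _ (D.ltr_mem o)).2
      have h2 := length_sub_single D.lab (D.ltr o)
      simp only [IsMin.pieces]
      omega) (by rw [LG.Pieces.len]; exact D.len_eq ▸ hL)
  have h1 : (IsMin.pieces D h hπ ho fun d hd => (hlab d hd).1).len = fper OF.wd D.fill := D.len_eq
  have h2 : (IsMin.pieces D h hπ ho fun d hd => (hlab d hd).1).bdry ≤ (sub D.lab D.ω).length :=
    D.bdry_le
  rw [h1] at this
  nlinarith

/-- closed walks as faces -/
def cycOF (hπ : ∀ x u, Γ.run x u = some x → π (mk u) = 1) (q : Γ.Cyc) : OF Γ U x₀ π :=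
  ⟨q.1.1, q.1.1, q.1.2, q.2, Or.inl rfl, hπ _ _ q.2⟩

lemma exists_cyc_of_nopen {l : List (FreeGroup S × OF Γ U x₀ π)} (h : nopen l = 0) :
    ∃ l' : List (FreeGroup S × Γ.Cyc), fprod Γ.cw l' = fprod OF.wd l ∧
      fchain (wrep π Γ) (Γ.cch π) l' = fchain (wrep π Γ) OF.ch l ∧ fper Γ.cw l' = fper OF.wd l ∧
      ∀ p ∈ l', ∃ q ∈ l, q.2.en = q.2.st ∧ Γ.cw p.2 = q.2.wd := by
  induction l with
  | nil => exact ⟨[], rfl, rfl, rfl, by simp⟩
  | cons a l ih =>
    rw [nopen_cons] at h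
    have hc : a.2.en = a.2.st := by
      by_contra hn
      rw [if_neg hn] at h
      omega
    obtain ⟨l', h1, h2, h3, h4⟩ := ih (by omega)
    refine ⟨(a.1, ⟨(a.2.st, a.2.wd), hc ▸ a.2.run⟩) :: l', ?_, ?_, ?_, ?_⟩
    · simp [h1, LG.cw]
    · simp [h2, LG.cch, OF.ch]
    · simp [h3, LG.cw]
    · intro p hp
      rcases List.mem_cons.mp hp with rfl | hp
      · exact ⟨a, by simp, hc, rfl⟩
      · obtain ⟨q, hq, h5⟩ := h4 p hp
        exact ⟨q, by simp [hq], h5⟩

lemma cycOF_map (hπ : ∀ x u, Γ.run x u = some x → π (mk u) = 1)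
    (l : List (FreeGroup S × Γ.Cyc)) :
    fprod OF.wd (l.map fun p => (p.1, cycOF (U := U) (x₀ := x₀) hπ p.2)) = fprod Γ.cw l ∧
    fchain (wrep π Γ) OF.ch (l.map fun p => (p.1, cycOF (U := U) (x₀ := x₀) hπ p.2)) =
      fchain (wrep π Γ) (Γ.cch π) l ∧
    fper OF.wd (l.map fun p => (p.1, cycOF (U := U) (x₀ := x₀) hπ p.2)) = fper Γ.cw l ∧
    nopen (l.map fun p => (p.1, cycOF (U := U) (x₀ := x₀) hπ p.2)) = 0 := by
  induction l with
  | nil => simp
  | cons a l ih =>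
    obtain ⟨h1, h2, h3, h4⟩ := ih
    simp only [List.map_cons, fprod_cons, fchain_cons, fper_cons, nopen_cons, h1, h2, h3, h4]
    refine ⟨rfl, rfl, rfl, by simp [cycOF]⟩

theorem local_iso' [DecidableEq S] {g J Cc : ℕ} (hg : Γ.Girth g) (hiso : Γ.Iso U x₀ g J Cc)
    (hJg : J ≤ g) (hπ : ∀ q : Γ.Cyc, π (mk (Γ.cw q)) = 1) (B : ℕ)
    (hJ : 30 * B + 30 ≤ J) (l : List (FreeGroup S × Γ.Cyc)) (hl : fper Γ.cw l ≤ B * g) :
    ∃ l' : List (FreeGroup S × Γ.Cyc), fprod Γ.cw l' = fprod Γ.cw l ∧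
      fchain (wrep π Γ) (Γ.cch π) l' = fchain (wrep π Γ) (Γ.cch π) l ∧
      (∀ p ∈ l', g ≤ (Γ.cw p.2).length) ∧
      fper Γ.cw l' ≤ (Cc + 1) * (fprod Γ.cw l).norm := by
  have hπ' : ∀ x u, Γ.run x u = some x → π (mk u) = 1 := fun x u h => hπ ⟨(x, u), h⟩
  obtain ⟨c1, c2, c3, c4⟩ := cycOF_map (U := U) (x₀ := x₀) hπ' l
  obtain ⟨m, ⟨e1, e2, e3⟩, hm, hle⟩ := exists_min
    (l.map fun p => (p.1, cycOF (U := U) (x₀ := x₀) hπ' p.2))
  obtain ⟨l', h1, h2, h3, h4⟩ := exists_cyc_of_nopen (e3.trans c4)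
  have h5 : ∀ p ∈ l', g ≤ (Γ.cw p.2).length := by
    intro p hp
    obtain ⟨q, hq, h5, h6⟩ := h4 p hp
    rw [h6]
    exact hm.girth_le hg hπ' hq h5
  refine ⟨l', by rw [h1, e1, c1], by rw [h2, e2, c2], h5, ?_⟩
  rcases l' with _ | ⟨a, l'⟩
  · simp
  · have h6 := h5 a (by simp)
    have := hm.key hg hiso hJg hJ hπ' (by omega) (B := B) (by omega)
      (by rw [← h3, fper_cons]; omega)
    rwa [← h3, e1, c1] at this

/-- reversed closed walk -/
def LG.Cyc.inv (q : Γ.Cyc) : Γ.Cyc := ⟨(q.1.1, invRev q.1.2), Γ.run_invRev q.2⟩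

/-- the inverse filling -/
def finv (l : List (FreeGroup S × Γ.Cyc)) : List (FreeGroup S × Γ.Cyc) :=
  (l.map fun p => (p.1, p.2.inv)).reverse

lemma fprod_finv (l : List (FreeGroup S × Γ.Cyc)) : fprod Γ.cw (finv l) = (fprod Γ.cw l)⁻¹ := by
  induction l with
  | nil => simp [finv]
  | cons a l ih =>
    simp only [finv, List.map_cons, List.reverse_cons, fprod_append, fprod_cons, fprod_nil] at ih ⊢
    rw [ih]
    simp only [LG.cw, LG.Cyc.inv, ← inv_mk]
    group

lemma fper_finv (l : List (FreeGroup S × Γ.Cyc)) : fper Γ.cw (finv l) = fper Γ.cw l := by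
  induction l with
  | nil => simp [finv]
  | cons a l ih =>
    simp only [finv, List.map_cons, List.reverse_cons, fper_append, fper_cons, fper_nil] at ih ⊢
    rw [ih]
    simp only [LG.cw, LG.Cyc.inv, FreeGroup.invRev_length]
    omega

lemma fchain_finv (hπ : ∀ q : Γ.Cyc, π (mk (Γ.cw q)) = 1) (l : List (FreeGroup S × Γ.Cyc)) :
    fchain (wrep π Γ) (Γ.cch π) (finv l) = - fchain (wrep π Γ) (Γ.cch π) l := by
  induction l with
  | nil => simp [finv]
  | cons a l ih =>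
    simp only [finv, List.map_cons, List.reverse_cons, fchain_append, fchain_cons, fchain_nil]
      at ih ⊢
    rw [ih]
    have h1 : Γ.cch π a.2.inv = - Γ.cch π a.2 := by
      have := wch_invRev π Γ (h := 1) a.2.2
      have h2 : π (mk a.2.1.2) = 1 := hπ a.2
      rw [h2, mul_one] at this
      exact this
    rw [h1, map_neg]
    abel

theorem pointed' [DecidableEq S] {g J Cc : ℕ} (hg : Γ.Girth g) (hiso : Γ.Iso U x₀ g J Cc)
    (hJg : J ≤ g) (B : ℕ) (hJ : 30 * B + 30 ≤ J) (y : Γ.V) (hy : y ∈ U) (hne : y ≠ x₀)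
    (p : List (S × Bool)) (hp : Γ.run x₀ p = some y) (l : List (FreeGroup S × Γ.Cyc))
    (hl : fprod Γ.cw l = mk p) (hB : p.length + fper Γ.cw l ≤ B * g) : False := by
  let π : FreeGroup S →* Unit := 1
  have hπ' : ∀ x u, Γ.run x u = some x → π (mk u) = 1 := fun _ _ _ => rfl
  obtain ⟨c1, -, c3, c4⟩ := cycOF_map (U := U) (x₀ := x₀) hπ' (finv l)
  let q : OF Γ U x₀ π := ⟨x₀, y, p, hp, Or.inr ⟨rfl, hy⟩, rfl⟩
  obtain ⟨m, ⟨e1, -, e3⟩, hm, hle⟩ := exists_min
    ((1, q) :: (finv l).map fun p => (p.1, cycOF (U := U) (x₀ := x₀) hπ' p.2))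
  rw [fprod_cons, c1, fprod_finv, hl] at e1
  rw [nopen_cons, c4, if_neg hne] at e3
  rw [fper_cons, c3, fper_finv] at hle
  have e4 : fprod OF.wd m = 1 := by rw [e1]; simp only [q]; group
  by_cases hc : ∃ r ∈ m, r.2.en = r.2.st
  · obtain ⟨r, hr, hc⟩ := hc
    have h1 := hm.girth_le hg hπ' hr hc
    have h2 : g ≤ fper OF.wd m := by
      obtain ⟨l₁, l₂, rfl⟩ := List.append_of_mem hr
      simp only [fper_append, fper_cons]
      omega
    have := hm.key hg hiso hJg hJ hπ' (by omega) (B := B) (hle.trans hB) h2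
    rw [e4] at this
    simp at this
    omega
  · push Not at hc
    rcases m with _ | ⟨a, _ | ⟨b, m⟩⟩
    · simp at e3
    · have h1 : (mk a.2.wd : FreeGroup S) = 1 := by
        simp only [fprod_cons, fprod_nil, mul_one, conj_eq_one_iff] at e4
        exact e4
      have h2 := hm.reduced hπ' (p := a) (by simp)
      have h3 : a.2.wd = [] := by
        rw [← h2.reduce_eq, ← FreeGroup.toWord_mk, h1, FreeGroup.toWord_one]
      exact hm.ne_nil (p := a) (by simp) h3
    · rw [nopen_cons, nopen_cons, if_neg (hc a (by simp)), if_neg (hc b (by simp))] at e3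
      omega

end main

end Crest.Agent.ZD
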