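import Crest.Agent.ZD.Mach0
import Crest.Agent.ZD.Diam0
import Crest.Agent.ZD.GoodEx0
import Crest.Agent.ZD.Glob
import Crest.Agent.ZD.Osc
import Crest.Agent.ZD.Tors
import Crest.Agent.ZD.CW
import Crest.Agent.ZD.Contr

set_option autoImplicit false

namespace Crest.Agent.ZD

theorem diam : DiamStmt := diam_of fun _ _ _ _ _ _ M g B => switching M g B

theorem machine (C₀ Cc : ℕ) : ∃ J : ℕ,
    ∀ (S : Type) [Finite S] [DecidableEq S] (Γ : LG S) [Finite Γ.V] (U : Set Γ.V) (x₀ : Γ.V)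
      (g : ℕ), J ≤ g → Γ.Girth g → (∀ u v, (∃ w, Γ.run u w = some v) →
        ∃ w : List (S × Bool), w.length ≤ C₀ * g ∧ Γ.run u w = some v) →
      Γ.Iso U x₀ g J Cc → Mach Γ U x₀ :=
  machine_of glob (fun _ _ _ _ _ Γ _ => exists_osc Γ) C₀ Cc

/-- The machine: a colour-preserving configuration whose group has all the good properties. -/
theorem exists_mach (Pt : Type) [Fintype Pt] [DecidableEq Pt] (k Np c : ℕ)
    (hk : 65 ≤ k) (hN : Np < k ^ 2) (hc : 0 < c) (Ms : ∀ t : ℕ, Model Pt k Np (c * t))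
    (x₀ : ∀ t, (Ms (t + 1)).X) :
    ∃ (t : ℕ) (σ : (Ms (t + 1)).Conf), (Ms (t + 1)).Col σ ∧
      Mach ((Ms (t + 1)).graph σ) (Ms (t + 1)).UX (Sum.inl (x₀ t)) := by
  obtain ⟨C₀, Cc, h⟩ := exists_good_of diam Pt k Np c hk hN hc Ms x₀
  obtain ⟨J, hJ⟩ := machine C₀ Cc
  obtain ⟨t, g, σ, h1, h2, h3, h4⟩ := h J
  obtain ⟨h5, h6⟩ := (Ms (t + 1)).mem_GS.mp h1
  exact ⟨t, σ, h6, hJ Pt _ _ _ g h2 h5 h3 h4⟩

section
variable {S : Type} [DecidableEq S] {Γ : LG S} {U : Set Γ.V} {x₀ : Γ.V}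

theorem Mach.torsionFree (h : Mach Γ U x₀) (g : Γ.Grp) (hg : IsOfFinOrder g) : g = 1 :=
  h.osc.some.torsionFree g hg

theorem Mach.cw (h : Mach Γ U x₀) : Crest.Topology.HasFiniteClassifyingComplex Γ.Grp 2 :=
  h.osc.some.cw h.osc.some.contractible

end

end Crest.Agent.ZD
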