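import Crest.Agent.ZD.Defs

set_option autoImplicit false
set_option maxHeartbeats 400000

namespace Crest.Agent.ZD

open FreeGroup (mk of invRev IsReduced IsCyclicallyReduced mul_mk inv_mk one_eq_mk invRev_cons
  invRev_append invRev_invRev)

section
variable {S : Type} (Γ : LG S)

lemma LG.run_step {x y : Γ.V} {u v : List (S × Bool)} (h : FreeGroup.Red.Step u v)
    (hu : Γ.run x u = some y) : Γ.run x v = some y := by
  cases h with
  | @not L₁ L₂ s b =>
    obtain ⟨z, h1, h2⟩ := Γ.run_append_eq_some.1 hu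
    obtain ⟨z1, h3, h4⟩ := Γ.run_cons_eq_some.1 h2
    obtain ⟨z2, h5, h6⟩ := Γ.run_cons_eq_some.1 h4
    have := Γ.symm _ _ _ h3
    simp only at this
    rw [this] at h5
    obtain rfl := Option.some.inj h5
    exact Γ.run_append_eq_some.2 ⟨_, h1, h6⟩

lemma LG.run_red {x y : Γ.V} {u v : List (S × Bool)} (h : FreeGroup.Red u v)
    (hu : Γ.run x u = some y) : Γ.run x v = some y := by
  induction h with
  | refl => exact hu
  | tail _ h2 ih => exact Γ.run_step h2 ih

lemma LG.run_reduce [DecidableEq S] {x y : Γ.V} {u : List (S × Bool)}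
    (hu : Γ.run x u = some y) : Γ.run x (FreeGroup.reduce u) = some y :=
  Γ.run_red FreeGroup.reduce.red hu

/-- short reduced walks with the same ends are equal -/
lemma LG.Girth.unique {g : ℕ} (hg : Γ.Girth g) {x y : Γ.V} {u v : List (S × Bool)}
    (hu : Γ.run x u = some y) (hv : Γ.run x v = some y) (ru : IsReduced u) (rv : IsReduced v)
    (hl : u.length + v.length < g) : u = v := by
  classical
  have h1 : Γ.run x (u ++ invRev v) = some x := Γ.run_append_eq_some.2 ⟨y, hu, Γ.run_invRev hv⟩
  have h2 := hg x _ (Γ.run_reduce h1) (FreeGroup.IsReduced.of_reduce_eq FreeGroup.reduce.idem)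
    (lt_of_le_of_lt (FreeGroup.Red.length_le FreeGroup.reduce.red) (by simpa using hl))
  have h3 : FreeGroup.mk u = FreeGroup.mk v := by
    have : FreeGroup.mk (u ++ invRev v) = 1 := by
      rw [← FreeGroup.reduce.self, h2]; rfl
    rwa [← mul_mk, ← inv_mk, mul_inv_eq_one] at this
  have := FreeGroup.reduce.sound h3
  rwa [ru.reduce_eq, rv.reduce_eq] at this

lemma LG.run_take {x y : Γ.V} {u : List (S × Bool)} (hu : Γ.run x u = some y) (k : ℕ) :
    ∃ z, Γ.run x (u.take k) = some z ∧ Γ.run z (u.drop k) = some y := by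
  rw [← List.take_append_drop k u] at hu
  exact Γ.run_append_eq_some.1 hu

/-- the segment of a word between positions `a` and `b` -/
def seg (u : List (S × Bool)) (a b : ℕ) : List (S × Bool) := (u.take b).drop a

lemma take_append_seg (u : List (S × Bool)) {a b : ℕ} (h : a ≤ b) :
    u.take a ++ seg u a b = u.take b := by
  have : u.take a = (u.take b).take a := by rw [List.take_take, min_eq_left h]
  rw [this, seg, List.take_append_drop]

lemma length_seg (u : List (S × Bool)) {a b : ℕ} (h : b ≤ u.length) :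
    (seg u a b).length = b - a := by simp [seg, min_eq_left h]

lemma seg_reduced {u : List (S × Bool)} (h : IsReduced u) (a b : ℕ) : IsReduced (seg u a b) :=
  h.infix ((List.drop_suffix _ _).isInfix.trans (List.take_prefix _ _).isInfix)

lemma take_seg (u : List (S × Bool)) {a b t : ℕ} (h : a + t ≤ b) :
    (seg u a b).take t = seg u a (a + t) := by
  simp only [seg, List.take_drop, List.take_take, min_eq_left h]

lemma LG.run_seg {x p q : Γ.V} {u : List (S × Bool)} {a b : ℕ} (h : a ≤ b)
    (hp : Γ.run x (u.take a) = some p) (hq : Γ.run x (u.take b) = some q) :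
    Γ.run p (seg u a b) = some q := by
  rw [← take_append_seg u h, Γ.run_append, hp] at hq
  exact hq

lemma invRev_reduced {u : List (S × Bool)} (h : IsReduced u) : IsReduced (invRev u) := by
  classical
  rw [FreeGroup.isReduced_iff_reduce_eq] at h ⊢
  rw [FreeGroup.reduce_invRev, h]

/-- two short reduced walks meet along an interval -/
lemma LG.Girth.interval {g : ℕ} (hg : Γ.Girth g) {x y x' y' : Γ.V} {u v : List (S × Bool)}
    (hu : Γ.run x u = some x') (hv : Γ.run y v = some y') (ru : IsReduced u) (rv : IsReduced v)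
    (hl : u.length + v.length < g) {k₀ l₀ k₁ l₁ : ℕ} (hk : k₀ ≤ k₁) (hk₁ : k₁ ≤ u.length)
    (hl₀ : l₀ ≤ v.length) (hl₁ : l₁ ≤ v.length)
    (h₀ : Γ.run x (u.take k₀) = Γ.run y (v.take l₀))
    (h₁ : Γ.run x (u.take k₁) = Γ.run y (v.take l₁)) :
    (l₁ = l₀ + (k₁ - k₀) ∧ seg u k₀ k₁ = seg v l₀ l₁ ∧ ∀ t, t ≤ k₁ - k₀ →
        Γ.run x (u.take (k₀ + t)) = Γ.run y (v.take (l₀ + t))) ∨
      (l₀ = l₁ + (k₁ - k₀) ∧ seg u k₀ k₁ = invRev (seg v l₁ l₀) ∧ ∀ t, t ≤ k₁ - k₀ →
        Γ.run x (u.take (k₀ + t)) = Γ.run y (v.take (l₀ - t))) := by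
  obtain ⟨p, hp, -⟩ := Γ.run_take hu k₀
  obtain ⟨q, hq, -⟩ := Γ.run_take hu k₁
  have hp' := h₀ ▸ hp
  have hq' := h₁ ▸ hq
  have s1 := Γ.run_seg hk hp hq
  rcases le_total l₀ l₁ with h | h
  · left
    have s2 := Γ.run_seg h hp' hq'
    have e := hg.unique Γ s1 s2 (seg_reduced ru _ _) (seg_reduced rv _ _)
      (by rw [length_seg _ hk₁, length_seg _ hl₁]; omega)
    have el := congrArg List.length e
    rw [length_seg _ hk₁, length_seg _ hl₁] at el
    refine ⟨by omega, e, fun t ht => ?_⟩
    rw [← take_append_seg u (Nat.le_add_right k₀ t), ← take_append_seg v (Nat.le_add_right l₀ t),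
      Γ.run_append, Γ.run_append, hp, hp', ← take_seg u (b := k₁) (by omega),
      ← take_seg v (b := l₁) (by omega), e]
  · right
    have s2 := Γ.run_invRev (Γ.run_seg h hq' hp')
    have e := hg.unique Γ s1 s2 (seg_reduced ru _ _) (invRev_reduced (seg_reduced rv _ _))
      (by rw [length_seg _ hk₁, FreeGroup.invRev_length, length_seg _ hl₀]; omega)
    have el := congrArg List.length e
    rw [length_seg _ hk₁, FreeGroup.invRev_length, length_seg _ hl₀] at el
    refine ⟨by omega, e, fun t ht => ?_⟩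
    obtain ⟨r, hr, -⟩ := Γ.run_take hv (l₀ - t)
    have s3 := Γ.run_invRev (Γ.run_seg (show l₀ - t ≤ l₀ by omega) hr hp')
    have e2 : seg v l₁ l₀ = seg v l₁ (l₀ - t) ++ seg v (l₀ - t) l₀ := by
      have a1 := take_append_seg v h
      have a2 := take_append_seg v (show l₁ ≤ l₀ - t by omega)
      have a3 := take_append_seg v (show l₀ - t ≤ l₀ by omega)
      rw [← a2, List.append_assoc, ← a1] at a3
      exact (List.append_cancel_left a3).symm
    have e3 : seg u k₀ (k₀ + t) = invRev (seg v (l₀ - t) l₀) := by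
      rw [← take_seg u (b := k₁) (by omega), e, e2, invRev_append, List.take_left']
      rw [FreeGroup.invRev_length, length_seg _ hl₀]; omega
    rw [← take_append_seg u (Nat.le_add_right k₀ t), Γ.run_append, hp, hr, e3]
    exact s3

end

/-- alternating signs -/
def altS : Bool → ℕ → List Bool
  | _, 0 => []
  | b, n + 1 => b :: altS (!b) n

section
variable {Pt : Type} [Fintype Pt] [DecidableEq Pt] {k Np R : ℕ} (M : Model Pt k Np R)

lemma Model.nxt_side {σ : M.Conf} {x y : M.X ⊕ M.Z} {d : Pt × Bool}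
    (h : M.nxt σ x d = some y) : d.2 = x.isLeft ∧ y.isLeft = !x.isLeft := by
  obtain ⟨p, b⟩ := d
  rcases x with x | z <;> cases b <;> simp only [Model.nxt] at h
  · cases h
  · split_ifs at h
    obtain rfl := Option.some.inj h
    simp
  · split_ifs at h
    obtain rfl := Option.some.inj h
    simp
  · cases h

lemma Model.signs {σ : M.Conf} {x y : M.X ⊕ M.Z} {w : List (Pt × Bool)}
    (h : (M.graph σ).run x w = some y) : w.map Prod.snd = altS x.isLeft w.length := by
  induction w generalizing x with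
  | nil => rfl
  | cons d w ih =>
    obtain ⟨z, h1, h2⟩ := (M.graph σ).run_cons_eq_some.1 h
    obtain ⟨e1, e2⟩ := M.nxt_side h1
    rw [List.map_cons, List.length_cons, altS, ih h2, e1, e2]

lemma Model.nxt_col {σ : M.Conf} (hσ : M.Col σ) {x y : M.X ⊕ M.Z} {d : Pt × Bool}
    (h : M.nxt σ x d = some y) : M.col y = M.col x := by
  obtain ⟨p, b⟩ := d
  rcases x with x | z <;> cases b <;> simp only [Model.nxt] at h
  · cases h
  · split_ifs at h with hp
    obtain rfl := Option.some.inj h
    exact hσ p ⟨x, hp⟩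
  · split_ifs at h with hp
    obtain rfl := Option.some.inj h
    have := hσ p ((σ p).symm ⟨z, hp⟩)
    rw [Equiv.apply_symm_apply] at this
    exact this.symm
  · cases h

lemma Model.run_col {σ : M.Conf} (hσ : M.Col σ) {x y : M.X ⊕ M.Z} {w : List (Pt × Bool)}
    (h : (M.graph σ).run x w = some y) : M.col y = M.col x := by
  induction w generalizing x with
  | nil => obtain rfl := Option.some.inj h; rfl
  | cons d w ih =>
    obtain ⟨z, h1, h2⟩ := (M.graph σ).run_cons_eq_some.1 h
    rw [ih h2, M.nxt_col hσ h1]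

lemma Model.mem_GS {g : ℕ} {σ : M.Conf} : σ ∈ M.GS g ↔ (M.graph σ).Girth g ∧ M.Col σ := by
  simp [Model.GS]

end

end Crest.Agent.ZD
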