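import Crest.Agent.ZD.Local
import Crest.Agent.ZD.Cut
import Crest.Agent.ZD.Walk

set_option autoImplicit false

namespace Crest.Agent.ZD

open FreeGroup (mk of invRev IsReduced IsCyclicallyReduced mul_mk inv_mk one_eq_mk invRev_cons
  invRev_append invRev_invRev)
open Finset (univ)

section grp
variable {S : Type} (Γ : LG S)

/-- the normal subgroup generated by the labels of the closed walks -/
def LG.N : Subgroup (FreeGroup S) :=
  Subgroup.normalClosure (Set.range fun q : Γ.Cyc => FreeGroup.mk (Γ.cw q))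

instance : Γ.N.Normal := Subgroup.normalClosure_normal

/-- the group presented by the labelled graph -/
abbrev LG.Grp : Type := FreeGroup S ⧸ Γ.N

/-- the projection -/
def LG.pr : FreeGroup S →* Γ.Grp := QuotientGroup.mk' Γ.N

lemma LG.pr_surj : Function.Surjective Γ.pr := QuotientGroup.mk'_surjective _

lemma LG.pr_eq_one {w : FreeGroup S} : Γ.pr w = 1 ↔ w ∈ Γ.N := QuotientGroup.eq_one_iff w

lemma LG.pr_cyc (q : Γ.Cyc) : Γ.pr (FreeGroup.mk (Γ.cw q)) = 1 :=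
  Γ.pr_eq_one.mpr (Subgroup.subset_normalClosure ⟨q, rfl⟩)

lemma LG.pr_run {x : Γ.V} {u : List (S × Bool)} (h : Γ.run x u = some x) :
    Γ.pr (FreeGroup.mk u) = 1 :=
  Γ.pr_cyc ⟨(x, u), h⟩

/-- two walks with the same ends have the same image -/
lemma LG.pr_run_eq {x y : Γ.V} {u v : List (S × Bool)} (hu : Γ.run x u = some y)
    (hv : Γ.run x v = some y) : Γ.pr (FreeGroup.mk u) = Γ.pr (FreeGroup.mk v) := by
  have := Γ.pr_run (Γ.run_append_eq_some.mpr ⟨y, hu, Γ.run_invRev hv⟩)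
  rwa [← mul_mk, ← inv_mk, map_mul, map_inv, mul_inv_eq_one] at this

lemma fprod_mem {Φ : Type} {wd : Φ → List (S × Bool)} (N : Subgroup (FreeGroup S)) [hN : N.Normal]
    {l : List (FreeGroup S × Φ)} (h : ∀ p ∈ l, mk (wd p.2) ∈ N) : fprod wd l ∈ N := by
  induction l with
  | nil => exact N.one_mem
  | cons a l ih =>
    rw [fprod_cons]
    exact N.mul_mem (hN.conj_mem _ (h a (by simp)) _) (ih fun p hp => h p (by simp [hp]))

lemma LG.pr_ker (w : FreeGroup S) :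
    Γ.pr w = 1 ↔ ∃ l : List (FreeGroup S × Γ.Cyc), fprod Γ.cw l = w := by
  rw [Γ.pr_eq_one]
  constructor
  · intro h
    let M : Subgroup (FreeGroup S) :=
      { carrier := {w | ∃ l : List (FreeGroup S × Γ.Cyc), fprod Γ.cw l = w}
        mul_mem' := by
          rintro _ _ ⟨l, rfl⟩ ⟨l', rfl⟩
          exact ⟨l ++ l', fprod_append _ _ _⟩
        one_mem' := ⟨[], rfl⟩
        inv_mem' := by
          rintro _ ⟨l, rfl⟩
          exact ⟨finv l, fprod_finv l⟩ }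
    have : M.Normal := ⟨by
      rintro _ ⟨l, rfl⟩ k
      exact ⟨fconj k l, fprod_fconj k l⟩⟩
    refine Subgroup.normalClosure_le_normal (N := M) ?_ h
    rintro _ ⟨q, rfl⟩
    exact ⟨[(1, q)], by simp⟩
  · rintro ⟨l, rfl⟩
    exact fprod_mem _ fun p _ => Subgroup.subset_normalClosure ⟨p.2, rfl⟩

variable {G : Type} [Group G] (π : FreeGroup S →* G)

lemma wch_step {h : G} {x y : Γ.V} {u v : List (S × Bool)} (hs : FreeGroup.Red.Step u v)
    (hu : Γ.run x u = some y) : wch π Γ h x v = wch π Γ h x u := by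
  cases hs with
  | @not L₁ L₂ s b =>
    obtain ⟨z, h1, h2⟩ := Γ.run_append_eq_some.1 hu
    obtain ⟨z1, h3, -⟩ := Γ.run_cons_eq_some.1 h2
    have h4 : Γ.run z [(s, b)] = some z1 := by simpa using h3
    have e : (s, b) :: (s, !b) :: L₂ = [(s, b)] ++ (invRev [(s, b)] ++ L₂) := by simp [invRev]
    rw [wch_append π Γ _ h1, wch_append π Γ _ h1, e, wch_append π Γ _ h4,
      wch_append π Γ _ (Γ.run_invRev h4), wch_invRev π Γ h4, ← inv_mk, map_inv,
      mul_inv_cancel_right]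
    abel

lemma wch_reduce [DecidableEq S] {h : G} {x y : Γ.V} {u : List (S × Bool)}
    (hu : Γ.run x u = some y) : wch π Γ h x (FreeGroup.reduce u) = wch π Γ h x u := by
  have : ∀ v, FreeGroup.Red u v → wch π Γ h x v = wch π Γ h x u := by
    intro v hv
    induction hv with
    | refl => rfl
    | tail h1 h2 ih => rw [wch_step Γ π h2 (Γ.run_red h1 hu), ih]
  exact this _ FreeGroup.reduce.red

/-- short reduced closed walks -/
def LG.SC (ℓ : ℕ) : Type := {q : Γ.Cyc // IsReduced (Γ.cw q) ∧ (Γ.cw q).length ≤ ℓ}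

/-- word of a short face -/
def LG.sw (ℓ : ℕ) (q : Γ.SC ℓ) : List (S × Bool) := Γ.cw q.1

/-- chain of a short face -/
noncomputable def LG.sch (ℓ : ℕ) (q : Γ.SC ℓ) : G × Γ.V × S →₀ ℤ := Γ.cch π q.1

/-- forget shortness -/
def unS {ℓ : ℕ} (l : List (FreeGroup S × Γ.SC ℓ)) : List (FreeGroup S × Γ.Cyc) :=
  l.map fun p => (p.1, p.2.1)

lemma fprod_unS {ℓ : ℕ} (l : List (FreeGroup S × Γ.SC ℓ)) :
    fprod Γ.cw (unS Γ l) = fprod (Γ.sw ℓ) l := by
  simp [unS, fprod, LG.sw, Function.comp_def]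

lemma fchain_unS {ℓ : ℕ} (l : List (FreeGroup S × Γ.SC ℓ)) :
    fchain (wrep π Γ) (Γ.cch π) (unS Γ l) = fchain (wrep π Γ) (Γ.sch π ℓ) l := by
  simp [unS, fchain, LG.sch, Function.comp_def]

lemma fper_unS {ℓ : ℕ} (l : List (FreeGroup S × Γ.SC ℓ)) : fper Γ.cw (unS Γ l) ≤ l.length * ℓ := by
  induction l with
  | nil => simp [unS]
  | cons a l ih =>
    have := a.2.2.2
    simp only [unS, List.map_cons, fper_cons, List.length_cons] at ih ⊢
    nlinarith

lemma split_aux [DecidableEq S] {D g : ℕ} (hπ : ∀ q : Γ.Cyc, π (mk (Γ.cw q)) = 1)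
    (conn : ∀ u v, (∃ w, Γ.run u w = some v) →
      ∃ w : List (S × Bool), w.length ≤ D ∧ Γ.run u w = some v) (x : Γ.V) (n : ℕ) :
    ∀ (y : Γ.V) (t u : List (S × Bool)), Γ.run x t = some y → t.length ≤ D →
      Γ.run y u = some x → u.length ≤ (n + 1) * g →
      ∃ l : List (FreeGroup S × Γ.SC (2 * D + g)), l.length ≤ n + 1 ∧
        fprod (Γ.sw _) l = mk (t ++ u) ∧
        fchain (wrep π Γ) (Γ.sch π _) l = wch π Γ 1 x (t ++ u) := by
  have one : ∀ w, Γ.run x w = some x → w.length ≤ 2 * D + g → ∃ q : Γ.SC (2 * D + g),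
      mk (Γ.sw _ q) = mk w ∧ Γ.sch π _ q = wch π Γ 1 x w := fun w h1 h2 =>
    ⟨⟨⟨(x, FreeGroup.reduce w), Γ.run_reduce h1⟩,
      FreeGroup.IsReduced.of_reduce_eq FreeGroup.reduce.idem,
      (FreeGroup.Red.length_le FreeGroup.reduce.red).trans h2⟩, FreeGroup.reduce.self,
      wch_reduce Γ π h1⟩
  induction n with
  | zero =>
    intro y t u h1 h2 h3 h4
    obtain ⟨q, e1, e2⟩ := one (t ++ u) (Γ.run_append_eq_some.mpr ⟨y, h1, h3⟩)
      (by rw [List.length_append]; omega)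
    exact ⟨[(1, q)], le_rfl, by simp [e1], by simp [e2]⟩
  | succ n ih =>
    intro y t u h1 h2 h3 h4
    obtain ⟨z, h5, h6⟩ := Γ.run_take h3 g
    have h7 : Γ.run x (t ++ u.take g) = some z := Γ.run_append_eq_some.mpr ⟨y, h1, h5⟩
    obtain ⟨t', h8, h9⟩ := conn x z ⟨_, h7⟩
    have h10 := Γ.run_append_eq_some.mpr ⟨z, h7, Γ.run_invRev h9⟩
    obtain ⟨q, e1, e2⟩ := one _ h10 (by
      simp only [List.length_append, FreeGroup.invRev_length, List.length_take]; omega)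
    obtain ⟨l, a1, a2, a3⟩ := ih z t' (u.drop g) h9 h8 h6 (by
      rw [List.length_drop]; rw [add_mul] at h4; omega)
    have e3 : t ++ u = (t ++ u.take g) ++ u.drop g := by simp
    have e4 : π (mk (t ++ u.take g)) = π (mk t') := by
      have := hπ ⟨(x, _), h10⟩
      simp only [LG.cw] at this
      rwa [← mul_mk, ← inv_mk, map_mul, map_inv, mul_inv_eq_one] at this
    refine ⟨(1, q) :: l, by simp; omega, ?_, ?_⟩
    · rw [fprod_cons, e1, a2, e3]
      generalize t ++ u.take g = s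
      simp only [← mul_mk, ← inv_mk]
      group
    · rw [fchain_cons, e2, a3, e3, map_one, Module.End.one_apply, wch_append π Γ _ h7,
        wch_append π Γ _ h7, wch_append π Γ _ h9, e4, wch_invRev π Γ h9]
      abel

lemma split_all [DecidableEq S] {D g : ℕ} (hg : 0 < g) (hπ : ∀ q : Γ.Cyc, π (mk (Γ.cw q)) = 1)
    (conn : ∀ u v, (∃ w, Γ.run u w = some v) →
      ∃ w : List (S × Bool), w.length ≤ D ∧ Γ.run u w = some v)
    (l : List (FreeGroup S × Γ.Cyc)) :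
    ∃ l' : List (FreeGroup S × Γ.SC (2 * D + g)), l'.length * g ≤ fper Γ.cw l + l.length * g ∧
      fprod (Γ.sw _) l' = fprod Γ.cw l ∧
      fchain (wrep π Γ) (Γ.sch π _) l' = fchain (wrep π Γ) (Γ.cch π) l := by
  induction l with
  | nil => exact ⟨[], by simp, rfl, rfl⟩
  | cons a l ih =>
    obtain ⟨l', a1, a2, a3⟩ := ih
    obtain ⟨m, b1, b2, b3⟩ := split_aux Γ π (g := g) hπ conn a.2.1.1 ((Γ.cw a.2).length / g)
      a.2.1.1 [] (Γ.cw a.2) rfl (by simp) a.2.2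
      (by rw [mul_comm]; exact (Nat.lt_mul_div_succ _ hg).le)
    refine ⟨fconj a.1 m ++ l', ?_, ?_, ?_⟩
    · have := Nat.div_mul_le_self (Γ.cw a.2).length g
      have b4 := Nat.mul_le_mul_right g b1
      simp only [List.length_append, length_fconj, fper_cons, List.length_cons, add_mul] at b4 ⊢
      omega
    · rw [fprod_append, fprod_fconj, b2, a2, fprod_cons, List.nil_append]
    · rw [fchain_append, fchain_fconj, b3, a3, fchain_cons, List.nil_append]; rfl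

end grp

/-- statement of (G2) -/
def GlobStmt : Prop := ∀ C : ℕ, ∃ K : ℕ, ∀ (S Φ A : Type) [DecidableEq S] [AddCommGroup A]
    (wd : Φ → List (S × Bool)) (ρ : Representation ℤ (FreeGroup S) A) (ch : Φ → A) (ℓ : ℕ),
    0 < ℓ → (∀ φ, (wd φ).length ≤ ℓ) → (∀ φ, IsReduced (wd φ)) →
    (∀ φ a, ρ (mk (wd φ)) a = a) →
    (∀ l : List (FreeGroup S × Φ), l.length ≤ K → ∃ l' : List (FreeGroup S × Φ),
      fprod wd l' = fprod wd l ∧ fchain ρ ch l' = fchain ρ ch l ∧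
        l'.length * ℓ ≤ C * (fprod wd l).norm) →
    ∀ l : List (FreeGroup S × Φ), ∃ l' : List (FreeGroup S × Φ),
      fprod wd l' = fprod wd l ∧ fchain ρ ch l' = fchain ρ ch l ∧
        l'.length * ℓ ≤ 3 * C * (fprod wd l).norm

/-- statement of (K) -/
def OscStmt : Prop := ∀ (S G : Type) [Finite S] [DecidableEq S] [Group G] (Γ : LG S) [Finite Γ.V],
    Γ.Girth 3 → ∀ (π : FreeGroup S →* G), Function.Surjective π →
    (∀ w, π w = 1 ↔ ∃ l : List (FreeGroup S × Γ.Cyc), fprod Γ.cw l = w) →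
    (∀ w : FreeGroup S, w.norm ≤ 2 → π w = 1 → w = 1) →
    (∀ l : List (FreeGroup S × Γ.Cyc), fprod Γ.cw l = 1 →
      fchain (wrep π Γ) (Γ.cch π) l = 0) → Nonempty (OSC G)

/-- The properties of the group presented by a good graph. -/
structure Mach {S : Type} [DecidableEq S] (Γ : LG S) (U : Set Γ.V) (x₀ : Γ.V) : Prop where
  /-- finite presentation -/
  fp : Group.IsFinitelyPresented Γ.Grp
  /-- a free cocompact action on a contractible 2-complex -/
  osc : Nonempty (OSC Γ.Grp)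
  /-- asphericity -/
  asph : ∀ l : List (FreeGroup S × Γ.Cyc), fprod Γ.cw l = 1 →
    fchain (wrep Γ.pr Γ) (Γ.cch Γ.pr) l = 0
  /-- linear isoperimetric inequality -/
  lin : ∃ ℓ D : ℕ, ∀ w, Γ.pr w = 1 → ∃ l : List (FreeGroup S × Γ.Cyc), fprod Γ.cw l = w ∧
    (∀ p ∈ l, IsReduced (Γ.cw p.2) ∧ (Γ.cw p.2).length ≤ ℓ) ∧ l.length ≤ D * w.norm
  /-- marked vertices are separated from the base point -/
  pt : ∀ y ∈ U, y ≠ x₀ → ∀ p, Γ.run x₀ p = some y → Γ.pr (FreeGroup.mk p) ≠ 1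

theorem machine_of (hglob : GlobStmt) (hosc : OscStmt) (C₀ Cc : ℕ) : ∃ J : ℕ,
    ∀ (S : Type) [Finite S] [DecidableEq S] (Γ : LG S) [Finite Γ.V] (U : Set Γ.V) (x₀ : Γ.V)
      (g : ℕ), J ≤ g → Γ.Girth g → (∀ u v, (∃ w, Γ.run u w = some v) →
        ∃ w : List (S × Bool), w.length ≤ C₀ * g ∧ Γ.run u w = some v) →
      Γ.Iso U x₀ g J Cc → Mach Γ U x₀ := by
  obtain ⟨K, hK⟩ := hglob (2 * (2 * C₀ + 1) * (Cc + 1))
  set C := 2 * (2 * C₀ + 1) * (Cc + 1) with hC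
  refine ⟨30 * (K * (2 * C₀ + 1) + (C₀ + 3 * C * C₀)) + 30 + 6 * C, ?_⟩
  intro S _ _ Γ _ U x₀ g hJ hg conn hiso
  have hg0 : 0 < g := by omega
  have hl : 2 * (C₀ * g) + g = (2 * C₀ + 1) * g := by ring
  have key : ∀ l : List (FreeGroup S × Γ.Cyc), ∃ l' : List (FreeGroup S × Γ.SC (2 * (C₀ * g) + g)),
      fprod (Γ.sw _) l' = fprod Γ.cw l ∧
      fchain (wrep Γ.pr Γ) (Γ.sch Γ.pr _) l' = fchain (wrep Γ.pr Γ) (Γ.cch Γ.pr) l ∧
      l'.length * (2 * (C₀ * g) + g) ≤ 3 * C * (fprod Γ.cw l).norm := by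
    intro l
    obtain ⟨m, -, a2, a3⟩ := split_all Γ Γ.pr hg0 Γ.pr_cyc conn l
    rw [← a2, ← a3]
    refine hK S _ _ (Γ.sw _) (wrep Γ.pr Γ) (Γ.sch Γ.pr _) _ (by omega) (fun φ => φ.2.2)
      (fun φ => φ.2.1) (fun φ a => wrep_of_ker _ _ (Γ.pr_cyc φ.1) a) ?_ m
    intro l hlK
    obtain ⟨l', b1, b2, b3, b4⟩ := local_iso' hg hiso hJ Γ.pr_cyc (K * (2 * C₀ + 1)) (by omega)
      (unS Γ l) ((fper_unS Γ l).trans (by
        rw [mul_assoc K, ← hl]; exact Nat.mul_le_mul_right _ hlK))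
    obtain ⟨m, c1, c2, c3⟩ := split_all Γ Γ.pr hg0 Γ.pr_cyc conn l'
    have c4 := length_le_fper _ b3
    rw [fprod_unS] at b1 b4
    rw [fchain_unS] at b2
    refine ⟨m, c2.trans b1, c3.trans b2, ?_⟩
    calc m.length * (2 * (C₀ * g) + g) = (2 * C₀ + 1) * (m.length * g) := by ring
      _ ≤ (2 * C₀ + 1) * (2 * ((Cc + 1) * (fprod (Γ.sw _) l).norm)) :=
        Nat.mul_le_mul_left _ (by omega)
      _ = _ := by rw [hC]; ring
  have asph : ∀ l : List (FreeGroup S × Γ.Cyc), fprod Γ.cw l = 1 →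
      fchain (wrep Γ.pr Γ) (Γ.cch Γ.pr) l = 0 := by
    intro l h
    obtain ⟨l', -, a2, a3⟩ := key l
    rw [h, FreeGroup.norm_one, mul_zero, Nat.le_zero, mul_eq_zero] at a3
    have : l' = [] := List.length_eq_zero_iff.mp (a3.resolve_right (by omega))
    rw [← a2, this, fchain_nil]
  refine ⟨?_, hosc S _ Γ (hg.mono _ (by omega)) Γ.pr Γ.pr_surj Γ.pr_ker ?_ asph, asph,
    ⟨2 * (C₀ * g) + g, 3 * C, fun w hw => ?_⟩, fun y hy hne p hp h1 => ?_⟩
  · refine Group.IsFinitelyPresented.quotient _ ⟨Γ.N ∩ mk '' {w | w.length ≤ 2 * (C₀ * g) + g},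
      ((List.finite_length_le _ _).image _).subset Set.inter_subset_right, le_antisymm
      (Subgroup.normalClosure_le_normal Set.inter_subset_left) fun w hw => ?_⟩
    obtain ⟨l, rfl⟩ := (Γ.pr_ker w).mp (Γ.pr_eq_one.mpr hw)
    obtain ⟨l', a1, -⟩ := key l
    rw [← a1]
    exact fprod_mem _ fun p _ => Subgroup.subset_normalClosure
      ⟨Γ.pr_eq_one.mp (Γ.pr_cyc p.2.1), _, p.2.2.2, rfl⟩
  · intro w h2 hw
    obtain ⟨l, rfl⟩ := (Γ.pr_ker w).mp hw
    obtain ⟨l', a1, -, a3⟩ := key l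
    have : l' = [] := by
      rw [← List.length_eq_zero_iff]
      by_contra h
      have h3 : 1 * (2 * (C₀ * g) + g) ≤ l'.length * (2 * (C₀ * g) + g) :=
        Nat.mul_le_mul_right _ (by omega)
      have h4 := Nat.mul_le_mul_left (3 * C) h2
      omega
    rw [← a1, this, fprod_nil]
  · obtain ⟨l, rfl⟩ := (Γ.pr_ker w).mp hw
    obtain ⟨l', a1, -, a3⟩ := key l
    refine ⟨unS Γ l', by rw [fprod_unS, a1], fun p hp => ?_, ?_⟩
    · obtain ⟨q, -, rfl⟩ := List.mem_map.mp hp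
      exact q.2.2
    · rw [unS, List.length_map]
      exact (Nat.le_mul_of_pos_right _ (by omega)).trans a3
  · obtain ⟨p', h2, h3⟩ := conn x₀ y ⟨p, hp⟩
    rw [Γ.pr_run_eq hp h3] at h1
    obtain ⟨l, e⟩ := (Γ.pr_ker _).mp h1
    obtain ⟨l', a1, -, a3⟩ := key l
    refine pointed' hg hiso hJ (C₀ + 3 * C * C₀) (by omega) y hy hne p' h3 (unS Γ l')
      (by rw [fprod_unS, a1, e]) ?_
    have h4 := fper_unS Γ l'
    have h5 : (fprod Γ.cw l).norm ≤ C₀ * g := e ▸ FreeGroup.norm_mk_le.trans h2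
    have h6 := Nat.mul_le_mul_left (3 * C) h5
    rw [add_mul, mul_assoc (3 * C)]
    omega

end Crest.Agent.ZD
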