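import Crest.Agent.ZD.Defs

set_option autoImplicit false

namespace Crest.Agent.ZD

open Set

namespace OSC
variable {G : Type} [Group G] (K : OSC G)

/-- the closed simplex spanned by three vertices -/
def hull (a b c : K.V) : Set (K.V → ℝ) := convexHull ℝ {K.vtx a, K.vtx b, K.vtx c}

lemma irrefl (a : K.V) : ¬ K.E a a := fun h => K.asymm a a h h

lemma ne_of_E {a b : K.V} (h : K.E a b) : a ≠ b := fun e => K.irrefl a (e ▸ h)

@[simp] lemma vtx_self (a : K.V) : K.vtx a a = 1 := by simp [vtx]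

lemma vtx_ne {a v : K.V} (h : v ≠ a) : K.vtx a v = 0 := by simp [vtx, h]

lemma vtx_nonneg (a v : K.V) : 0 ≤ K.vtx a v := by unfold vtx; split_ifs <;> norm_num

lemma convex_hull (a b c : K.V) : Convex ℝ (K.hull a b c) := convex_convexHull _ _

lemma mem_hull {a b c : K.V} {y : K.V → ℝ} : y ∈ K.hull a b c ↔
    ∃ l0 l1 l2 : ℝ, 0 ≤ l0 ∧ 0 ≤ l1 ∧ 0 ≤ l2 ∧ l0 + l1 + l2 = 1 ∧
      y = l0 • K.vtx a + l1 • K.vtx b + l2 • K.vtx c := by
  constructor
  · intro hy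
    refine convexHull_min (t := {y | ∃ l0 l1 l2 : ℝ, 0 ≤ l0 ∧ 0 ≤ l1 ∧ 0 ≤ l2 ∧
      l0 + l1 + l2 = 1 ∧ y = l0 • K.vtx a + l1 • K.vtx b + l2 • K.vtx c}) ?_ ?_ hy
    · rintro y (rfl | rfl | rfl)
      · exact ⟨1, 0, 0, by norm_num, le_rfl, le_rfl, by norm_num, by simp⟩
      · exact ⟨0, 1, 0, le_rfl, by norm_num, le_rfl, by norm_num, by simp⟩
      · exact ⟨0, 0, 1, le_rfl, le_rfl, by norm_num, by norm_num, by simp⟩
    · rintro y ⟨l0, l1, l2, h0, h1, h2, hs, rfl⟩ z ⟨m0, m1, m2, k0, k1, k2, ks, rfl⟩ s t hs' ht hst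
      refine ⟨s * l0 + t * m0, s * l1 + t * m1, s * l2 + t * m2, by positivity, by positivity,
        by positivity, by linear_combination s * hs + t * ks + hst, ?_⟩
      simp only [smul_add, add_smul, mul_smul]
      abel
  · rintro ⟨l0, l1, l2, h0, h1, h2, hs, rfl⟩
    have ha : K.vtx a ∈ K.hull a b c := subset_convexHull _ _ (by simp)
    have hb : K.vtx b ∈ K.hull a b c := subset_convexHull _ _ (by simp)
    have hc : K.vtx c ∈ K.hull a b c := subset_convexHull _ _ (by simp)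
    have := (K.convex_hull a b c).sum_mem (t := (Finset.univ : Finset (Fin 3)))
      (w := ![l0, l1, l2]) (z := ![K.vtx a, K.vtx b, K.vtx c])
      (by intro i _; fin_cases i <;> simpa) (by simpa [Fin.sum_univ_three] using hs)
      (by intro i _; fin_cases i <;> simpa)
    simpa [Fin.sum_univ_three] using this

lemma vtx_mem_hull {a b c v : K.V} (h : v = a ∨ v = b ∨ v = c) : K.vtx v ∈ K.hull a b c :=
  subset_convexHull _ _ (by rcases h with rfl | rfl | rfl <;> simp)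

lemma hull_mono {a b c a' b' c' : K.V} (ha : a' = a ∨ a' = b ∨ a' = c)
    (hb : b' = a ∨ b' = b ∨ b' = c) (hc : c' = a ∨ c' = b ∨ c' = c) :
    K.hull a' b' c' ⊆ K.hull a b c := by
  refine convexHull_min ?_ (K.convex_hull a b c)
  rintro y (rfl | rfl | rfl)
  exacts [K.vtx_mem_hull ha, K.vtx_mem_hull hb, K.vtx_mem_hull hc]

lemma hull_sub {a b c : K.V} (h : K.Face a b c) : K.hull a b c ⊆ K.Sp :=
  fun _ hy => ⟨a, b, c, h, hy⟩

lemma isCompact_hull (a b c : K.V) : IsCompact (K.hull a b c) :=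
  (Set.toFinite _).isCompact_convexHull ℝ

lemma nonneg_of_mem {a b c : K.V} {y : K.V → ℝ} (hy : y ∈ K.hull a b c) (v : K.V) : 0 ≤ y v := by
  obtain ⟨l0, l1, l2, h0, h1, h2, -, rfl⟩ := K.mem_hull.mp hy
  have := K.vtx_nonneg a v
  have := K.vtx_nonneg b v
  have := K.vtx_nonneg c v
  simp only [Pi.add_apply, Pi.smul_apply, smul_eq_mul]
  positivity

lemma mem_of_ne_zero {a b c v : K.V} {y : K.V → ℝ} (hy : y ∈ K.hull a b c) (hv : y v ≠ 0) :
    v = a ∨ v = b ∨ v = c := by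
  obtain ⟨l0, l1, l2, -, -, -, -, rfl⟩ := K.mem_hull.mp hy
  by_contra h
  push Not at h
  simp [K.vtx_ne h.1, K.vtx_ne h.2.1, K.vtx_ne h.2.2] at hv

lemma face_v (a : K.V) : K.Face a a a := Or.inr (Or.inr ⟨rfl, rfl⟩)
lemma face_e {a b : K.V} (h : K.E a b) : K.Face a b b := Or.inr (Or.inl ⟨h, rfl⟩)
lemma face_t {a b c : K.V} (h : K.T a b c) : K.Face a b c := Or.inl h

lemma mem_hull_v {a : K.V} {y : K.V → ℝ} (hy : y ∈ K.hull a a a) : y = K.vtx a := by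
  obtain ⟨l0, l1, l2, -, -, -, hs, rfl⟩ := K.mem_hull.mp hy
  rw [← add_smul, ← add_smul, hs, one_smul]

lemma mem_hull_e {a b : K.V} (hab : a ≠ b) {y : K.V → ℝ} (hy : y ∈ K.hull a b b) :
    0 ≤ y b ∧ y b ≤ 1 ∧ y a = 1 - y b ∧ y = (1 - y b) • K.vtx a + y b • K.vtx b := by
  obtain ⟨l0, l1, l2, h0, h1, h2, hs, rfl⟩ := K.mem_hull.mp hy
  have e : (l0 • K.vtx a + l1 • K.vtx b + l2 • K.vtx b) b = l1 + l2 := by
    simp [K.vtx_ne hab.symm]
  have e' : (l0 • K.vtx a + l1 • K.vtx b + l2 • K.vtx b) a = l0 := by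
    simp [K.vtx_ne hab]
  rw [e, e']
  refine ⟨by linarith, by linarith, by linarith, ?_⟩
  rw [add_smul, show 1 - (l1 + l2) = l0 by linarith, add_assoc]

lemma mem_hull_t {a b c : K.V} (h : K.T a b c) {y : K.V → ℝ} (hy : y ∈ K.hull a b c) :
    0 ≤ y b ∧ 0 ≤ y c ∧ y b + y c ≤ 1 ∧ y a = 1 - y b - y c ∧
      y = (1 - y b - y c) • K.vtx a + y b • K.vtx b + y c • K.vtx c := by
  obtain ⟨hab, hbc, hac⟩ := K.T_E a b c h
  have hab := K.ne_of_E hab
  have hbc := K.ne_of_E hbc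
  have hac := K.ne_of_E hac
  obtain ⟨l0, l1, l2, h0, h1, h2, hs, rfl⟩ := K.mem_hull.mp hy
  have ea : (l0 • K.vtx a + l1 • K.vtx b + l2 • K.vtx c) a = l0 := by
    simp [K.vtx_ne hab, K.vtx_ne hac]
  have eb : (l0 • K.vtx a + l1 • K.vtx b + l2 • K.vtx c) b = l1 := by
    simp [K.vtx_ne hab.symm, K.vtx_ne hbc]
  have ec : (l0 • K.vtx a + l1 • K.vtx b + l2 • K.vtx c) c = l2 := by
    simp [K.vtx_ne hac.symm, K.vtx_ne hbc.symm]
  rw [ea, eb, ec]
  refine ⟨h1, h2, by linarith, by linarith, ?_⟩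
  rw [show 1 - l1 - l2 = l0 by linarith]

/-- every point lies in the interior of some face -/
lemma exists_carrier {y : K.V → ℝ} (hy : y ∈ K.Sp) :
    ∃ a b c, K.Face a b c ∧ y ∈ K.hull a b c ∧ 0 < y a ∧ 0 < y b ∧ 0 < y c := by
  have hv : ∀ a, y ∈ K.hull a a a →
      ∃ a b c, K.Face a b c ∧ y ∈ K.hull a b c ∧ 0 < y a ∧ 0 < y b ∧ 0 < y c := by
    intro a h
    have e := K.mem_hull_v h
    have : 0 < y a := by rw [e]; simp
    exact ⟨a, a, a, K.face_v a, h, this, this, this⟩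
  have he : ∀ a b, K.E a b → y ∈ K.hull a b b →
      ∃ a b c, K.Face a b c ∧ y ∈ K.hull a b c ∧ 0 < y a ∧ 0 < y b ∧ 0 < y c := by
    intro a b hab h
    obtain ⟨h0, h1, h2, h3⟩ := K.mem_hull_e (K.ne_of_E hab) h
    rcases h0.eq_or_lt with h0 | h0
    · refine hv a (K.mem_hull.mpr ⟨1, 0, 0, by norm_num, le_rfl, le_rfl, by norm_num, ?_⟩)
      rw [h3, ← h0]; simp
    rcases h1.eq_or_lt with h1 | h1
    · refine hv b (K.mem_hull.mpr ⟨1, 0, 0, by norm_num, le_rfl, le_rfl, by norm_num, ?_⟩)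
      rw [h3, h1]; simp
    exact ⟨a, b, b, K.face_e hab, h, by linarith, h0, h0⟩
  obtain ⟨a, b, c, hf, hy⟩ := hy
  rcases hf with h | ⟨h, rfl⟩ | ⟨rfl, rfl⟩
  · obtain ⟨h0, h1, h2, h3, h4⟩ := K.mem_hull_t h hy
    obtain ⟨hab, hbc, hac⟩ := K.T_E a b c h
    rcases h0.eq_or_lt with h0 | h0
    · refine he a c hac (K.mem_hull.mpr ⟨1 - y c, y c, 0, by linarith, h1, le_rfl, by ring, ?_⟩)
      conv_lhs => rw [h4, ← h0]
      simp
    rcases h1.eq_or_lt with h1 | h1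
    · refine he a b hab (K.mem_hull.mpr ⟨1 - y b, y b, 0, by linarith, h0.le, le_rfl, by ring, ?_⟩)
      conv_lhs => rw [h4, ← h1]
      simp
    rcases h2.eq_or_lt with h2 | h2
    · refine he b c hbc (K.mem_hull.mpr ⟨y b, y c, 0, h0.le, h1.le, le_rfl, by linarith, ?_⟩)
      conv_lhs => rw [h4, show 1 - y b - y c = 0 by linarith]
      simp
    exact ⟨a, b, c, K.face_t h, hy, by linarith, h0, h1⟩
  · exact he _ _ h hy
  · exact hv _ hy

lemma sub_t {a b c a' b' c' : K.V} (h : K.T a b c) (h' : K.Face a' b' c')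
    (ha : a' = a ∨ a' = b ∨ a' = c) (hb : b' = a ∨ b' = b ∨ b' = c)
    (hc : c' = a ∨ c' = b ∨ c' = c) :
    (a' = a ∧ b' = b ∧ c' = c) ∨ (a' = a ∧ b' = b ∧ c' = b) ∨ (a' = b ∧ b' = c ∧ c' = c) ∨
      (a' = a ∧ b' = c ∧ c' = c) ∨ (a' = a ∧ b' = a ∧ c' = a) ∨ (a' = b ∧ b' = b ∧ c' = b) ∨
      (a' = c ∧ b' = c ∧ c' = c) := by
  obtain ⟨hab, hbc, hac⟩ := K.T_E a b c h
  have i := K.irrefl
  have hba := K.asymm _ _ hab
  have hcb := K.asymm _ _ hbc
  have hca := K.asymm _ _ hac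
  rcases h' with h' | ⟨h', rfl⟩ | ⟨rfl, rfl⟩
  · obtain ⟨h1, h2, h3⟩ := K.T_E _ _ _ h'
    rcases ha with rfl | rfl | rfl <;> rcases hb with rfl | rfl | rfl <;>
      rcases hc with rfl | rfl | rfl <;> simp_all
  · rcases ha with rfl | rfl | rfl <;> rcases hb with rfl | rfl | rfl <;> simp_all
  · rcases ha with rfl | rfl | rfl <;> simp

lemma sub_e {a b a' b' c' : K.V} (h : K.E a b) (h' : K.Face a' b' c')
    (ha : a' = a ∨ a' = b ∨ a' = b) (hb : b' = a ∨ b' = b ∨ b' = b)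
    (hc : c' = a ∨ c' = b ∨ c' = b) :
    (a' = a ∧ b' = b ∧ c' = b) ∨ (a' = a ∧ b' = a ∧ c' = a) ∨ (a' = b ∧ b' = b ∧ c' = b) := by
  have i := K.irrefl
  have hba := K.asymm _ _ h
  rcases h' with h' | ⟨h', rfl⟩ | ⟨rfl, rfl⟩
  · obtain ⟨h1, h2, h3⟩ := K.T_E _ _ _ h'
    rcases ha with rfl | rfl | rfl <;> rcases hb with rfl | rfl | rfl <;>
      rcases hc with rfl | rfl | rfl <;> simp_all
  · rcases ha with rfl | rfl | rfl <;> rcases hb with rfl | rfl | rfl <;> simp_all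
  · rcases ha with rfl | rfl | rfl <;> simp

/-- the index type of faces -/
def Fc : Type := {p : K.V × K.V × K.V // K.Face p.1 p.2.1 p.2.2}

/-- a closed face as a subset of the realisation -/
def cf (σ : K.Fc) : Set K.Sp := {y | y.1 ∈ K.hull σ.1.1 σ.1.2.1 σ.1.2.2}

lemma isClosed_cf (σ : K.Fc) : IsClosed (K.cf σ) :=
  (K.isCompact_hull _ _ _).isClosed.preimage continuous_subtype_val

lemma isCompact_cf (σ : K.Fc) : IsCompact (K.cf σ) := by
  rw [Subtype.isCompact_iff]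
  convert K.isCompact_hull σ.1.1 σ.1.2.1 σ.1.2.2
  ext y
  constructor
  · rintro ⟨z, hz, rfl⟩; exact hz
  · intro hy; exact ⟨⟨y, K.hull_sub σ.2 hy⟩, hy, rfl⟩

lemma iUnion_cf : ⋃ σ, K.cf σ = univ := by
  apply eq_univ_of_forall
  rintro ⟨y, a, b, c, h, hy⟩
  exact mem_iUnion.mpr ⟨⟨(a, b, c), h⟩, hy⟩

/-- closed neighbourhood of a vertex -/
def nb (v : K.V) : Set K.V := insert v {w | K.E v w ∨ K.E w v}

lemma nb_finite (v : K.V) : (K.nb v).Finite := (K.lf v).insert v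

lemma face_nb {a b c v : K.V} (h : K.Face a b c) (hv : v = a ∨ v = b ∨ v = c) :
    a ∈ K.nb v ∧ b ∈ K.nb v ∧ c ∈ K.nb v := by
  simp only [nb, mem_insert_iff, mem_ofPred_eq]
  rcases h with h | ⟨h, rfl⟩ | ⟨rfl, rfl⟩
  · obtain ⟨h1, h2, h3⟩ := K.T_E _ _ _ h
    rcases hv with rfl | rfl | rfl <;> simp [*]
  · rcases hv with rfl | rfl | rfl <;> simp [*]
  · rcases hv with rfl | rfl | rfl <;> simp

lemma finite_faces_at (v : K.V) :
    {σ : K.Fc | v = σ.1.1 ∨ v = σ.1.2.1 ∨ v = σ.1.2.2}.Finite := by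
  refine Set.Finite.of_finite_image (f := Subtype.val) ?_ Subtype.val_injective.injOn
  refine ((K.nb_finite v).prod ((K.nb_finite v).prod (K.nb_finite v))).subset ?_
  rintro _ ⟨σ, hσ, rfl⟩
  exact K.face_nb σ.2 hσ

lemma locallyFinite_cf : LocallyFinite K.cf := by
  intro y
  obtain ⟨a, b, c, -, -, ha, -, -⟩ := K.exists_carrier y.2
  refine ⟨{z | 0 < z.1 a}, (isOpen_lt continuous_const
    ((continuous_apply a).comp continuous_subtype_val)).mem_nhds ha, ?_⟩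
  refine (K.finite_faces_at a).subset ?_
  rintro σ ⟨z, hz, hza⟩
  exact K.mem_of_ne_zero hz (ne_of_gt hza)

end OSC

end Crest.Agent.ZD
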