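import Crest.Agent.ZD.PatCount0
import Crest.Agent.ZD.Walk

set_option autoImplicit false

namespace Crest.Agent.ZD

open FreeGroup (mk invRev IsReduced)
open Finset (univ)

section abstract
variable {S V : Type} {n n' : V → S × Bool → Option V}
  {hn : ∀ x y d, n x d = some y → n y (d.1, !d.2) = some x}
  {hn' : ∀ x y d, n' x d = some y → n' y (d.1, !d.2) = some x}

/-- the walk avoids the new steps -/
def SwAv (n : V → S × Bool → Option V) (New : V → S × Bool → Prop) : V → List (S × Bool) → Prop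
  | _, [] => True
  | v, d :: u => ¬ New v d ∧ ∀ y, n v d = some y → SwAv n New y u

lemma sw_split {New : V → S × Bool → Prop} (h1 : ∀ a d, ¬ New a d → n' a d = n a d)
    {v y : V} {u : List (S × Bool)} (h : (⟨V, n', hn'⟩ : LG S).run v u = some y) :
    (SwAv n New v u ∧ (⟨V, n, hn⟩ : LG S).run v u = some y) ∨
      ∃ u₁ d u₂ a b, u = u₁ ++ d :: u₂ ∧ (⟨V, n, hn⟩ : LG S).run v u₁ = some a ∧ New a d ∧
        n' a d = some b ∧ (⟨V, n', hn'⟩ : LG S).run b u₂ = some y := by
  induction u generalizing v with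
  | nil => exact Or.inl ⟨trivial, h⟩
  | cons d u ih =>
    obtain ⟨b, hb1, hb2⟩ := (LG.run_cons_eq_some _).1 h
    by_cases hN : New v d
    · exact Or.inr ⟨[], d, u, v, b, rfl, rfl, hN, hb1, hb2⟩
    · have hb3 : n v d = some b := by rw [← h1 v d hN]; exact hb1
      rcases ih hb2 with ⟨h2, h3⟩ | ⟨u₁, d', u₂, a, b', rfl, h3, h4, h5, h6⟩
      · refine Or.inl ⟨⟨hN, fun y' hy' => ?_⟩, (LG.run_cons_eq_some _).2 ⟨b, hb3, h3⟩⟩
        rw [hb3] at hy'
        obtain rfl := Option.some.inj hy'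
        exact h2
      · exact Or.inr ⟨d :: u₁, d', u₂, a, b', rfl, (LG.run_cons_eq_some _).2 ⟨b, hb3, h3⟩,
          h4, h5, h6⟩

lemma sw_key {New : V → S × Bool → Prop} {s : V → V} {g γ : ℕ}
    (h1 : ∀ a d, ¬ New a d → n' a d = n a d) (h2 : ∀ a d, New a d → n' a d = n (s a) d)
    (h3 : ∀ a d, New a d → ∀ w : List (S × Bool), w.length ≤ g →
      (⟨V, n, hn⟩ : LG S).run (s a) w ≠ some a)
    (h4 : ∀ a d a' d' b, New a d → New a' d' → n (s a) d = some b →
      a' = s a ∨ a' = a ∨ (d' = (d.1, !d.2) ∧ (a' = b ∨ b = s a')))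
    (hg : (⟨V, n, hn⟩ : LG S).Girth γ) (hγ : γ ≤ g) {v : V} {u : List (S × Bool)}
    (h : (⟨V, n', hn'⟩ : LG S).run v u = some v) (hr : IsReduced u) (hl : u.length ≤ γ) :
    SwAv n New v u ∧ (⟨V, n, hn⟩ : LG S).run v u = some v := by
  rcases sw_split (hn := hn) h1 h with h5 | ⟨u₁, d, u₂, a, b, rfl, e1, e2, e3, e4⟩
  · exact h5
  exfalso
  rw [h2 a d e2] at e3
  simp only [List.length_append, List.length_cons] at hl
  rcases sw_split (hn := hn) h1 e4 with ⟨-, h5⟩ | ⟨u₃, d', u₄, a', b', rfl, f1, f2, -, -⟩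
  · refine h3 a d e2 (d :: (u₂ ++ u₁)) (by simp; omega) ?_
    exact (LG.run_cons_eq_some _).2 ⟨b, e3, (LG.run_append_eq_some _).2 ⟨v, h5, e1⟩⟩
  · simp only [List.length_append, List.length_cons] at hl
    have w1 : (⟨V, n, hn⟩ : LG S).run (s a) (d :: u₃) = some a' :=
      (LG.run_cons_eq_some _).2 ⟨b, e3, f1⟩
    have r1 : IsReduced (d :: (u₃ ++ [d'])) :=
      hr.infix ⟨u₁, u₄, by simp⟩
    rcases h4 a d a' d' b e2 f2 e3 with rfl | rfl | ⟨rfl, rfl | rfl⟩
    · have := hg _ _ w1 (r1.infix ⟨[], [d'], by simp⟩) (by simp; omega)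
      simp at this
    · exact h3 _ d e2 _ (by simp; omega) w1
    · have := hg _ _ f1 (r1.infix ⟨[d], [(d.1, !d.2)], by simp⟩) (by omega)
      subst this
      simp [FreeGroup.IsReduced] at r1
    · exact h3 _ _ f2 _ (by omega) f1

end abstract

section
variable {Pt : Type} [Fintype Pt] [DecidableEq Pt] {k Np R : ℕ}

lemma card_near {V : Type} [DecidableEq V] (Γ : LG Pt) (x : Γ.V) (f : V → Γ.V)
    (hf : Function.Injective f) (g : ℕ) (T : Finset V)
    (hT : ∀ y ∈ T, ∃ w : List (Pt × Bool), w.length ≤ g + 2 ∧ Γ.run x w = some (f y)) :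
    T.card ≤ nearB Pt g := by
  classical
  have key : ∀ (m : ℕ) (w : List (Pt × Bool)), w.length ≤ m →
      ∃ φ : Fin m → Option (Pt × Bool), (List.ofFn φ).reduceOption = w := by
    intro m
    induction m with
    | zero => intro w hw; exact ⟨fun _ => none, by simpa using hw⟩
    | succ m ih =>
      intro w hw
      cases w with
      | nil =>
        obtain ⟨φ, hφ⟩ := ih [] (by simp)
        exact ⟨Fin.cons none φ, by simpa [List.ofFn_succ] using hφ⟩
      | cons d w =>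
        obtain ⟨φ, hφ⟩ := ih w (by simpa using hw)
        exact ⟨Fin.cons (some d) φ, by simpa [List.ofFn_succ] using hφ⟩
  choose! w hw1 hw2 using hT
  choose φ hφ using fun y : T => key (g + 2) (w y) (hw1 y y.2)
  have hinj : Function.Injective φ := by
    intro y y' h
    have e : w y = w y' := by rw [← hφ y, ← hφ y', h]
    have := hw2 y y.2
    rw [e, hw2 y' y'.2] at this
    exact Subtype.ext (hf (Option.some.inj this)).symm
  have := Fintype.card_le_of_injective φ hinj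
  simpa [nearB, mul_comm] using this

namespace Model
variable (M : Model Pt k Np R)

/-- the switched configuration -/
def sw (σ : M.Conf) (p : Pt) (x x' : {x : M.X // p ∈ M.lx x}) : M.Conf :=
  Function.update σ p ((Equiv.swap x x').trans (σ p))

/-- the steps along the new edges -/
def SwNew (σ : M.Conf) (p : Pt) (x x' : {x : M.X // p ∈ M.lx x}) (a : M.X ⊕ M.Z)
    (d : Pt × Bool) : Prop :=
  (d = (p, true) ∧ (a = Sum.inl x.1 ∨ a = Sum.inl x'.1)) ∨
    (d = (p, false) ∧ (a = Sum.inr (σ p x).1 ∨ a = Sum.inr (σ p x').1))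

/-- the exchange of end points -/
def swS (σ : M.Conf) (p : Pt) (x x' : {x : M.X // p ∈ M.lx x}) : M.X ⊕ M.Z → M.X ⊕ M.Z :=
  Sum.map (Equiv.swap x.1 x'.1) (Equiv.swap (σ p x).1 (σ p x').1)

variable {M}

lemma nxt_inl (σ : M.Conf) (p : Pt) (x : {x : M.X // p ∈ M.lx x}) :
    M.nxt σ (Sum.inl x.1) (p, true) = some (Sum.inr (σ p x).1) := by
  simp [nxt, x.2]

lemma nxt_inr (σ : M.Conf) (p : Pt) (x : {x : M.X // p ∈ M.lx x}) :
    M.nxt σ (Sum.inr (σ p x).1) (p, false) = some (Sum.inl x.1) := by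
  simp [nxt, (σ p x).2]

lemma sw_self (σ : M.Conf) (p : Pt) (x x' y : {x : M.X // p ∈ M.lx x}) :
    M.sw σ p x x' p y = σ p (Equiv.swap x x' y) := by
  simp [sw]

lemma sw_ne (σ : M.Conf) {p q : Pt} (x x' : {x : M.X // p ∈ M.lx x}) (h : q ≠ p) :
    M.sw σ p x x' q = σ q := by
  simp [sw, h]

lemma sw_sw (σ : M.Conf) (p : Pt) (x x' : {x : M.X // p ∈ M.lx x}) :
    M.sw (M.sw σ p x x') p x x' = σ := by
  funext q
  by_cases h : q = p
  · subst h
    ext y
    rw [sw_self, sw_self, Equiv.swap_apply_self]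
  · rw [sw_ne _ _ _ h, sw_ne _ _ _ h]

lemma sw_old (σ : M.Conf) (p : Pt) (x x' : {x : M.X // p ∈ M.lx x}) (a : M.X ⊕ M.Z)
    (d : Pt × Bool) (h : ¬ M.SwNew σ p x x' a d) : M.nxt (M.sw σ p x x') a d = M.nxt σ a d := by
  obtain ⟨q, b⟩ := d
  by_cases hq : q = p
  · subst hq
    rcases a with y | z <;> cases b
    · rfl
    · by_cases hy : q ∈ M.lx y
      · rw [nxt_inl _ q ⟨y, hy⟩, nxt_inl _ q ⟨y, hy⟩, sw_self, Equiv.swap_apply_of_ne_of_ne]
        · rintro rfl; exact h (Or.inl ⟨rfl, Or.inl rfl⟩)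
        · rintro rfl; exact h (Or.inl ⟨rfl, Or.inr rfl⟩)
      · simp [nxt, hy]
    · by_cases hz : q ∈ M.bz z
      · obtain ⟨y, hy⟩ := (σ q).surjective ⟨z, hz⟩
        have e : z = (σ q y).1 := by rw [hy]
        subst e
        have e2 : M.sw σ q x x' q y = σ q y := by
          rw [sw_self, Equiv.swap_apply_of_ne_of_ne]
          · rintro rfl; exact h (Or.inr ⟨rfl, Or.inl rfl⟩)
          · rintro rfl; exact h (Or.inr ⟨rfl, Or.inr rfl⟩)
        rw [nxt_inr, ← e2, nxt_inr]
      · simp [nxt, hz]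
    · rfl
  · rcases a with y | z <;> cases b <;> simp only [nxt, sw_ne _ _ _ hq]

lemma sw_new (σ : M.Conf) (p : Pt) (x x' : {x : M.X // p ∈ M.lx x}) (a : M.X ⊕ M.Z)
    (d : Pt × Bool) (h : M.SwNew σ p x x' a d) :
    M.nxt (M.sw σ p x x') a d = M.nxt σ (M.swS σ p x x' a) d := by
  have e1 : M.sw σ p x x' p x = σ p x' := by rw [sw_self, Equiv.swap_apply_left]
  have e2 : M.sw σ p x x' p x' = σ p x := by rw [sw_self, Equiv.swap_apply_right]
  rcases h with ⟨rfl, rfl | rfl⟩ | ⟨rfl, rfl | rfl⟩ <;>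
    simp only [swS, Sum.map_inl, Sum.map_inr, Equiv.swap_apply_left, Equiv.swap_apply_right]
  · rw [nxt_inl, nxt_inl, e1]
  · rw [nxt_inl, nxt_inl, e2]
  · rw [nxt_inr, ← e2, nxt_inr]
  · rw [nxt_inr, ← e1, nxt_inr]

lemma sw_col {σ : M.Conf} (hσ : M.Col σ) (p : Pt) (x x' : {x : M.X // p ∈ M.lx x})
    (h : M.cx x'.1 = M.cx x.1) : M.Col (M.sw σ p x x') := by
  intro q y
  by_cases hq : q = p
  · subst hq
    rw [sw_self, hσ, Equiv.swap_apply_def]
    split_ifs with h1 h2
    · rw [h1, h]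
    · rw [h2, h]
    · rfl
  · rw [sw_ne _ _ _ hq, hσ]

lemma sw_walk {σ : M.Conf} {g γ : ℕ} (hg : (M.graph σ).Girth γ) (hγ : γ ≤ g) (p : Pt)
    (x x' : {x : M.X // p ∈ M.lx x})
    (far : ∀ w : List (Pt × Bool), w.length ≤ g + 2 →
      (M.graph σ).run (Sum.inl x.1) w ≠ some (Sum.inl x'.1))
    {v : M.X ⊕ M.Z} {u : List (Pt × Bool)}
    (h : (M.graph (M.sw σ p x x')).run v u = some v) (hr : IsReduced u) (hl : u.length ≤ γ) :
    SwAv (M.nxt σ) (M.SwNew σ p x x') v u ∧ (M.graph σ).run v u = some v := by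
  have far' : ∀ w : List (Pt × Bool), w.length ≤ g + 2 →
      (M.graph σ).run (Sum.inl x'.1) w ≠ some (Sum.inl x.1) := fun w hw h =>
    far _ (by simpa using hw) ((M.graph σ).run_invRev h)
  have ext : ∀ (y y' : {x : M.X // p ∈ M.lx x}) (w : List (Pt × Bool)),
      (M.graph σ).run (Sum.inr (σ p y).1) w = some (Sum.inr (σ p y').1) →
      (M.graph σ).run (Sum.inl y.1) ((p, true) :: (w ++ [(p, false)])) = some (Sum.inl y'.1) :=
    fun y y' w h => (LG.run_cons_eq_some _).2 ⟨_, nxt_inl σ p y,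
      (LG.run_append_eq_some _).2 ⟨_, h, by rw [LG.run_singleton]; exact nxt_inr σ p y'⟩⟩
  refine sw_key (g := g) (s := M.swS σ p x x') (sw_old σ p x x') (sw_new σ p x x') ?_ ?_ hg hγ h
    hr hl
  · rintro a d (⟨rfl, rfl | rfl⟩ | ⟨rfl, rfl | rfl⟩) w hw <;>
      simp only [swS, Sum.map_inl, Sum.map_inr, Equiv.swap_apply_left, Equiv.swap_apply_right]
    · exact far' w (by omega)
    · exact far w (by omega)
    · exact fun h => far' _ (by simp; omega) (ext _ _ _ h)
    · exact fun h => far _ (by simp; omega) (ext _ _ _ h)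
  · rintro a d a' d' b (⟨rfl, rfl | rfl⟩ | ⟨rfl, rfl | rfl⟩)
      (⟨rfl, rfl | rfl⟩ | ⟨rfl, rfl | rfl⟩) <;>
      simp only [swS, Sum.map_inl, Sum.map_inr, Equiv.swap_apply_left, Equiv.swap_apply_right,
        nxt_inl, nxt_inr, Option.some.injEq] <;> rintro rfl <;> simp

open Classical in
/-- many far candidates -/
lemma card_cand (σ : M.Conf) (g : ℕ) (p : Pt) (x : M.X) :
    R ≤ (univ.filter fun x' : M.X => p ∈ M.lx x' ∧ M.cx x' = M.cx x ∧
      ∀ w : List (Pt × Bool), w.length ≤ g + 2 →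
        (M.graph σ).run (Sum.inl x) w ≠ some (Sum.inl x')).card + nearB Pt g := by
  refine (M.card_lo p (M.cx x)).trans ?_
  refine le_trans ?_ (Nat.add_le_add_left (card_near (M.graph σ) (Sum.inl x) Sum.inl
    Sum.inl_injective g (univ.filter fun x' : M.X => ∃ w : List (Pt × Bool), w.length ≤ g + 2 ∧
      (M.graph σ).run (Sum.inl x) w = some (Sum.inl x')) (fun y hy => (Finset.mem_filter.1 hy).2)) _)
  refine le_trans (Finset.card_le_card fun y hy => ?_) (Finset.card_union_le _ _)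
  simp only [Finset.mem_filter, Finset.mem_univ, true_and, Finset.mem_union] at hy ⊢
  by_contra hc
  push Not at hc
  exact hc.1 hy.1 hy.2 |>.elim fun w hw => hc.2 w hw.1 hw.2

end Model

open Classical in
lemma switch_step (M : Model Pt k Np R) (g : ℕ) (B : Finset (Pt × M.X × M.Z))
    (e : Pt × M.X × M.Z) (he : e ∉ B) :
    ((M.GS g).filter fun σ => ∀ e' ∈ insert e B, M.Has σ e').card * (R - B.card - nearB Pt g) ≤
      ((M.GS g).filter fun σ => ∀ e' ∈ B, M.Has σ e').card := by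
  obtain ⟨p, x, z⟩ := e
  by_cases hx : p ∈ M.lx x
  swap
  · rw [Finset.filter_eq_empty_iff.2 fun σ _ h => hx (M.has_lx (h _ (Finset.mem_insert_self _ _)))]
    simp
  let C : M.Conf → Finset {x : M.X // p ∈ M.lx x} := fun σ => univ.filter fun x' =>
    M.cx x'.1 = M.cx x ∧ (∀ w : List (Pt × Bool), w.length ≤ g + 2 →
      (M.graph σ).run (Sum.inl x) w ≠ some (Sum.inl x'.1)) ∧ ∀ e' ∈ B, e'.2.1 ≠ x'.1
  have hC : ∀ σ, R - B.card - nearB Pt g ≤ (C σ).card := fun σ => by
    have h1 := Model.card_cand σ g p x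
    have h2 : (univ.filter fun x' : M.X => p ∈ M.lx x' ∧ M.cx x' = M.cx x ∧
        ∀ w : List (Pt × Bool), w.length ≤ g + 2 →
          (M.graph σ).run (Sum.inl x) w ≠ some (Sum.inl x')).card ≤ (C σ).card + B.card := by
      refine le_trans (Finset.card_le_card (t := (C σ).image Subtype.val ∪ B.image (·.2.1))
        fun y hy => ?_) ((Finset.card_union_le _ _).trans
          (add_le_add Finset.card_image_le Finset.card_image_le))
      simp only [Finset.mem_filter, Finset.mem_univ, true_and] at hy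
      by_cases hb : ∃ e' ∈ B, e'.2.1 = y
      · exact Finset.mem_union_right _ (Finset.mem_image.2 hb)
      · push Not at hb
        exact Finset.mem_union_left _ (Finset.mem_image.2
          ⟨⟨y, hy.1⟩, Finset.mem_filter.2 ⟨Finset.mem_univ _, hy.2.1, hy.2.2, hb⟩, rfl⟩)
    omega
  set A := (M.GS g).filter fun σ => ∀ e' ∈ insert (p, x, z) B, M.Has σ e' with hA
  calc A.card * (R - B.card - nearB Pt g) = ∑ σ ∈ A, (R - B.card - nearB Pt g) := by simp
    _ ≤ ∑ σ ∈ A, (C σ).card := Finset.sum_le_sum fun σ _ => hC σ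
    _ = (A.sigma C).card := (Finset.card_sigma _ _).symm
    _ ≤ _ := by
      refine Finset.card_le_card_of_injOn (fun q => M.sw q.1 p ⟨x, hx⟩ q.2) ?_ ?_
      · rintro ⟨σ, x'⟩ hq
        simp only [Finset.coe_sigma, Set.mem_sigma_iff, Finset.mem_coe, hA, C, Finset.mem_filter,
          Finset.mem_univ, true_and, Model.mem_GS] at hq
        obtain ⟨⟨⟨h1, h2⟩, h3⟩, h4, h5, h6⟩ := hq
        simp only [Finset.mem_coe, Finset.mem_filter, Model.mem_GS]
        refine ⟨⟨fun v u hu hr hl => ?_, Model.sw_col h2 p _ _ h4⟩, fun e' he' => ?_⟩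
        · exact h1 v u (Model.sw_walk h1 le_rfl p ⟨x, hx⟩ x' h5 hu hr hl.le).2 hr hl
        · have h7 := h3 e' (Finset.mem_insert_of_mem he')
          unfold Model.Has at h7 ⊢
          rw [Model.sw_old, h7]
          rintro (⟨h8, h9 | h9⟩ | ⟨h8, -⟩)
          · obtain ⟨p', x'', z'⟩ := e'
            obtain rfl : p' = p := congrArg Prod.fst h8
            obtain rfl : x'' = x := Sum.inl.inj h9
            obtain rfl := M.has_injz (h3 _ (Finset.mem_insert_self _ _)) h7
            exact he he'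
          · exact h6 e' he' (Sum.inl.inj h9)
          · simp at h8
      · rintro ⟨σ₁, x₁⟩ hq₁ ⟨σ₂, x₂⟩ hq₂ h
        simp only [Finset.coe_sigma, Set.mem_sigma_iff, Finset.mem_coe, hA, Finset.mem_filter]
          at hq₁ hq₂
        obtain ⟨_, a1⟩ := (M.has_iff _ _ _ _).1 (hq₁.1.2 _ (Finset.mem_insert_self _ _))
        obtain ⟨_, a2⟩ := (M.has_iff _ _ _ _).1 (hq₂.1.2 _ (Finset.mem_insert_self _ _))
        dsimp only at h
        have e1 : M.sw σ₁ p ⟨x, hx⟩ x₁ p x₁ = M.sw σ₁ p ⟨x, hx⟩ x₁ p x₂ := by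
          conv_rhs => rw [h]
          rw [Model.sw_self, Model.sw_self, Equiv.swap_apply_right, Equiv.swap_apply_right]
          exact Subtype.ext (a1.trans a2.symm)
        obtain rfl : x₁ = x₂ := (M.sw σ₁ p ⟨x, hx⟩ x₁ p).injective e1
        have := congrArg (fun σ => M.sw σ p ⟨x, hx⟩ x₁) h
        simp only [Model.sw_sw] at this
        rw [this]

open Classical in
/-- (P1) ZD/Switch.lean -/
theorem switching (M : Model Pt k Np R) (g : ℕ) (B : Finset (Pt × M.X × M.Z)) :
    ((M.GS g).filter fun σ => ∀ e ∈ B, M.Has σ e).card * (R - B.card - nearB Pt g) ^ B.card ≤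
      (M.GS g).card := by
  induction B using Finset.induction_on with
  | empty => simp
  | insert e B he ih =>
    refine le_trans ?_ ih
    refine le_trans ?_ (Nat.mul_le_mul_right _ (switch_step M g B e he))
    rw [Finset.card_insert_of_notMem he, pow_succ', mul_assoc]
    gcongr <;> omega

/-- (P1) ZD/Switch.lean -/
theorem GS_nonempty (M : Model Pt k Np R) (g : ℕ) (h : nearB Pt g < R) : (M.GS g).Nonempty := by
  classical
  have main : ∀ γ ≤ g, ∃ σ : M.Conf, (M.graph σ).Girth γ ∧ M.Col σ := by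
    intro γ
    induction γ with
    | zero =>
      intro _
      have : ∀ p c, Nonempty ({x : {x : M.X // p ∈ M.lx x} // M.cx x.1 = c} ≃
          {z : {z : M.Z // p ∈ M.bz z} // M.cz z.1 = c}) := fun p c => by
        refine ⟨((Equiv.subtypeSubtypeEquivSubtypeInter (fun x => p ∈ M.lx x)
          (fun x => M.cx x = c)).trans (Fintype.equivOfCardEq ?_)).trans
          (Equiv.subtypeSubtypeEquivSubtypeInter (fun z => p ∈ M.bz z) (fun z => M.cz z = c)).symm⟩
        rw [Fintype.card_subtype, Fintype.card_subtype]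
        exact M.cardXZ p c
      refine ⟨fun p => Equiv.ofFiberEquiv (f := fun x => M.cx x.1) (g := fun z => M.cz z.1)
        fun c => (this p c).some, fun _ _ _ _ h => absurd h (Nat.not_lt_zero _), fun p x => ?_⟩
      exact Equiv.ofFiberEquiv_map (f := fun x : {x : M.X // p ∈ M.lx x} => M.cx x.1)
        (g := fun z : {z : M.Z // p ∈ M.bz z} => M.cz z.1) _ x
    | succ γ ih =>
      intro hγ
      let W : M.Conf → Set ((M.X ⊕ M.Z) × List (Pt × Bool)) := fun σ =>
        {q | (M.graph σ).run q.1 q.2 = some q.1 ∧ IsReduced q.2 ∧ q.2.length = γ ∧ q.2 ≠ []}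
      have hW : ∀ σ, (W σ).Finite := fun σ =>
        (Set.finite_univ.prod (List.finite_length_eq (Pt × Bool) γ)).subset
          fun q hq => ⟨trivial, hq.2.2.1⟩
      obtain ⟨σ₀, h₀⟩ := ih (by omega)
      obtain ⟨σ, hσ, hmin⟩ := Finset.exists_min_image
        (univ.filter fun σ : M.Conf => (M.graph σ).Girth γ ∧ M.Col σ) (fun σ => (W σ).ncard)
        ⟨σ₀, by simpa using h₀⟩
      simp only [Finset.mem_filter, Finset.mem_univ, true_and] at hσ hmin
      refine ⟨σ, fun v u hu hr hl => ?_, hσ.2⟩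
      by_contra hne
      have hl' : u.length = γ := by
        by_contra h1
        exact hne (hσ.1 v u hu hr (by omega))
      obtain ⟨d, u', rfl⟩ := List.exists_cons_of_ne_nil hne
      obtain ⟨y, hy, -⟩ := (LG.run_cons_eq_some _).1 hu
      have : ∃ (p : Pt) (x : {x : M.X // p ∈ M.lx x}), ∀ x', M.SwNew σ p x x' v d := by
        obtain ⟨p, b⟩ := d
        change M.nxt σ v (p, b) = some y at hy
        rcases v with x | z <;> cases b <;> simp only [Model.nxt] at hy
        · cases hy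
        · split_ifs at hy with hp
          exact ⟨p, ⟨x, hp⟩, fun x' => Or.inl ⟨rfl, Or.inl rfl⟩⟩
        · split_ifs at hy with hp
          exact ⟨p, (σ p).symm ⟨z, hp⟩, fun x' => Or.inr ⟨rfl, Or.inl (by simp)⟩⟩
        · cases hy
      obtain ⟨p, x, hnew⟩ := this
      have h1 := Model.card_cand σ g p x.1
      obtain ⟨x', hx'⟩ := Finset.card_pos.1 (lt_of_add_lt_add_right (a := nearB Pt g)
        (by rw [zero_add]; exact h.trans_le h1))
      simp only [Finset.mem_filter, Finset.mem_univ, true_and] at hx'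
      have key := fun v u => Model.sw_walk (v := v) (u := u) hσ.1 (by omega : γ ≤ g) p x
        ⟨x', hx'.1⟩ hx'.2.2
      have h2 := hmin (M.sw σ p x ⟨x', hx'.1⟩) ⟨fun v u hu hr hl =>
        hσ.1 v u (key v u hu hr hl.le).2 hr hl, Model.sw_col hσ.2 p _ _ hx'.2.1⟩
      refine absurd h2 (not_le.2 (Set.ncard_lt_ncard ?_ (hW σ)))
      refine ⟨fun q hq => ⟨(key _ _ hq.1 hq.2.1 hq.2.2.1.le).2, hq.2⟩, fun hsub => ?_⟩
      have h3 : (v, d :: u') ∈ W σ := ⟨hu, hr, hl', hne⟩
      exact (key _ _ (hsub h3).1 hr hl'.le).1.1 (hnew _)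
  obtain ⟨σ, hσ⟩ := main g le_rfl
  exact ⟨σ, (Model.mem_GS M).2 hσ⟩

end

end Crest.Agent.ZD
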